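import Vale.Agent.P371.Full.EndpointForm
import Mathlib.Topology.Order.Compact

/-! # M3: the endpoint matrix of the threshold Riccati path

`θ` = largest scaling with a nonnegative form (`1/θ` is a supremum of Rayleigh quotients, hence
continuous), `R = S_θ(L) + K`.
-/

namespace Vale.Agent.P371.Full

open MeasureTheory Matrix

noncomputable section

variable {N : ℕ}

/-- Rayleigh quotients of the potential against the kinetic form. -/
def rayleighSet (κ : Fin N → ℝ) (L : ℝ) (W : ℝ → Mat N) : Set ℝ :=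
  {r | ∃ f f', IsWTest L f f' ∧ r = potInt W (-L) L f / wKin κ L f f'}

theorem wKin_ge {κ : Fin N → ℝ} (hκ : ∀ i, 0 < κ i) {L : ℝ} (hL : 0 < L) :
    ∃ k, 0 < k ∧ ∀ f f', IsWTest L f f' →
      k * (∫ x in (-L)..L, ∑ i, f x i ^ 2) ≤ wKin κ L f f' := by
  refine ⟨(1 + ∑ i, (κ i ^ 2)⁻¹)⁻¹, ?_, fun f f' hf => ?_⟩
  · have := Finset.sum_nonneg (fun i (_ : i ∈ Finset.univ) => (inv_pos.2 (pow_pos (hκ i) 2)).le)
    positivity
  set k := (1 + ∑ i, (κ i ^ 2)⁻¹)⁻¹ with hk
  have hki : ∀ i, k ≤ κ i ^ 2 := fun i => by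
    have h2 := Finset.single_le_sum (f := fun j => (κ j ^ 2)⁻¹)
      (fun j _ => (inv_pos.2 (pow_pos (hκ j) 2)).le) (Finset.mem_univ i)
    refine inv_le_of_inv_le₀ (pow_pos (hκ i) 2) ?_
    linarith
  have hLL : -L ≤ L := by linarith
  have hc := hf.cont
  have iF : IntervalIntegrable (fun x => ∑ i, f x i ^ 2) volume (-L) L :=
    ContinuousOn.intervalIntegrable_of_Icc hLL (by fun_prop)
  have iK : IntervalIntegrable (fun x => (∑ i, f' x i ^ 2) + ∑ i, κ i ^ 2 * f x i ^ 2) volume (-L) L := by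
    refine IntervalIntegrable.add ?_ (ContinuousOn.intervalIntegrable_of_Icc hLL (by fun_prop))
    exact IntervalIntegrable.sum Finset.univ (fun i _ => hf.int2 i) |>.congr
      (fun x _ => by simp [Finset.sum_apply])
  have h1 : k * (∫ x in (-L)..L, ∑ i, f x i ^ 2) ≤ kinInt κ (-L) L f f' := by
    rw [← intervalIntegral.integral_const_mul]
    refine intervalIntegral.integral_mono_on hLL (iF.const_mul k) iK fun x _ => ?_
    have := Finset.sum_nonneg (fun i (_ : i ∈ Finset.univ) => sq_nonneg (f' x i))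
    have : k * ∑ i, f x i ^ 2 ≤ ∑ i, κ i ^ 2 * f x i ^ 2 := by
      rw [Finset.mul_sum]
      exact Finset.sum_le_sum fun i _ => mul_le_mul_of_nonneg_right (hki i) (sq_nonneg _)
    linarith
  have h2 : ∀ y, 0 ≤ ∑ i, κ i * f y i ^ 2 := fun y =>
    Finset.sum_nonneg fun i _ => mul_nonneg (hκ i).le (sq_nonneg _)
  rw [wKin]
  linarith [h2 L, h2 (-L)]

/-- `∫ f W f ≤ N b ∫ |f|²` when the entries of `W` are at most `b`. -/
theorem abs_potInt_le {W : ℝ → Mat N} (hW : ∀ i j, Continuous fun y => W y i j) {L b : ℝ} (hL : 0 < L)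
    (hb : ∀ x ∈ Set.Icc (-L) L, ∀ i j, |W x i j| ≤ b) {f : ℝ → Fin N → ℝ}
    (hf : ∀ i, ContinuousOn (fun y => f y i) (Set.Icc (-L) L)) :
    |potInt W (-L) L f| ≤ N * b * ∫ x in (-L)..L, ∑ i, f x i ^ 2 := by
  have hLL : -L ≤ L := by linarith
  rw [← intervalIntegral.integral_const_mul]
  have hc := contOn_qf (fun i j => (hW i j).continuousOn) hf (s := Set.Icc (-L) L)
  refine (intervalIntegral.abs_integral_le_integral_abs hLL).trans
    (intervalIntegral.integral_mono_on hLL (hc.abs.intervalIntegrable_of_Icc hLL)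
      (ContinuousOn.intervalIntegrable_of_Icc hLL (by fun_prop)) fun x hx => ?_)
  calc |f x ⬝ᵥ (W x *ᵥ f x)| = |∑ i, ∑ j, f x i * (W x i j * f x j)| := by
        simp [dotProduct, Matrix.mulVec, Finset.mul_sum]
    _ ≤ ∑ i, ∑ j, b / 2 * (f x i ^ 2 + f x j ^ 2) := by
        refine (Finset.abs_sum_le_sum_abs _ _).trans (Finset.sum_le_sum fun i _ =>
          (Finset.abs_sum_le_sum_abs _ _).trans (Finset.sum_le_sum fun j _ => ?_))
        rw [abs_mul, abs_mul]
        have h0 := abs_nonneg (W x i j)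
        nlinarith [mul_nonneg h0 (sq_nonneg (|f x i| - |f x j|)), sq_abs (f x i), sq_abs (f x j),
          mul_le_mul_of_nonneg_right (hb x hx i j) (add_nonneg (sq_nonneg (f x i)) (sq_nonneg (f x j)))]
    _ = N * b * ∑ i, f x i ^ 2 := by
        simp only [← Finset.mul_sum, Finset.sum_add_distrib, Finset.sum_const, Finset.card_univ,
          Fintype.card_fin, nsmul_eq_mul]
        ring

theorem potInt_smul (θ : ℝ) (W : ℝ → Mat N) (a b : ℝ) (f : ℝ → Fin N → ℝ) :
    potInt (fun x => θ • W x) a b f = θ * potInt W a b f := by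
  rw [potInt, potInt, ← intervalIntegral.integral_const_mul]
  simp only [smul_mulVec, dotProduct_smul, smul_eq_mul]

theorem clip_flip {M : ℝ} (hM : 0 ≤ M) {e : Fin N → ℝ} (he : IsSigns e) (A : Mat N) :
    clip M (flipMat e A) = flipMat e (clip M A) := by
  ext i j
  simp only [clip, flipMat, Matrix.of_apply]
  rcases he i with hi | hi <;> rcases he j with hj | hj <;>
    simp only [hi, hj, one_mul, mul_one, neg_mul, mul_neg, neg_neg]
  all_goals
    rcases le_total M (A i j) with h | h <;> rcases le_total (A i j) (-M) with h' | h' <;>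
      simp only [max_def, min_def] <;> split_ifs <;> linarith

theorem flip_mul {e : Fin N → ℝ} (he : IsSigns e) (A B : Mat N) :
    flipMat e A * flipMat e B = flipMat e (A * B) := by
  ext i j
  simp only [Matrix.mul_apply, flipMat, Matrix.of_apply, Finset.mul_sum, Finset.sum_mul]
  refine Finset.sum_congr rfl fun k _ => ?_
  rcases he k with hk | hk <;> rw [hk] <;> ring

theorem flip_diag {e : Fin N → ℝ} (he : IsSigns e) (d : Fin N → ℝ) :
    flipMat e (diagonal d) = diagonal d := by
  ext i j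
  simp only [flipMat, Matrix.of_apply, diagonal_apply]
  split_ifs with h
  · subst h; rcases he i with hi | hi <;> rw [hi] <;> ring
  · ring

theorem isFlow_flip {κ : Fin N → ℝ} {M L : ℝ} (hM : 0 ≤ M) {W S : ℝ → Mat N} {e : Fin N → ℝ} (he : IsSigns e)
    (h : IsFlow κ M W L S) :
    IsFlow κ M (fun x => flipMat e (W x)) L fun x => flipMat e (S x) := by
  refine ⟨by simp only [h.1, flip_diag he], fun x hx i j => ?_⟩
  have hd := ((h.2 x hx i j).const_mul (e i)).mul_const (e j)
  refine hd.congr_deriv ?_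
  rw [clip_flip hM he, flip_mul he, Matrix.sub_apply, Matrix.sub_apply, Matrix.sub_apply, Matrix.sub_apply]
  have := congrFun (congrFun (flip_diag he fun i => κ i ^ 2) i) j
  simp only [flipMat, Matrix.of_apply] at this ⊢
  linear_combination this

theorem flipMat_smul (e : Fin N → ℝ) (θ : ℝ) (A : Mat N) :
    flipMat e (θ • A) = θ • flipMat e A := by
  ext i j
  simp only [flipMat, Matrix.of_apply, Matrix.smul_apply, smul_eq_mul]
  ring

theorem rayleigh_flip {κ : Fin N → ℝ} {L : ℝ} {e : Fin N → ℝ} (he : IsSigns e) {W W' : ℝ → Mat N}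
    (h : ∀ x, W' x = flipMat e (W x)) : rayleighSet κ L W' ⊆ rayleighSet κ L W := by
  rintro r ⟨f, f', hf, rfl⟩
  have hsq : ∀ i (t : ℝ), (e i * t) ^ 2 = t ^ 2 := fun i t => by
    rcases he i with hi | hi <;> rw [hi] <;> ring
  refine ⟨fun y i => e i * f y i, fun y i => e i * f' y i, ⟨fun i => (hf.cont i).const_smul (e i), ?_,
    fun i => (hf.int i).const_mul _, fun i => ?_⟩, ?_⟩
  · obtain ⟨b, hb⟩ := hf.deriv
    exact ⟨b, fun i x hx => (hb i x hx).const_mul (e i)⟩
  · simp only [hsq]; exact hf.int2 i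
  · congr 1
    · unfold potInt
      refine intervalIntegral.integral_congr fun x _ => ?_
      simp only [h, dotProduct, Matrix.mulVec, flipMat, Matrix.of_apply, Finset.mul_sum]
      exact Finset.sum_congr rfl fun i _ => Finset.sum_congr rfl fun j _ => by ring
    · simp only [wKin, kinInt, hsq]

theorem exists_endpoint {N : ℕ} {κ : Fin N → ℝ} (hκ : ∀ i, 0 < κ i) {L : ℝ} (hL : 0 < L)
    {α : Type} [MetricSpace α] {Ω : Set α} {V : α → ℝ → Mat N}
    (hc : ∀ i j, ContinuousOn (fun p : α × ℝ => V p.1 p.2 i j) (Ω ×ˢ Set.univ))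
    (hp : ∀ c ∈ Ω, ∀ x, (V c x).PosSemidef)
    (ht : ∀ c ∈ Ω, ∃ f f', IsTest L f f' ∧ energy κ (V c) L f f' ≤ 0) :
    ∃ R : α → Mat N,
      (∀ i j, ContinuousOn (fun c => R c i j) Ω) ∧
      (∀ c ∈ Ω, (R c).PosSemidef ∧ (R c).det = 0) ∧
      (∀ c ∈ Ω, ∀ c' ∈ Ω, ∀ e : Fin N → ℝ, IsSigns e →
        (∀ x, V c' x = flipMat e (V c x)) → R c' = flipMat e (R c)) ∧
      (∀ c ∈ Ω, ∀ j, (∀ x l, V c x j l = 0) →
        R c j j = 2 * κ j ∧ ∀ l, l ≠ j → R c j l = 0) ∧
      (∀ c ∈ Ω, R c = 0 → ∃ θ ∈ Set.Icc (0 : ℝ) 1, ∃ S,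
        IsLift κ (fun x => θ • V c x) S L) := by
  have hLL : -L ≤ L := by linarith
  obtain ⟨k, hk, hkin⟩ := wKin_ge hκ hL
  have hVc : ∀ c ∈ Ω, ∀ i j, Continuous fun y => V c y i j := fun c hcΩ i j =>
    (hc i j).comp_continuous (continuous_const.prodMk continuous_id) fun y => ⟨hcΩ, Set.mem_univ _⟩
  -- suprema
  have hbd : ∀ c ∈ Ω, BddAbove (rayleighSet κ L (V c)) ∧ (rayleighSet κ L (V c)).Nonempty := by
    intro c hcΩ
    have hC : ∀ i j, ∃ C, ∀ x ∈ Set.Icc (-L) L, ‖V c x i j‖ ≤ C := fun i j =>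
      isCompact_Icc.exists_bound_of_continuousOn (hVc c hcΩ i j).continuousOn
    choose C hC using hC
    refine ⟨⟨N * (∑ i, ∑ j, |C i j|) / k, ?_⟩, ⟨_, 0, 0,
      ⟨fun i => continuousOn_const, ⟨0, fun i x _ => by simp [hasDerivAt_const]⟩,
        fun i => intervalIntegrable_const, fun i => by simp [intervalIntegrable_const]⟩, rfl⟩⟩
    rintro r ⟨f, f', hf, rfl⟩
    have h1 := abs_potInt_le (hVc c hcΩ) hL (b := ∑ i, ∑ j, |C i j|) (fun x hx i j => by
      calc |V c x i j| ≤ |C i j| := (hC i j x hx).trans (le_abs_self _)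
        _ ≤ ∑ j, |C i j| := Finset.single_le_sum (fun j _ => abs_nonneg (C i j)) (Finset.mem_univ j)
        _ ≤ _ := Finset.single_le_sum (f := fun i => ∑ j, |C i j|)
            (fun i _ => Finset.sum_nonneg fun j _ => abs_nonneg _) (Finset.mem_univ i)) hf.cont
    have hI : 0 ≤ ∫ x in (-L)..L, ∑ i, f x i ^ 2 :=
      intervalIntegral.integral_nonneg hLL fun x _ => Finset.sum_nonneg fun i _ => sq_nonneg _
    have h2 := hkin f f' hf
    have hB : 0 ≤ (N : ℝ) * ∑ i, ∑ j, |C i j| := by positivity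
    rcases le_or_gt (wKin κ L f f') 0 with hz | hz
    · rw [show wKin κ L f f' = 0 from le_antisymm hz (le_trans (mul_nonneg hk.le hI) h2), div_zero]
      positivity
    · rw [div_le_div_iff₀ hz hk]
      nlinarith [le_abs_self (potInt (V c) (-L) L f), mul_le_mul_of_nonneg_left h2 hB]
  set μ : α → ℝ := fun c => sSup (rayleighSet κ L (V c)) with hμ
  have hμle : ∀ c ∈ Ω, ∀ f f', IsWTest L f f' → potInt (V c) (-L) L f ≤ μ c * wKin κ L f f' := by
    intro c hcΩ f f' hf
    have h2 := hkin f f' hf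
    have hI : 0 ≤ ∫ x in (-L)..L, ∑ i, f x i ^ 2 :=
      intervalIntegral.integral_nonneg hLL fun x _ => Finset.sum_nonneg fun i _ => sq_nonneg _
    rcases le_or_gt (wKin κ L f f') 0 with hz | hz
    · have hz0 : wKin κ L f f' = 0 := le_antisymm hz (le_trans (mul_nonneg hk.le hI) h2)
      have hI0 : ∫ x in (-L)..L, ∑ i, f x i ^ 2 = 0 := by nlinarith
      have hC : ∀ i j, ∃ C, ∀ x ∈ Set.Icc (-L) L, ‖V c x i j‖ ≤ C := fun i j =>
        isCompact_Icc.exists_bound_of_continuousOn (hVc c hcΩ i j).continuousOn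
      choose C hC using hC
      have h1 := abs_potInt_le (hVc c hcΩ) hL (b := ∑ i, ∑ j, |C i j|) (fun x hx i j => by
        calc |V c x i j| ≤ |C i j| := (hC i j x hx).trans (le_abs_self _)
          _ ≤ ∑ j, |C i j| := Finset.single_le_sum (fun j _ => abs_nonneg (C i j)) (Finset.mem_univ j)
          _ ≤ _ := Finset.single_le_sum (f := fun i => ∑ j, |C i j|)
              (fun i _ => Finset.sum_nonneg fun j _ => abs_nonneg _) (Finset.mem_univ i)) hf.cont
      rw [hI0, mul_zero] at h1
      rw [hz0, mul_zero]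
      exact (le_abs_self _).trans h1
    · rw [← div_le_iff₀ hz]
      exact le_csSup (hbd c hcΩ).1 ⟨f, f', hf, rfl⟩
  have hμ1 : ∀ c ∈ Ω, 1 ≤ μ c := by
    intro c hcΩ
    obtain ⟨f, f', hT, hE⟩ := ht c hcΩ
    have hfc : ∀ i, Continuous fun y => f y i := fun i =>
      continuous_iff_continuousAt.mpr fun x => (hT.deriv x i).continuousAt
    have hf'c : ∀ i, Continuous fun y => f' y i := fun i => (continuous_apply i).comp hT.cont
    have hw : IsWTest L f f' := ⟨fun i => (hfc i).continuousOn, ⟨0, fun i x _ => hT.deriv x i⟩,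
      fun i => (hf'c i).intervalIntegrable _ _, fun i => ((hf'c i).pow 2).intervalIntegrable _ _⟩
    have hW0 : Continuous fun x => f x ⬝ᵥ (V c x *ᵥ f x) := continuousOn_univ.1
      (contOn_qf (fun i j => (hVc c hcΩ i j).continuousOn) fun i => (hfc i).continuousOn)
    have hEq : energy κ (V c) L f f' = wKin κ L f f' - potInt (V c) (-L) L f := by
      rw [wKin, hT.left, hT.right, energy, kinInt, potInt, intervalIntegral.integral_sub
        (Continuous.intervalIntegrable (by fun_prop) _ _) (hW0.intervalIntegrable _ _)]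
      simp
    have hI : 0 < ∫ x in (-L)..L, ∑ i, f x i ^ 2 := by
      obtain ⟨x, hx, hne⟩ := hT.ne
      refine intervalIntegral.integral_pos (by linarith) (by fun_prop)
        (fun y _ => Finset.sum_nonneg fun i _ => sq_nonneg _) ⟨x, hx, ?_⟩
      obtain ⟨i, hi⟩ := Function.ne_iff.1 hne
      exact lt_of_lt_of_le (sq_pos_of_ne_zero hi)
        (Finset.single_le_sum (fun i _ => sq_nonneg (f x i)) (Finset.mem_univ i))
    have hden : 0 < wKin κ L f f' := lt_of_lt_of_le (mul_pos hk hI) (hkin f f' hw)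
    refine le_trans ?_ (le_csSup (hbd c hcΩ).1 ⟨f, f', hw, rfl⟩)
    rw [one_le_div hden]
    linarith
  have hμc : ContinuousOn μ Ω := by
    intro c hcΩ
    refine Metric.tendsto_nhds.2 fun ε hε => ?_
    set η := ε * k / (2 * (N + 1)) with hη
    have hη0 : 0 < η := by positivity
    have key : ∀ᶠ c' in nhdsWithin c Ω, ∀ x ∈ Set.Icc (-L) L, ∀ i j,
        |V c' x i j - V c x i j| ≤ η := by
      have key' : ∀ᶠ c' in nhds c, ∀ x ∈ Set.Icc (-L) L, c' ∈ Ω → ∀ i j,
          |V c' x i j - V c x i j| ≤ η := by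
        refine isCompact_Icc.eventually_forall_of_forall_eventually fun x hx => ?_
        suffices h : ∀ i j, ∀ᶠ p : α × ℝ in nhdsWithin c Ω ×ˢ nhds x,
            |V p.1 p.2 i j - V c p.2 i j| ≤ η by
          rw [← nhdsWithin_univ x, ← nhdsWithin_prod_eq] at h
          simp only [eventually_nhdsWithin_iff, Set.mem_prod, Set.mem_univ, and_true] at h
          filter_upwards [Filter.eventually_all.2 fun i => Filter.eventually_all.2 (h i)] with p hp hΩ i j
          exact hp i j hΩ
        intro i j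
        have h1 := ((hc i j) (c, x) ⟨hcΩ, Set.mem_univ _⟩).tendsto
        rw [nhdsWithin_prod_eq, nhdsWithin_univ] at h1
        have h2 : Filter.Tendsto (fun p : α × ℝ => V c p.2 i j)
            (nhdsWithin c Ω ×ˢ nhds x) (nhds (V c x i j)) :=
          ((hVc c hcΩ i j).tendsto x).comp Filter.tendsto_snd
        have h3 := (h1.sub h2).abs
        simp only [sub_self, abs_zero] at h3
        exact h3.eventually (eventually_le_nhds hη0)
      filter_upwards [nhdsWithin_le_nhds key', self_mem_nhdsWithin] with c' h hΩ x hx i j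
      exact h x hx hΩ i j
    filter_upwards [key, self_mem_nhdsWithin] with c' hc' hc'Ω
    have main : ∀ a ∈ Ω, ∀ b ∈ Ω, (∀ x ∈ Set.Icc (-L) L, ∀ i j, |V a x i j - V b x i j| ≤ η) →
        μ a ≤ μ b + ε / 2 := by
      intro a ha b hb hab
      refine csSup_le (hbd a ha).2 ?_
      rintro r ⟨f, f', hf, rfl⟩
      have hμb : 0 ≤ μ b := le_trans zero_le_one (hμ1 b hb)
      have hI : 0 ≤ ∫ x in (-L)..L, ∑ i, f x i ^ 2 :=
        intervalIntegral.integral_nonneg hLL fun x _ => Finset.sum_nonneg fun i _ => sq_nonneg _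
      rcases le_or_gt (wKin κ L f f') 0 with hz | hz
      · rw [show wKin κ L f f' = 0 from le_antisymm hz (le_trans (mul_nonneg hk.le hI) (hkin f f' hf)),
          div_zero]
        linarith
      have h1 := abs_potInt_le (W := fun x => V a x - V b x)
        (fun i j => (hVc a ha i j).sub (hVc b hb i j)) hL (b := η) hab hf.cont
      have hsub : potInt (fun x => V a x - V b x) (-L) L f
          = potInt (V a) (-L) L f - potInt (V b) (-L) L f := by
        unfold potInt
        rw [← intervalIntegral.integral_sub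
          ((contOn_qf (fun i j => (hVc a ha i j).continuousOn) hf.cont).intervalIntegrable_of_Icc hLL)
          ((contOn_qf (fun i j => (hVc b hb i j).continuousOn) hf.cont).intervalIntegrable_of_Icc hLL)]
        simp only [sub_mulVec, dotProduct_sub]
      rw [hsub] at h1
      rw [div_le_iff₀ hz]
      have h2 := hμle b hb f f' hf
      have hηk : (N : ℝ) * η ≤ ε / 2 * k := by
        rw [hη, ← mul_div_assoc, div_le_iff₀ (by positivity)]
        nlinarith [mul_pos hε hk]
      nlinarith [le_abs_self (potInt (V a) (-L) L f - potInt (V b) (-L) L f), hkin f f' hf,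
        mul_le_mul_of_nonneg_right hηk hI]
    have e1 := main c' hc'Ω c hcΩ hc'
    have e2 := main c hcΩ c' hc'Ω fun x hx i j => by rw [abs_sub_comm]; exact hc' x hx i j
    rw [Real.dist_eq, abs_lt]
    constructor <;> linarith
  set θ : α → ℝ := fun c => (μ c)⁻¹ with hθ
  have hθI : ∀ c ∈ Ω, 0 < θ c ∧ θ c ≤ 1 := fun c hcΩ =>
    ⟨inv_pos.2 (lt_of_lt_of_le zero_lt_one (hμ1 c hcΩ)), inv_le_one_of_one_le₀ (hμ1 c hcΩ)⟩
  have hθc : ContinuousOn θ Ω := hμc.inv₀ fun c hcΩ => (lt_of_lt_of_le zero_lt_one (hμ1 c hcΩ)).ne'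
  set M := (∑ i, κ i) + 1 with hMdef
  have hM : 0 ≤ M := by have := Finset.sum_nonneg (fun i (_ : i ∈ Finset.univ) => (hκ i).le); linarith
  have hWj : ∀ i j, ContinuousOn (fun p : α × ℝ => (θ p.1 • V p.1 p.2) i j) (Ω ×ˢ Set.univ) :=
    fun i j => (hθc.comp continuousOn_fst fun p hp => hp.1).smul (hc i j)
  obtain ⟨S, hS, hSc⟩ := exists_flow κ hM hL (V := fun c x => θ c • V c x) hWj
  have hWc : ∀ c ∈ Ω, ∀ i j, Continuous fun y => (θ c • V c y) i j := fun c hcΩ i j =>
    (hVc c hcΩ i j).const_smul (θ c)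
  have hWp : ∀ c ∈ Ω, ∀ x, (θ c • V c x).PosSemidef := fun c hcΩ x =>
    (hp c hcΩ x).smul (hθI c hcΩ).1.le
  have hform : ∀ c ∈ Ω, ∀ f f', IsWTest L f f' →
      potInt (fun x => θ c • V c x) (-L) L f ≤ wKin κ L f f' := by
    intro c hcΩ f f' hf
    rw [potInt_smul]
    have hpos : 0 < μ c := lt_of_lt_of_le zero_lt_one (hμ1 c hcΩ)
    rw [hθ, inv_mul_le_iff₀ hpos]
    exact hμle c hcΩ f f' hf
  have hric := fun c (hcΩ : c ∈ Ω) => flow_ricc hκ (hWc c hcΩ) (hWp c hcΩ) hL (hform c hcΩ) (hS c hcΩ)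
  have hLm : L ∈ Set.Icc (-L) L := Set.right_mem_Icc.2 hLL
  refine ⟨fun c => S c L + diagonal κ, fun i j => (hSc i j).add continuousOn_const,
    fun c hcΩ => ?_, ?_, ?_, ?_⟩
  · obtain ⟨hR, hsym, hbds⟩ := hric c hcΩ
    have hpsd : (S c L + diagonal κ).PosSemidef := add_comm (diagonal κ) (S c L) ▸ (hbds L hLm).2
    refine ⟨hpsd, ?_⟩
    by_contra hdet
    obtain ⟨δ, hδ, hco⟩ := coercive (hWc c hcΩ) hL hR hsym (hS c hcΩ).1
      (hpsd.posDef_iff_isUnit.2 ((Matrix.isUnit_iff_isUnit_det _).2 (isUnit_iff_ne_zero.2 hdet)))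
    -- then a slightly larger scaling still gives a nonnegative form
    have hC : ∀ i j, ∃ C, ∀ x ∈ Set.Icc (-L) L, ‖V c x i j‖ ≤ C := fun i j =>
      isCompact_Icc.exists_bound_of_continuousOn (hVc c hcΩ i j).continuousOn
    choose C hC using hC
    set B := (N : ℝ) * (∑ i, ∑ j, |C i j|) + 1 with hB
    have hB0 : 0 < B := by positivity
    set ν := (θ c + δ / B)⁻¹ with hν
    have hlt : ν < μ c := by
      rw [hν]
      refine inv_lt_of_inv_lt₀ (lt_of_lt_of_le zero_lt_one (hμ1 c hcΩ)) ?_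
      have : 0 < δ / B := div_pos hδ hB0
      simp only [hθ]; linarith
    refine (not_le.2 hlt) (csSup_le (hbd c hcΩ).2 ?_)
    rintro r ⟨f, f', hf, rfl⟩
    have hpos : 0 < θ c + δ / B := by
      have := div_pos hδ hB0
      linarith [(hθI c hcΩ).1]
    have hI : 0 ≤ ∫ x in (-L)..L, ∑ i, f x i ^ 2 :=
      intervalIntegral.integral_nonneg hLL fun x _ => Finset.sum_nonneg fun i _ => sq_nonneg _
    rcases le_or_gt (wKin κ L f f') 0 with hz | hz
    · rw [show wKin κ L f f' = 0 from le_antisymm hz (le_trans (mul_nonneg hk.le hI) (hkin f f' hf)),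
        div_zero, hν]
      positivity
    have h1 := abs_potInt_le (hVc c hcΩ) hL (b := ∑ i, ∑ j, |C i j|) (fun x hx i j => by
      calc |V c x i j| ≤ |C i j| := (hC i j x hx).trans (le_abs_self _)
        _ ≤ ∑ j, |C i j| := Finset.single_le_sum (fun j _ => abs_nonneg (C i j)) (Finset.mem_univ j)
        _ ≤ _ := Finset.single_le_sum (f := fun i => ∑ j, |C i j|)
            (fun i _ => Finset.sum_nonneg fun j _ => abs_nonneg _) (Finset.mem_univ i)) hf.cont
    have h2 := hco f f' hf
    rw [potInt_smul] at h2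
    have h3 : potInt (V c) (-L) L f ≤ B * ∫ x in (-L)..L, ∑ i, f x i ^ 2 := by
      rw [hB, add_mul, one_mul]
      linarith [le_abs_self (potInt (V c) (-L) L f)]
    have h4 : δ / B * potInt (V c) (-L) L f ≤ δ * ∫ x in (-L)..L, ∑ i, f x i ^ 2 := by
      rw [div_mul_eq_mul_div, div_le_iff₀ hB0]
      nlinarith
    rw [div_le_iff₀ hz, hν, inv_mul_eq_div, le_div_iff₀ hpos]
    nlinarith
  · intro c hcΩ c' hc'Ω e he hV
    have hμe : μ c' = μ c := by
      simp only [hμ]
      refine congrArg sSup (Set.Subset.antisymm (rayleigh_flip he hV) (rayleigh_flip he fun x => ?_))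
      ext i j
      rw [hV]
      simp only [flipMat, Matrix.of_apply]
      rcases he i with hi | hi <;> rcases he j with hj | hj <;> rw [hi, hj] <;> ring
    have hfl := isFlow_flip hM he (hS c hcΩ)
    have hVe : (fun x => flipMat e (θ c • V c x)) = fun x => θ c' • V c' x := by
      funext x; rw [flipMat_smul, ← hV x, hθ]; simp only [hμe]
    rw [hVe] at hfl
    show S c' L + diagonal κ = flipMat e (S c L + diagonal κ)
    rw [flow_unique hM hL (hS c' hc'Ω) hfl L hLm]
    ext i j
    simp only [Matrix.add_apply, flipMat, Matrix.of_apply, diagonal_apply]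
    split_ifs with h
    · subst h; rcases he i with hi | hi <;> rw [hi] <;> ring
    · ring
  · intro c hcΩ j hj
    have hWs : ∀ x l, V c x l j = 0 := fun x l => by
      have hH := (hp c hcΩ x).isHermitian.apply j l
      rw [star_trivial, hj x l] at hH
      exact hH
    set e : Fin N → ℝ := fun l => if l = j then -1 else 1 with hedef
    have he : IsSigns e := fun l => by
      by_cases h : l = j <;> simp [hedef, h]
    have hfl := isFlow_flip hM he (hS c hcΩ)
    have hVe : (fun x => flipMat e (θ c • V c x)) = fun x => θ c • V c x := by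
      funext x; ext a b
      simp only [flipMat, Matrix.of_apply, Matrix.smul_apply, smul_eq_mul, hedef]
      by_cases ha : a = j <;> by_cases hb : b = j <;>
        simp [ha, hb, hj x, hWs x]
    rw [hVe] at hfl
    have hoff : ∀ x ∈ Set.Icc (-L) L, ∀ l, l ≠ j → S c x j l = 0 ∧ S c x l j = 0 := by
      intro x hx l hl
      have h := flow_unique hM hL (hS c hcΩ) hfl x hx
      have h1 := congrFun (congrFun h j) l
      have h2 := congrFun (congrFun h l) j
      simp [flipMat, hedef, hl] at h1 h2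
      exact ⟨by linarith, by linarith⟩
    -- the `j` channel stays at `κ j`
    set T : ℝ → Mat N := fun x => Matrix.of fun a b => if a = j ∧ b = j then κ j else S c x a b
    have hκj : max (-M) (min M (κ j)) = κ j := by
      have := Finset.single_le_sum (fun l _ => (hκ l).le) (Finset.mem_univ j)
      rw [min_eq_right (by linarith), max_eq_right (by linarith [hκ j])]
    have hT : IsFlow κ M (fun x => θ c • V c x) L T := by
      refine ⟨?_, fun x hx a b => ?_⟩
      · ext a b
        simp only [T, Matrix.of_apply, (hS c hcΩ).1]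
        split_ifs with h
        · rw [h.1, h.2, diagonal_apply_eq]
        · rfl
      have hoffc : ∀ l, l ≠ j → clip M (S c x) j l = 0 ∧ clip M (S c x) l j = 0 := fun l hl => by
        simp [clip, hoff x hx l hl, hM]
      by_cases hab : a = j ∧ b = j
      · obtain ⟨ha, hb⟩ := hab
        subst ha
        subst b
        have hz : (diagonal (fun i => κ i ^ 2) - clip M (T x) * clip M (T x) - θ c • V c x) a a = 0 := by
          rw [Matrix.sub_apply, Matrix.sub_apply, diagonal_apply_eq, Matrix.mul_apply,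
            Finset.sum_eq_single a (fun l _ hl => by
              simp [clip, T, hl, hoff x hx l hl, hM]) (by simp)]
          simp [clip, T, hκj, hj x a, sq]
        rw [hz]
        simpa [T] using (hasDerivWithinAt_const x (Set.Icc (-L) L) (κ a))
      · have hd := (hS c hcΩ).2 x hx a b
        have e : (clip M (T x) * clip M (T x)) a b = (clip M (S c x) * clip M (S c x)) a b := by
          simp only [Matrix.mul_apply]
          refine Finset.sum_congr rfl fun l _ => ?_
          by_cases hl : l = j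
          · subst hl
            by_cases ha : a = l
            · subst ha
              have hb : b ≠ a := fun h => hab ⟨rfl, h⟩
              simp [clip, T, hb, hoff x hx b hb, hM]
            · simp [clip, T, ha, hoff x hx a ha, hM]
          · simp [clip, T, hl]
        simp only [Matrix.sub_apply, e] at hd ⊢
        simpa [T, hab] using hd
    have hjj := flow_unique hM hL (hS c hcΩ) hT L hLm
    refine ⟨?_, fun l hl => ?_⟩
    · have := congrFun (congrFun hjj j) j
      simp only [T, Matrix.of_apply, and_self, if_true] at this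
      show (S c L + diagonal κ) j j = _
      rw [Matrix.add_apply, diagonal_apply_eq, this]; ring
    · show (S c L + diagonal κ) j l = _
      rw [Matrix.add_apply, diagonal_apply_ne' _ hl, (hoff L hLm l hl).1, add_zero]
  · intro c hcΩ h0
    obtain ⟨hR, hsym, hbds⟩ := hric c hcΩ
    exact ⟨θ c, ⟨(hθI c hcΩ).1.le, (hθI c hcΩ).2⟩, S c, hL,
      continuous_pi fun i => continuous_pi fun j => hWc c hcΩ i j, hWp c hcΩ, hR, (hS c hcΩ).1,
      eq_neg_of_add_eq_zero_left h0, fun x hx => (hbds x hx).1, fun x hx => (hbds x hx).2⟩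

end

end Vale.Agent.P371.Full
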