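import Vale.Agent.P371.Full.TrPoly
import Vale.Agent.P371.Lift

/-! # Complex channels as pairs of real channels -/

namespace Vale.Agent.P371.Full

open MeasureTheory Matrix
open Vale.Agent.P371.LT
open scoped ComplexOrder

noncomputable section

/-- Pairs of indices, the bit being the fast one. -/
def split2 (m : ℕ) : Fin (2 * m) ≃ Fin m × Fin 2 :=
  (finCongr (Nat.mul_comm 2 m)).trans finProdFinEquiv.symm

theorem split2_mono {m : ℕ} : Monotone fun i : Fin (2 * m) => (split2 m i).1 := by
  intro i j h
  show ((split2 m i).1 : ℕ) ≤ (split2 m j).1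
  exact Nat.div_le_div_right (c := 2) h

/-- A complex number as a real `2 × 2` block. -/
def blk (z : ℂ) (s t : Fin 2) : ℝ :=
  if s = 0 then (if t = 0 then z.re else -z.im) else (if t = 0 then z.im else z.re)

/-- The real and imaginary parts. -/
def part (z : ℂ) (s : Fin 2) : ℝ := if s = 0 then z.re else z.im

/-- A complex matrix as a real one of twice the size. -/
def realify {m : ℕ} (A : Matrix (Fin m) (Fin m) ℂ) : Mat (2 * m) :=
  Matrix.of fun i j => blk (A (split2 m i).1 (split2 m j).1) (split2 m i).2 (split2 m j).2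

/-- A complex vector as a real one. -/
def realVec {m : ℕ} (v : Fin m → ℂ) (i : Fin (2 * m)) : ℝ := part (v (split2 m i).1) (split2 m i).2

theorem sum_split {m : ℕ} (F : Fin (2 * m) → ℝ) :
    ∑ i, F i = ∑ a, (F ((split2 m).symm (a, 0)) + F ((split2 m).symm (a, 1))) := by
  rw [← (split2 m).symm.sum_comp F, Fintype.sum_prod_type]
  exact Finset.sum_congr rfl fun a _ => Fin.sum_univ_two _

theorem sum_index {m : ℕ} (f : Fin m → ℝ) : ∑ i, f (split2 m i).1 = 2 * ∑ a, f a := by
  rw [sum_split, Finset.mul_sum]
  refine Finset.sum_congr rfl fun a _ => ?_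
  simp only [Equiv.apply_symm_apply]
  ring

theorem realify_mul {m : ℕ} (A B : Matrix (Fin m) (Fin m) ℂ) :
    realify (A * B) = realify A * realify B := by
  ext i j
  rw [Matrix.mul_apply, sum_split]
  simp only [realify, Matrix.of_apply, Equiv.apply_symm_apply, Matrix.mul_apply]
  obtain ⟨s, hs⟩ : ∃ s, (split2 m i).2 = s := ⟨_, rfl⟩
  obtain ⟨t, ht⟩ : ∃ t, (split2 m j).2 = t := ⟨_, rfl⟩
  rw [hs, ht]
  fin_cases s <;> fin_cases t <;>
    simp [blk, Complex.re_sum, Complex.im_sum, Finset.sum_add_distrib, Finset.sum_sub_distrib,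
      Finset.sum_neg_distrib] <;> ring

theorem realify_one {m : ℕ} : realify (1 : Matrix (Fin m) (Fin m) ℂ) = 1 := by
  ext i j
  by_cases h : i = j
  · subst h
    rw [Matrix.one_apply_eq]
    simp only [realify, Matrix.of_apply, Matrix.one_apply_eq, blk]
    split_ifs <;> simp
  · rw [Matrix.one_apply_ne h]
    simp only [realify, Matrix.of_apply, blk]
    have h' : ¬((split2 m i).1 = (split2 m j).1 ∧ (split2 m i).2 = (split2 m j).2) := fun hh =>
      h ((split2 m).injective (Prod.ext hh.1 hh.2))
    by_cases h1 : (split2 m i).1 = (split2 m j).1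
    · have h2 : (split2 m i).2 ≠ (split2 m j).2 := fun h2 => h' ⟨h1, h2⟩
      rw [h1, Matrix.one_apply_eq]
      split_ifs with a b b <;> simp_all <;> omega
    · rw [Matrix.one_apply_ne h1]
      simp

theorem realify_pow {m : ℕ} (A : Matrix (Fin m) (Fin m) ℂ) (k : ℕ) :
    realify (A ^ k) = realify A ^ k := by
  induction k with
  | zero => simp [realify_one]
  | succ k ih => rw [pow_succ, pow_succ, realify_mul, ih]

theorem realify_trace {m : ℕ} (A : Matrix (Fin m) (Fin m) ℂ) :
    (realify A).trace = 2 * A.trace.re := by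
  rw [Matrix.trace, sum_split, Matrix.trace, Complex.re_sum, Finset.mul_sum]
  refine Finset.sum_congr rfl fun a _ => ?_
  simp [Matrix.diag, realify, blk]
  ring

theorem dot_realVec {m : ℕ} (v w : Fin m → ℂ) :
    ∑ i, realVec v i * realVec w i = (∑ a, star (v a) * w a).re := by
  rw [sum_split, Complex.re_sum]
  refine Finset.sum_congr rfl fun a _ => ?_
  simp [realVec, part]

theorem quad_realVec {m : ℕ} (A : Matrix (Fin m) (Fin m) ℂ) (v w : Fin m → ℂ) :
    ∑ i, ∑ j, realify A i j * (realVec v i * realVec w j)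
      = (∑ a, ∑ b, star (v a) * A a b * w b).re := by
  rw [sum_split, Complex.re_sum]
  refine Finset.sum_congr rfl fun a _ => ?_
  rw [sum_split, sum_split, Complex.re_sum, ← Finset.sum_add_distrib]
  refine Finset.sum_congr rfl fun b _ => ?_
  simp [realify, realVec, part, blk, Complex.mul_re, Complex.mul_im]
  ring

theorem realify_herm {m : ℕ} {A : Matrix (Fin m) (Fin m) ℂ} (hA : A.IsHermitian) :
    (realify A).IsHermitian := by
  ext i j
  simp only [Matrix.conjTranspose_apply, star_trivial, realify, Matrix.of_apply]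
  have h := hA.apply (split2 m i).1 (split2 m j).1
  rw [← h]
  simp only [blk, Complex.star_def, Complex.conj_re, Complex.conj_im]
  split_ifs <;> simp

theorem realify_psd {m : ℕ} {A : Matrix (Fin m) (Fin m) ℂ} (hA : A.PosSemidef) :
    (realify A).PosSemidef := by
  refine Matrix.PosSemidef.of_dotProduct_mulVec_nonneg (realify_herm hA.isHermitian) fun c => ?_
  set v : Fin m → ℂ := fun a => ⟨c ((split2 m).symm (a, 0)), c ((split2 m).symm (a, 1))⟩
  have hc : realVec v = c := by
    funext i
    obtain ⟨⟨a, s⟩, rfl⟩ := (split2 m).symm.surjective i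
    fin_cases s <;> simp [realVec, part, v]
  have h := (Complex.le_def.mp (hA.dotProduct_mulVec_nonneg v)).1
  simp only [Complex.zero_re, dotProduct, Matrix.mulVec, Finset.mul_sum, Pi.star_apply] at h
  simp only [star_trivial, dotProduct, Matrix.mulVec, Finset.mul_sum]
  have e : ∑ i, ∑ j, c i * (realify A i j * c j) = (∑ a, ∑ b, star (v a) * (A a b * v b)).re := by
    rw [← hc]
    rw [Finset.sum_congr rfl fun i _ => Finset.sum_congr rfl fun j _ =>
      mul_left_comm (realVec v i) (realify A i j) (realVec v j), quad_realVec]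
    exact congrArg Complex.re (Finset.sum_congr rfl fun a _ => Finset.sum_congr rfl fun b _ =>
      mul_assoc _ _ _)
  rw [e]; exact h

theorem trFn_realify {m : ℕ} {A : Matrix (Fin m) (Fin m) ℂ} (hA : A.PosSemidef) (p : ℝ) :
    trFn (fun v => v ^ p) (realify A) = 2 * trPow p A := by
  rw [trPow, dif_pos hA.isHermitian]
  exact trFn_eq_two_mul (realify_herm hA.isHermitian) hA.isHermitian
    (fun k => by rw [← realify_pow, realify_trace]) _

end

end Vale.Agent.P371.Full
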