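import Vale.Agent.P371.Full.MatTools
import Mathlib.Topology.ContinuousMap.Weierstrass
import Mathlib.Topology.Algebra.Polynomial
import Mathlib.Analysis.Convex.SpecificFunctions.Basic
import Mathlib.MeasureTheory.Integral.DominatedConvergence

/-! # M5b: the channel potentials `U W Uᵀ`, `U = f (fᵀ f + ε)^(-1/2)` -/

namespace Vale.Agent.P371.Full

open MeasureTheory Matrix

noncomputable section

/-- Trial data in a box: a continuous potential and trial functions with strictly negative form. -/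
structure Trial (N m : ℕ) (κ : Fin N → ℝ) (L : ℝ) where
  W : ℝ → Mat m
  φ : Fin N → ℝ → Fin m → ℝ
  φ' : Fin N → ℝ → Fin m → ℝ
  η : ℝ
  ηpos : 0 < η
  contW : Continuous W
  psdW : ∀ x, (W x).PosSemidef
  deriv : ∀ i x a, HasDerivAt (fun y => φ i y a) (φ' i x a) x
  cont : ∀ i, Continuous (φ' i)
  left : ∀ i, φ i (-L) = 0
  right : ∀ i, φ i L = 0
  indep : ∀ c : Fin N → ℝ, c ≠ 0 → ∃ x ∈ Set.Icc (-L) L, ∑ i, c i • φ i x ≠ 0
  form : ∀ j, ∀ c : Fin N → ℝ, (∀ i, j < i → c i = 0) →
    (∫ x in (-L)..L, ((∑ a, (∑ i, c i * φ' i x a) ^ 2)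
      - (∑ i, c i • φ i x) ⬝ᵥ (W x *ᵥ ∑ i, c i • φ i x)))
      ≤ -(κ j ^ 2 + η) * ∫ x in (-L)..L, ∑ a, (∑ i, c i * φ i x a) ^ 2

/-! ## Entries of functions of a positive definite matrix field -/

theorem cfc_entry {m : ℕ} {A : Mat m} (hA : A.IsHermitian) (g : ℝ → ℝ) (a b : Fin m) :
    cfc g A a b = ∑ k, (hA.eigenvectorUnitary : Mat m) a k * g (hA.eigenvalues k) *
      (hA.eigenvectorUnitary : Mat m) b k := by
  rw [hA.cfc_eq, Matrix.IsHermitian.cfc, Unitary.conjStarAlgAut_apply]
  simp [Matrix.mul_apply, diagonal_apply, star_eq_conjTranspose]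

theorem eigU_abs_le_one {m : ℕ} {A : Mat m} (hA : A.IsHermitian) (a k : Fin m) :
    |(hA.eigenvectorUnitary : Mat m) a k| ≤ 1 := by
  have h : ((hA.eigenvectorUnitary : Mat m) * star (hA.eigenvectorUnitary : Mat m)) a a
      = (1 : Mat m) a a := by
    rw [Unitary.mul_star_self_of_mem hA.eigenvectorUnitary.2]
  simp only [Matrix.mul_apply, Matrix.one_apply_eq, star_eq_conjTranspose,
    conjTranspose_apply, star_trivial] at h
  refine abs_le_one_iff_mul_self_le_one.2 (h ▸ ?_)
  exact Finset.single_le_sum (f := fun k => (hA.eigenvectorUnitary : Mat m) a k *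
    (hA.eigenvectorUnitary : Mat m) a k) (fun i _ => mul_self_nonneg _) (Finset.mem_univ k)

theorem cfc_sub_aeval_le {m : ℕ} {A : Mat m} (hA : A.IsHermitian) (g : ℝ → ℝ)
    (q : Polynomial ℝ) {δ : ℝ} (h : ∀ k, |q.eval (hA.eigenvalues k) - g (hA.eigenvalues k)| ≤ δ)
    (a b : Fin m) : |cfc g A a b - (Polynomial.aeval A q) a b| ≤ m * δ := by
  rw [← cfc_polynomial q A hA.isSelfAdjoint, cfc_entry hA, cfc_entry hA, ← Finset.sum_sub_distrib]
  calc |∑ k, _| ≤ ∑ _k : Fin m, δ := (Finset.abs_sum_le_sum_abs _ _).trans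
        (Finset.sum_le_sum fun k _ => ?_)
    _ = m * δ := by simp
  rw [← sub_mul, ← mul_sub, abs_mul, abs_mul, abs_sub_comm]
  calc _ ≤ 1 * δ * 1 := by
        have h0 : 0 ≤ δ := (abs_nonneg _).trans (h k)
        gcongr
        · exact eigU_abs_le_one hA a k
        · exact h k
        · exact eigU_abs_le_one hA b k
    _ = δ := by ring

theorem eigenvalues_ge {m : ℕ} {A : Mat m} (hA : A.IsHermitian) {d : ℝ}
    (h : (A - d • 1).PosSemidef) (k : Fin m) : d ≤ hA.eigenvalues k := by
  set v : Fin m → ℝ := ⇑(hA.eigenvectorBasis k)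
  have hv : v ⬝ᵥ v = 1 := by
    have h1 := hA.eigenvectorBasis.inner_eq_one k
    rwa [EuclideanSpace.inner_eq_star_dotProduct, star_trivial] at h1
  have h2 := h.dotProduct_mulVec_nonneg v
  rw [star_trivial, sub_mulVec, smul_mulVec, one_mulVec, dotProduct_sub, dotProduct_smul,
    show A *ᵥ v = hA.eigenvalues k • v from hA.mulVec_eigenvectorBasis k, dotProduct_smul, hv] at h2
  simp only [smul_eq_mul, mul_one] at h2
  linarith

theorem continuousOn_cfc_entry {X : Type*} [TopologicalSpace X] {s : Set X} {m : ℕ}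
    {A : X → Mat m} {g : ℝ → ℝ} {d : X → ℝ} (hg : ContinuousOn g (Set.Ioi 0))
    (hA : ContinuousOn A s) (hd : ContinuousOn d s) (hd0 : ∀ x ∈ s, 0 < d x)
    (hherm : ∀ x ∈ s, (A x).IsHermitian) (hlow : ∀ x ∈ s, (A x - d x • 1).PosSemidef)
    (i j : Fin m) : ContinuousOn (fun x => cfc g (A x) i j) s := by
  intro x0 hx0
  refine Metric.tendsto_nhds.2 fun δ hδ => ?_
  have htr : Continuous fun M : Mat m => M.trace :=
    continuous_finsetSum _ fun k _ => continuous_id.matrix_elem k k
  set a := d x0 / 2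
  set b := (A x0).trace + 1
  have ha : 0 < a := half_pos (hd0 x0 hx0)
  obtain ⟨q, hq⟩ := exists_polynomial_near_of_continuousOn a b g
    (hg.mono fun t ht => lt_of_lt_of_le ha ht.1) (δ / (3 * (m + 1))) (by positivity)
  have hband : ∀ x ∈ s, a ≤ d x → (A x).trace ≤ b →
      |cfc g (A x) i j - (Polynomial.aeval (A x) q) i j| < δ / 3 := by
    intro x hx h1 h2
    have hH := hherm x hx
    have hl := eigenvalues_ge hH (hlow x hx)
    refine (cfc_sub_aeval_le hH g q (δ := δ / (3 * (m + 1))) (fun k => (hq _ ⟨h1.trans (hl k), ?_⟩).le)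
      i j).trans_lt ?_
    · calc hH.eigenvalues k ≤ ∑ l, hH.eigenvalues l :=
            Finset.single_le_sum (fun l _ => ((hd0 x hx).le).trans (hl l)) (Finset.mem_univ k)
        _ = (A x).trace := by simp [hH.trace_eq_sum_eigenvalues]
        _ ≤ b := h2
    · rw [← mul_div_assoc, div_lt_div_iff₀ (by positivity) (by norm_num)]
      nlinarith
  have e1 : ∀ᶠ x in nhdsWithin x0 s, a ≤ d x :=
    (hd x0 hx0).eventually (eventually_ge_nhds (half_lt_self (hd0 x0 hx0)))
  have e2 : ∀ᶠ x in nhdsWithin x0 s, (A x).trace ≤ b :=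
    ((htr.comp_continuousOn hA) x0 hx0).eventually (eventually_le_nhds (lt_add_one _))
  have e3 := Metric.tendsto_nhds.1
    ((((q.continuous_aeval (A := Mat m)).matrix_elem i j).comp_continuousOn hA) x0 hx0)
    (δ / 3) (by positivity)
  filter_upwards [e1, e2, e3, self_mem_nhdsWithin] with x h1 h2 h3 hx
  have b1 := abs_lt.1 (hband x hx h1 h2)
  have b2 := abs_lt.1 (hband x0 hx0 (half_le_self (hd0 x0 hx0).le) (lt_add_one _).le)
  rw [Real.dist_eq, abs_lt] at h3 ⊢
  simp only [Function.comp_apply] at h3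
  constructor <;> linarith

theorem continuousOn_cfc_mat {X : Type*} [TopologicalSpace X] {s : Set X} {m : ℕ}
    {A : X → Mat m} {g : ℝ → ℝ} {d : X → ℝ} (hg : ContinuousOn g (Set.Ioi 0))
    (hA : ContinuousOn A s) (hd : ContinuousOn d s) (hd0 : ∀ x ∈ s, 0 < d x)
    (hherm : ∀ x ∈ s, (A x).IsHermitian) (hlow : ∀ x ∈ s, (A x - d x • 1).PosSemidef) :
    ContinuousOn (fun x => cfc g (A x)) s :=
  continuousOn_pi.2 fun i => continuousOn_pi.2 fun j =>
    continuousOn_cfc_entry hg hA hd hd0 hherm hlow i j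

/-- The inverse square root. -/
def isqrtFn (t : ℝ) : ℝ := (Real.sqrt t)⁻¹

theorem isqrtFn_mul {t : ℝ} (ht : 0 < t) : isqrtFn t * t * isqrtFn t = 1 := by
  have := Real.sq_sqrt ht.le
  have := (Real.sqrt_pos.2 ht).ne'
  rw [isqrtFn]; field_simp; linarith

theorem continuousOn_isqrtFn : ContinuousOn isqrtFn (Set.Ioi 0) :=
  Real.continuous_sqrt.continuousOn.inv₀ fun _ ht => (Real.sqrt_pos.2 ht).ne'

theorem isqrt_spec {m : ℕ} {A : Mat m} (hA : A.PosDef) :
    (cfc isqrtFn A)ᵀ = cfc isqrtFn A ∧ cfc isqrtFn A * A * cfc isqrtFn A = 1 ∧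
      cfc isqrtFn A * A = A * cfc isqrtFn A := by
  have hf : (spectrum ℝ A).Finite := Matrix.finite_real_spectrum
  have hs : IsSelfAdjoint A := hA.1.isSelfAdjoint
  have l : cfc isqrtFn A * A = cfc (fun t => isqrtFn t * t) A := by
    rw [cfc_mul _ _ A (hf.continuousOn _) (hf.continuousOn _), cfc_id' ℝ A hs]
  have r : A * cfc isqrtFn A = cfc (fun t => t * isqrtFn t) A := by
    rw [cfc_mul _ _ A (hf.continuousOn _) (hf.continuousOn _), cfc_id' ℝ A hs]
  refine ⟨?_, ?_, by rw [l, r]; exact cfc_congr fun t _ => mul_comm _ _⟩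
  · have h : (cfc isqrtFn A)ᴴ = cfc isqrtFn A := (cfc_predicate isqrtFn A).star_eq
    rwa [conjTranspose_eq_transpose_of_trivial] at h
  · rw [l, ← cfc_mul _ _ A (hf.continuousOn _) (hf.continuousOn _), ← cfc_one ℝ A hs]
    refine cfc_congr fun t ht => ?_
    rw [hA.1.spectrum_real_eq_range_eigenvalues] at ht
    obtain ⟨k, rfl⟩ := ht
    exact isqrtFn_mul (hA.eigenvalues_pos k)

/-! ## The family -/

variable {N m : ℕ} {κ : Fin N → ℝ} {L : ℝ} (T : Trial N m κ L)

/-- Row `j` is the trial function `∑ i, c j i • φ i`. -/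
def tF (c : Fin N → Fin N → ℝ) (x : ℝ) : Matrix (Fin N) (Fin m) ℝ :=
  Matrix.of fun j a => ∑ i, c j i * T.φ i x a

/-- The derivative of `tF`. -/
def tF' (c : Fin N → Fin N → ℝ) (x : ℝ) : Matrix (Fin N) (Fin m) ℝ :=
  Matrix.of fun j a => ∑ i, c j i * T.φ' i x a

/-- The Gram matrix `fᵀ f`. -/
def tG (c : Fin N → Fin N → ℝ) (x : ℝ) : Mat m := (tF T c x)ᵀ * tF T c x

/-- The squared norm. -/
def tN (c : Fin N → Fin N → ℝ) : ℝ := ∫ x in (-L)..L, (tG T c x).trace

/-- The regularisation. -/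
def tEps (c : Fin N → Fin N → ℝ) : ℝ :=
  T.η / ((∫ x in (-L)..L, (T.W x).trace) + 1) * tN T c

/-- `f fᵀ f + ε`. -/
def tA (c : Fin N → Fin N → ℝ) (x : ℝ) : Mat m := tG T c x + tEps T c • 1

/-- `U = f (fᵀ f + ε)^(-1/2)`. -/
def tU (c : Fin N → Fin N → ℝ) (x : ℝ) : Matrix (Fin N) (Fin m) ℝ :=
  tF T c x * cfc isqrtFn (tA T c x)

/-- The channel potential. -/
def tV (c : Fin N → Fin N → ℝ) (x : ℝ) : Mat N := tU T c x * T.W x * (tU T c x)ᵀ

theorem contφ (i : Fin N) : Continuous (T.φ i) :=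
  continuous_pi fun a => continuous_iff_continuousAt.2 fun x => (T.deriv i x a).continuousAt

theorem cont_tF : Continuous fun q : (Fin N → Fin N → ℝ) × ℝ => tF T q.1 q.2 := by
  have := contφ T
  exact continuous_matrix fun j a => by simp only [tF, Matrix.of_apply]; fun_prop

theorem cont_tF' : Continuous fun q : (Fin N → Fin N → ℝ) × ℝ => tF' T q.1 q.2 := by
  have := T.cont
  exact continuous_matrix fun j a => by simp only [tF', Matrix.of_apply]; fun_prop

theorem cont_tG : Continuous fun q : (Fin N → Fin N → ℝ) × ℝ => tG T q.1 q.2 :=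
  (cont_tF T).matrix_transpose.matrix_mul (cont_tF T)

theorem cont_tN : Continuous (tN T) :=
  intervalIntegral.continuous_parametric_intervalIntegral_of_continuous'
    (f := fun c x => (tG T c x).trace) (cont_tG T).matrix_trace _ _

theorem trace_tG (c : Fin N → Fin N → ℝ) (x : ℝ) :
    (tG T c x).trace = ∑ j, ∑ a, tF T c x j a ^ 2 := by
  simp only [tG, Matrix.trace, Matrix.diag_apply, Matrix.mul_apply, transpose_apply]
  rw [Finset.sum_comm]
  exact Finset.sum_congr rfl fun _ _ => Finset.sum_congr rfl fun _ _ => (sq _).symm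

theorem row_eq (c : Fin N → Fin N → ℝ) (x : ℝ) (j : Fin N) :
    ∑ i, c j i • T.φ i x = tF T c x j := by
  funext a; simp [tF, Finset.sum_apply]

theorem intW_nonneg (hL : 0 < L) : 0 ≤ ∫ x in (-L)..L, (T.W x).trace :=
  intervalIntegral.integral_nonneg (by linarith) fun x _ => (T.psdW x).trace_nonneg

theorem tN_pos (hL : 0 < L) {c : Fin N → Fin N → ℝ} (hc : c ≠ 0) : 0 < tN T c := by
  obtain ⟨j, hj⟩ := Function.ne_iff.1 hc
  obtain ⟨x, hx, hne⟩ := T.indep (c j) hj
  rw [row_eq] at hne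
  obtain ⟨a, ha⟩ := Function.ne_iff.1 hne
  refine intervalIntegral.integral_pos (by linarith) ?_ ?_ ⟨x, hx, ?_⟩
  · exact ((cont_tG T).matrix_trace.comp (continuous_const.prodMk continuous_id)).continuousOn
  · intro y _
    rw [trace_tG]; positivity
  · rw [trace_tG]
    refine lt_of_lt_of_le ?_ ((Finset.single_le_sum (fun a _ => sq_nonneg (tF T c x j a))
      (Finset.mem_univ a)).trans (Finset.single_le_sum
      (f := fun j => ∑ a, tF T c x j a ^ 2) (fun j _ => by positivity) (Finset.mem_univ j)))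
    exact lt_of_le_of_ne (sq_nonneg _) (Ne.symm (pow_ne_zero 2 ha))

theorem tEps_pos (hL : 0 < L) {c : Fin N → Fin N → ℝ} (hc : c ≠ 0) : 0 < tEps T c :=
  mul_pos (div_pos T.ηpos (by linarith [intW_nonneg T hL])) (tN_pos T hL hc)

theorem psd_tG (c : Fin N → Fin N → ℝ) (x : ℝ) : (tG T c x).PosSemidef := by
  have h := posSemidef_conjTranspose_mul_self (tF T c x)
  rwa [conjTranspose_eq_transpose_of_trivial] at h

theorem posDef_tA (hL : 0 < L) {c : Fin N → Fin N → ℝ} (hc : c ≠ 0) (x : ℝ) :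
    (tA T c x).PosDef :=
  Matrix.PosDef.posSemidef_add (psd_tG T c x) (Matrix.PosDef.one.smul (tEps_pos T hL hc))

theorem cont_tA : Continuous fun q : (Fin N → Fin N → ℝ) × ℝ => tA T q.1 q.2 := by
  have he : Continuous fun q : (Fin N → Fin N → ℝ) × ℝ => tEps T q.1 :=
    continuous_const.mul ((cont_tN T).comp continuous_fst)
  unfold tA
  exact (cont_tG T).add (he.smul (continuous_const (y := (1 : Mat m))))

theorem contOn_tR (hL : 0 < L) :
    ContinuousOn (fun q : (Fin N → Fin N → ℝ) × ℝ => cfc isqrtFn (tA T q.1 q.2))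
      (tri0 N ×ˢ Set.univ) :=
  continuousOn_cfc_mat (d := fun q : (Fin N → Fin N → ℝ) × ℝ => tEps T q.1) continuousOn_isqrtFn
    (cont_tA T).continuousOn (continuous_const.mul ((cont_tN T).comp continuous_fst)).continuousOn
    (fun q hq => tEps_pos T hL hq.1.1) (fun q hq => (posDef_tA T hL hq.1.1 q.2).1)
    (fun q _ => by simpa [tA] using psd_tG T q.1 q.2)

theorem contOn_tV (hL : 0 < L) : ContinuousOn (fun q : (Fin N → Fin N → ℝ) × ℝ => tV T q.1 q.2)
    (tri0 N ×ˢ Set.univ) := by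
  have hR := continuousOn_iff_continuous_domRestrict.1 (contOn_tR T hL)
  rw [continuousOn_iff_continuous_domRestrict]
  have hF : Continuous fun q : ↥(tri0 N ×ˢ (Set.univ : Set ℝ)) => tF T q.1.1 q.1.2 :=
    (cont_tF T).comp continuous_subtype_val
  have hW : Continuous fun q : ↥(tri0 N ×ˢ (Set.univ : Set ℝ)) => T.W q.1.2 :=
    T.contW.comp (continuous_snd.comp continuous_subtype_val)
  exact ((hF.matrix_mul hR).matrix_mul hW).matrix_mul (hF.matrix_mul hR).matrix_transpose

theorem contraction (hL : 0 < L) {c : Fin N → Fin N → ℝ} (hc : c ≠ 0) (x : ℝ) :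
    (1 - (tU T c x)ᵀ * tU T c x).PosSemidef := by
  obtain ⟨hs, h1, -⟩ := isqrt_spec (posDef_tA T hL hc x)
  have e : (tU T c x)ᵀ * tU T c x
      = cfc isqrtFn (tA T c x) * (tA T c x - tEps T c • 1) * cfc isqrtFn (tA T c x) := by
    have hG : tA T c x - tEps T c • 1 = (tF T c x)ᵀ * tF T c x := by simp [tA, tG]
    simp only [tU, transpose_mul, hs, hG, Matrix.mul_assoc]
  rw [e, Matrix.mul_sub, Matrix.sub_mul, h1, sub_sub_cancel, Matrix.mul_smul, Matrix.mul_one,
    Matrix.smul_mul]
  refine PosSemidef.smul ?_ (tEps_pos T hL hc).le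
  have h := posSemidef_conjTranspose_mul_self (cfc isqrtFn (tA T c x))
  rwa [conjTranspose_eq_transpose_of_trivial, hs] at h

theorem psd_tV (c : Fin N → Fin N → ℝ) (x : ℝ) : (tV T c x).PosSemidef := by
  have h := (T.psdW x).mul_mul_conjTranspose_same (tU T c x)
  rwa [conjTranspose_eq_transpose_of_trivial] at h

theorem tV_flip {e : Fin N → ℝ} (he : IsSigns e) (c : Fin N → Fin N → ℝ) (x : ℝ) :
    tV T (fun j i => e j * c j i) x = flipMat e (tV T c x) := by
  have hF : ∀ y, tF T (fun j i => e j * c j i) y = diagonal e * tF T c y := fun y => by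
    ext j a; simp [tF, diagonal_mul, Finset.mul_sum, mul_assoc]
  have hee : diagonal e * diagonal e = (1 : Mat N) := by
    rw [diagonal_mul_diagonal, ← diagonal_one]
    congr 1; funext j; rcases he j with h | h <;> simp [h]
  have hG : ∀ y, tG T (fun j i => e j * c j i) y = tG T c y := fun y => by
    rw [tG, hF, transpose_mul, diagonal_transpose, Matrix.mul_assoc, ← Matrix.mul_assoc (diagonal e),
      hee, Matrix.one_mul, tG]
  have hN : tEps T (fun j i => e j * c j i) = tEps T c := by simp only [tEps, tN, hG]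
  have hA : tA T (fun j i => e j * c j i) x = tA T c x := by simp only [tA, hG, hN]
  have hV : tV T (fun j i => e j * c j i) x = diagonal e * tV T c x * diagonal e := by
    simp only [tV, tU, hF, hA, transpose_mul, diagonal_transpose, Matrix.mul_assoc]
  rw [hV]
  ext i j
  simp [flipMat, diagonal_mul, mul_diagonal]

theorem tV_zero_row (c : Fin N → Fin N → ℝ) {j : Fin N} (hj : c j = 0) (x : ℝ) (l : Fin N) :
    tV T c x j l = 0 := by
  simp [tV, tU, tF, Matrix.mul_apply, hj]

theorem mat_rgr {m : ℕ} {R A : Mat m} (ε : ℝ) (h1 : R * A * R = 1) (hc : R * A = A * R) :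
    R * (A - ε • 1) * (A - ε • 1) * R = (A - ε • 1) - ε • 1 + ε ^ 2 • (R * R) := by
  have h2 : R * A * A * R = A := by
    calc R * A * A * R = A * R * A * R := by rw [hc]
      _ = A * (R * A * R) := by simp only [Matrix.mul_assoc]
      _ = A := by rw [h1, Matrix.mul_one]
  simp only [Matrix.mul_sub, Matrix.sub_mul, Matrix.mul_smul, Matrix.smul_mul, Matrix.mul_one,
    smul_sub, smul_smul, h1, h2]
  module

/-- The column sum of the potential terms. -/
theorem pot_ge (hL : 0 < L) {c : Fin N → Fin N → ℝ} (hc : c ≠ 0) (x : ℝ) :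
    (∑ j, tF T c x j ⬝ᵥ (T.W x *ᵥ tF T c x j)) - tEps T c * (T.W x).trace
      ≤ ∑ a, (fun j => tF T c x j a) ⬝ᵥ (tV T c x *ᵥ fun j => tF T c x j a) := by
  obtain ⟨hs, h1, h2⟩ := isqrt_spec (posDef_tA T hL hc x)
  set R := cfc isqrtFn (tA T c x) with hR
  set F := tF T c x with hF
  set W := T.W x with hW
  have hG : tG T c x = tA T c x - tEps T c • 1 := by simp [tA]
  have el : ∑ j, F j ⬝ᵥ (W *ᵥ F j) = (W * tG T c x).trace := by
    rw [tG, ← Matrix.mul_assoc, Matrix.trace_mul_comm, ← Matrix.mul_assoc]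
    simp only [← hF, Matrix.trace, Matrix.diag_apply, Matrix.mul_apply, transpose_apply,
      dotProduct, mulVec, Finset.mul_sum, Finset.sum_mul]
    refine Finset.sum_congr rfl fun j _ => ?_
    rw [Finset.sum_comm]
    exact Finset.sum_congr rfl fun _ _ => Finset.sum_congr rfl fun _ _ => by ring
  have er : ∑ a, (fun j => F j a) ⬝ᵥ (tV T c x *ᵥ fun j => F j a)
      = (W * (R * tG T c x * tG T c x * R)).trace := by
    have e0 : ∑ a, (fun j => F j a) ⬝ᵥ (tV T c x *ᵥ fun j => F j a)
        = (Fᵀ * (tV T c x * F)).trace := by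
      simp only [Matrix.trace, Matrix.diag_apply, Matrix.mul_apply, transpose_apply,
        dotProduct, mulVec]
    rw [e0, tV, tU, tG, transpose_mul, hs, ← hR, ← hF, ← hW]
    simp only [← Matrix.mul_assoc]
    rw [Matrix.trace_mul_comm]
    simp only [← Matrix.mul_assoc]
    rw [Matrix.trace_mul_comm]
    simp only [← Matrix.mul_assoc]
    rw [Matrix.trace_mul_comm]
    simp only [← Matrix.mul_assoc]
    rw [Matrix.trace_mul_comm]
    simp only [← Matrix.mul_assoc]
  have hnn : 0 ≤ (W * (R * R)).trace := by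
    rw [← Matrix.mul_assoc, Matrix.trace_mul_comm, ← Matrix.mul_assoc]
    have h := ((T.psdW x).mul_mul_conjTranspose_same R).trace_nonneg
    rwa [conjTranspose_eq_transpose_of_trivial, hs] at h
  rw [el, er, hG, mat_rgr _ h1 h2]
  simp only [Matrix.mul_add, Matrix.mul_sub, Matrix.mul_smul, Matrix.mul_one, Matrix.trace_add,
    Matrix.trace_sub, Matrix.trace_smul, smul_eq_mul]
  have := mul_nonneg (sq_nonneg (tEps T c)) hnn
  linarith

theorem cont_tV (hL : 0 < L) {c : Fin N → Fin N → ℝ} (hc : c ∈ tri0 N) :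
    Continuous fun x : ℝ => tV T c x :=
  ContinuousOn.comp_continuous (g := fun q : (Fin N → Fin N → ℝ) × ℝ => tV T q.1 q.2)
    (f := fun x : ℝ => (c, x)) (contOn_tV T hL) (by fun_prop)
    (fun x => Set.mk_mem_prod hc (Set.mem_univ x))

theorem exists_test (hL : 0 < L) {c : Fin N → Fin N → ℝ} (hc : c ∈ tri0 N) :
    ∃ f f', IsTest L f f' ∧ energy κ (tV T c) L f f' ≤ 0 := by
  have hp : Continuous fun x : ℝ => (c, x) := continuous_const.prodMk continuous_id
  have hF : Continuous fun x => tF T c x := (cont_tF T).comp hp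
  have hF' : Continuous fun x => tF' T c x := (cont_tF' T).comp hp
  have hV := cont_tV T hL hc
  have hW := T.contW
  set g : Fin m → ℝ → ℝ := fun a x => (∑ j, tF' T c x j a ^ 2)
    + (∑ j, κ j ^ 2 * tF T c x j a ^ 2)
    - (fun j => tF T c x j a) ⬝ᵥ (tV T c x *ᵥ fun j => tF T c x j a) with hg
  have hgc : ∀ a, Continuous (g a) := fun a => by
    have h1 : ∀ j, Continuous fun x => tF T c x j a := fun j => hF.matrix_elem j a
    have h2 : ∀ j, Continuous fun x => tF' T c x j a := fun j => hF'.matrix_elem j a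
    have h3 := (continuous_pi h1).dotProduct (hV.matrix_mulVec (continuous_pi h1))
    simp only [hg]; fun_prop
  set n : Fin N → ℝ → ℝ := fun j x => ∑ a, tF T c x j a ^ 2 with hn
  set k : Fin N → ℝ → ℝ := fun j x => (∑ a, tF' T c x j a ^ 2)
    - tF T c x j ⬝ᵥ (T.W x *ᵥ tF T c x j) with hk
  have hnc : ∀ j, Continuous (n j) := fun j => by
    have h1 : ∀ a, Continuous fun x => tF T c x j a := fun a => hF.matrix_elem j a
    simp only [hn]; fun_prop
  have hkc : ∀ j, Continuous (k j) := fun j => by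
    have h1 : ∀ a, Continuous fun x => tF T c x j a := fun a => hF.matrix_elem j a
    have h2 : ∀ a, Continuous fun x => tF' T c x j a := fun a => hF'.matrix_elem j a
    have h3 := (continuous_pi h1).dotProduct (hW.matrix_mulVec (continuous_pi h1))
    simp only [hk]; fun_prop
  have hform : ∀ j, (∫ x in (-L)..L, k j x) ≤ -(κ j ^ 2 + T.η) * ∫ x in (-L)..L, n j x := by
    intro j
    have h := T.form j (c j) (hc.2 j)
    simp only [row_eq] at h
    exact h
  have hpt : ∀ x, ∑ a, g a x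
      ≤ (∑ j, (k j x + κ j ^ 2 * n j x)) + tEps T c * (T.W x).trace := by
    intro x
    have h := pot_ge T hL hc.1 x
    simp only [hg, hk, hn, Finset.sum_add_distrib, Finset.sum_sub_distrib, Finset.mul_sum]
    rw [Finset.sum_comm (f := fun a j => tF' T c x j a ^ 2),
      Finset.sum_comm (f := fun a j => κ j ^ 2 * tF T c x j a ^ 2)]
    linarith
  have htot : ∑ a, (∫ x in (-L)..L, g a x) < 0 := by
    have hkn : ∀ j, Continuous fun x => k j x + κ j ^ 2 * n j x := fun j =>
      (hkc j).add ((hnc j).const_mul _)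
    have hWt : Continuous fun x => tEps T c * (T.W x).trace := hW.matrix_trace.const_mul _
    have hs : Continuous fun x => ∑ j, (k j x + κ j ^ 2 * n j x) :=
      continuous_finsetSum _ fun j _ => hkn j
    rw [← intervalIntegral.integral_finsetSum fun a _ => (hgc a).intervalIntegrable _ _]
    refine (intervalIntegral.integral_mono_on (by linarith)
      ((continuous_finsetSum _ fun a _ => hgc a).intervalIntegrable _ _)
      ((hs.add hWt).intervalIntegrable _ _) fun x _ => hpt x).trans_lt ?_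
    simp only [Pi.add_apply]
    rw [intervalIntegral.integral_add (hs.intervalIntegrable _ _) (hWt.intervalIntegrable _ _),
      intervalIntegral.integral_finsetSum fun j _ => (hkn j).intervalIntegrable _ _,
      intervalIntegral.integral_const_mul]
    have hN : tN T c = ∑ j, ∫ x in (-L)..L, n j x := by
      rw [← intervalIntegral.integral_finsetSum fun j _ => (hnc j).intervalIntegrable _ _]
      simp only [tN, trace_tG, hn]
    have hle : ∑ j, (∫ x in (-L)..L, k j x + κ j ^ 2 * n j x) ≤ -T.η * tN T c := by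
      rw [hN, Finset.mul_sum]
      refine Finset.sum_le_sum fun j _ => ?_
      rw [intervalIntegral.integral_add ((hkc j).intervalIntegrable _ _)
        (((hnc j).const_mul _).intervalIntegrable _ _), intervalIntegral.integral_const_mul]
      linarith [hform j]
    have hI := intW_nonneg T hL
    set I := ∫ x in (-L)..L, (T.W x).trace
    have hlt : tEps T c * I < T.η * tN T c := by
      have h0 := tN_pos T hL hc.1
      have := T.ηpos
      rw [tEps, div_mul_eq_mul_div, div_mul_eq_mul_div, div_lt_iff₀ (by linarith)]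
      nlinarith [mul_pos T.ηpos h0]
    linarith
  obtain ⟨a, -, ha⟩ : ∃ a ∈ Finset.univ, (∫ x in (-L)..L, g a x) < 0 := by
    by_contra! h
    exact htot.not_ge (Finset.sum_nonneg h)
  have hd : ∀ x j, HasDerivAt (fun y => tF T c y j a) (tF' T c x j a) x := fun x j => by
    simp only [tF, tF', Matrix.of_apply]
    exact HasDerivAt.fun_sum fun i _ => (T.deriv i x a).const_mul _
  refine ⟨fun x j => tF T c x j a, fun x j => tF' T c x j a,
    ⟨hd, continuous_pi fun j => hF'.matrix_elem j a, ?_, ?_, ?_⟩, ha.le⟩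
  · funext j; simp [tF, T.left]
  · funext j; simp [tF, T.right]
  · by_contra! h
    refine ha.ne ?_
    refine intervalIntegral.integral_zero_ae ?_
    filter_upwards [(measure_singleton L : volume ({L} : Set ℝ) = 0) |> compl_mem_ae_iff.2]
      with x hxL hx
    rw [Set.uIoc_of_le (by linarith : -L ≤ L)] at hx
    have hI : x ∈ Set.Ioo (-L) L := ⟨hx.1, lt_of_le_of_ne hx.2 hxL⟩
    have h0 : ∀ j, tF' T c x j a = 0 := fun j => by
      refine (hd x j).unique ((hasDerivAt_const x (0 : ℝ)).congr_of_eventuallyEq ?_)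
      filter_upwards [isOpen_Ioo.mem_nhds hI] with y hy
      exact congrFun (h y ⟨hy.1.le, hy.2.le⟩) j
    have h1 : (fun j => tF T c x j a) = 0 := h x ⟨hI.1.le, hI.2.le⟩
    simp only [hg, h0, fun j => congrFun h1 j]
    simp


theorem exists_family {N m : ℕ} {κ : Fin N → ℝ} {L : ℝ} (hL : 0 < L) (T : Trial N m κ L) {p : ℝ}
    (hp : 1 ≤ p) :
    ∃ V : (Fin N → Fin N → ℝ) → ℝ → Mat N,
      (∀ i j, ContinuousOn (fun q : (Fin N → Fin N → ℝ) × ℝ => V q.1 q.2 i j)
        (tri0 N ×ˢ Set.univ)) ∧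
      (∀ c ∈ tri0 N, ∀ x, (V c x).PosSemidef ∧
        trFn (fun v => v ^ p) (V c x) ≤ trFn (fun v => v ^ p) (T.W x)) ∧
      (∀ c ∈ tri0 N, ∀ e : Fin N → ℝ, IsSigns e →
        ∀ x, V (fun j i => e j * c j i) x = flipMat e (V c x)) ∧
      (∀ c ∈ tri0 N, ∀ j, c j = 0 → ∀ x l, V c x j l = 0) ∧
      (∀ c ∈ tri0 N, ∃ f f', IsTest L f f' ∧ energy κ (V c) L f f' ≤ 0) := by
  refine ⟨tV T, fun i j => ?_, fun c hc x => ⟨psd_tV T c x, ?_⟩, fun c _ e he x => tV_flip T he c x,
    fun c _ j hj x l => tV_zero_row T c hj x l, fun c hc => exists_test T hL hc⟩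
  · exact (continuous_id.matrix_elem i j).comp_continuousOn (contOn_tV T hL)
  · exact trFn_contraction_le (convexOn_rpow hp) (Real.zero_rpow (by linarith))
      (fun v hv => Real.rpow_nonneg hv p) (contraction T hL hc.1 x) (T.psdW x)

end

end Vale.Agent.P371.Full
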