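import Vale.Agent.P371.Full.TrialLimits
import Vale.Agent.P371.Full.Family
import Mathlib.Algebra.Order.Chebyshev

/-! # Trial data near real bound states: cut off, truncate, average -/

namespace Vale.Agent.P371.Full

open MeasureTheory Filter Topology Matrix

noncomputable section

/-- Real bound states with energies `-μ`, sorted. -/
structure RealStates {M K : ℕ} (p : ℝ) (W : ℝ → Mat M) (μ : Fin K → ℝ)
    (u u' : Fin K → ℝ → Fin M → ℝ) : Prop where
  meas : ∀ a b, Measurable fun x => W x a b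
  psd : ∀ x, (W x).PosSemidef
  intW : Integrable fun x => trFn (fun v => v ^ p) (W x)
  sq : ∀ i a, IsSq (fun x => u i x a) ∧ IsSq (fun x => u' i x a)
  ftc : ∀ i a s t, u i t a - u i s a = ∫ x in s..t, u' i x a
  bdd : ∃ B, ∀ i a x, |u i x a| ≤ B
  orth : ∀ i j, (∑ a, ∫ x, u i x a * u j x a) = if i = j then 1 else 0
  form : ∀ i j, (∑ a, ∫ x, u' i x a * u' j x a) - (∑ a, ∑ b, ∫ x, W x a b * (u i x a * u j x b))
      = if i = j then -μ i else 0
  pos : ∀ i, 0 < μ i
  anti : Antitone μ

theorem ii_sum {ι : Type} {s : Finset ι} {f : ι → ℝ → ℝ} {a b : ℝ}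
    (h : ∀ i ∈ s, IntervalIntegrable (f i) volume a b) :
    IntervalIntegrable (fun x => ∑ i ∈ s, f i x) volume a b :=
  intervalIntegrable_iff.mpr (integrable_finsetSum _ fun i hi => intervalIntegrable_iff.mp (h i hi))

theorem quad_nonneg {M : ℕ} {A : Mat M} (hA : A.PosSemidef) (c : Fin M → ℝ) :
    0 ≤ ∑ a, ∑ b, c a * A a b * c b := by
  have := hA.dotProduct_mulVec_nonneg c
  simp only [star_trivial, dotProduct, Matrix.mulVec, Finset.mul_sum] at this
  refine this.trans (le_of_eq ?_)
  exact Finset.sum_congr rfl fun a _ => Finset.sum_congr rfl fun b _ => by ring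

/-- Averages over short intervals. -/
theorem exists_average {M : ℕ} {W : ℝ → Mat M} (hm : ∀ a b, Measurable fun x => W x a b)
    (hp : ∀ x, (W x).PosSemidef) {n : ℝ} (hn : 0 ≤ n) (hb : ∀ x, (W x).trace ≤ n)
    (hs : ∀ x, n < |x| → W x = 0) :
    ∃ V : ℕ → ℝ → Mat M, (∀ k, Continuous (V k)) ∧ (∀ k x, (V k x).PosSemidef) ∧
      (∀ k x, (V k x).trace ≤ M * n) ∧ (∀ k a b x, |V k x a b| ≤ n) ∧
      (∀ k x, n + 1 < |x| → V k x = 0) ∧
      ∀ᵐ x, ∀ a b, Tendsto (fun k => V k x a b) atTop (𝓝 (W x a b)) := by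
  have hbd : ∀ a b x, |W x a b| ≤ n := fun a b x => (entry_sq_le (hp x) a b).trans (hb x)
  have hloc : ∀ a b, LocallyIntegrable (fun x => W x a b) volume := fun a b =>
    (locallyIntegrable_const n).mono (hm a b).aestronglyMeasurable (Eventually.of_forall fun x => by
      rw [Real.norm_eq_abs, Real.norm_eq_abs, abs_of_nonneg hn]; exact hbd a b x)
  have hint : ∀ a b s t, IntervalIntegrable (fun x => W x a b) volume s t := fun a b s t =>
    intervalIntegrable_iff.mpr
      (((hloc a b).integrableOn_isCompact isCompact_uIcc).mono_set Set.uIoc_subset_uIcc)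
  set r : ℕ → ℝ := fun k => 1 / ((k : ℝ) + 1)
  have hr0 : ∀ k, 0 < r k := fun k => by positivity
  have hr1 : ∀ k, r k ≤ 1 := fun k => by
    simp only [r]
    exact (div_le_one (by positivity)).mpr (by linarith [Nat.cast_nonneg (α := ℝ) k])
  set V : ℕ → ℝ → Mat M := fun k x => Matrix.of fun a b => (r k)⁻¹ * ∫ t in x..x + r k, W t a b
  have hVb : ∀ k a b x, |V k x a b| ≤ n := fun k a b x => by
    simp only [V, Matrix.of_apply]
    rw [abs_mul, abs_of_pos (inv_pos.mpr (hr0 k)), inv_mul_le_iff₀ (hr0 k)]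
    have := intervalIntegral.norm_integral_le_of_norm_le_const (a := x) (b := x + r k)
      (f := fun t => W t a b) (C := n) fun t _ => by rw [Real.norm_eq_abs]; exact hbd a b t
    rw [Real.norm_eq_abs, add_sub_cancel_left, abs_of_pos (hr0 k)] at this
    linarith
  refine ⟨V, fun k => ?_, fun k x => ?_, fun k x => ?_, hVb, fun k x hx => ?_, ?_⟩
  · refine continuous_matrix fun a b => ?_
    simp only [V, Matrix.of_apply]
    refine continuous_const.mul ?_
    have e : (fun x => ∫ t in x..x + r k, W t a b)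
        = fun x => (∫ t in (0 : ℝ)..x + r k, W t a b) - ∫ t in (0 : ℝ)..x, W t a b := by
      funext x
      rw [intervalIntegral.integral_interval_sub_left (hint a b _ _) (hint a b _ _)]
    rw [e]
    have hc := intervalIntegral.continuous_primitive (fun s t => hint a b s t) 0
    exact (hc.comp (continuous_id.add continuous_const)).sub hc
  · refine Matrix.PosSemidef.of_dotProduct_mulVec_nonneg ?_ fun c => ?_
    · ext a b
      simp only [Matrix.conjTranspose_apply, star_trivial, V, Matrix.of_apply]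
      congr 1
      refine intervalIntegral.integral_congr fun t _ => ?_
      exact (hp t).isHermitian.apply a b
    · simp only [star_trivial, dotProduct, Matrix.mulVec, Finset.mul_sum, V, Matrix.of_apply]
      have e : ∀ a b, c a * ((r k)⁻¹ * (∫ t in x..x + r k, W t a b) * c b)
          = (r k)⁻¹ * ∫ t in x..x + r k, c a * W t a b * c b := fun a b => by
        rw [intervalIntegral.integral_mul_const, intervalIntegral.integral_const_mul]
        ring
      simp only [e, ← Finset.mul_sum]
      rw [← Finset.sum_congr rfl fun a _ => intervalIntegral.integral_finsetSum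
        (f := fun b t => c a * W t a b * c b) fun b _ => ((hint a b _ _).const_mul _).mul_const _,
        ← intervalIntegral.integral_finsetSum fun a _ => ii_sum fun b _ =>
          ((hint a b _ _).const_mul _).mul_const _]
      refine mul_nonneg (inv_pos.mpr (hr0 k)).le
        (intervalIntegral.integral_nonneg (by linarith [hr0 k]) fun t _ => ?_)
      exact quad_nonneg (hp t) c
  · refine (Finset.sum_le_sum fun a _ => (le_abs_self _).trans (hVb k a a x)).trans ?_
    simp
  · ext a b
    simp only [V, Matrix.of_apply, Matrix.zero_apply]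
    rw [intervalIntegral.integral_congr (g := fun _ => (0 : ℝ)), intervalIntegral.integral_zero, mul_zero]
    intro t ht
    rw [Set.uIcc_of_le (by linarith [hr0 k])] at ht
    have : n < |t| := by
      rcases lt_abs.mp hx with h | h
      · exact lt_abs.mpr (Or.inl (by linarith [ht.1]))
      · exact lt_abs.mpr (Or.inr (by linarith [ht.2, hr1 k]))
    show W t a b = 0
    rw [hs t this, Matrix.zero_apply]
  · have : ∀ᵐ x, ∀ a b, HasDerivAt (fun y => ∫ t in (0 : ℝ)..y, W t a b) (W x a b) x := by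
      refine ae_all_iff.mpr fun a => ae_all_iff.mpr fun b => ?_
      filter_upwards [LocallyIntegrable.ae_hasDerivAt_integral (hloc a b)] with x hx using hx 0
    filter_upwards [this] with x hx a b
    have h := (hx a b).tendsto_slope_zero_right
    refine (h.comp (tendsto_nhdsWithin_iff.mpr ⟨tendsto_one_div_add_atTop_nhds_zero_nat,
      Eventually.of_forall fun k => hr0 k⟩)).congr fun k => ?_
    simp only [Function.comp_apply, V, Matrix.of_apply, smul_eq_mul]
    rw [intervalIntegral.integral_interval_sub_left (hint a b _ _) (hint a b _ _)]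

/-- A weight and a product of compactly supported functions. -/
theorem box_tendsto {w : ℕ → ℝ → ℝ} {w₀ g : ℝ → ℝ} {T : ℝ → ℝ} {C L : ℝ}
    (hw : ∀ k, AEStronglyMeasurable (w k) volume) (hb : ∀ k x, |w k x| ≤ C + T x)
    (hT : Integrable T) (hg : Continuous g) (hgz : ∀ x, L < |x| → g x = 0)
    (hlim : ∀ᵐ x, Tendsto (fun k => w k x) atTop (𝓝 (w₀ x))) :
    Tendsto (fun k => ∫ x, w k x * g x) atTop (𝓝 (∫ x, w₀ x * g x)) := by
  obtain ⟨G, hG⟩ : ∃ G, ∀ x, |g x| ≤ G := by
    obtain ⟨G, hG⟩ := (isCompact_Icc (a := -L) (b := L)).exists_bound_of_continuousOn hg.continuousOn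
    refine ⟨max G 0, fun x => ?_⟩
    by_cases hx : x ∈ Set.Icc (-L) L
    · exact ((Real.norm_eq_abs _).symm.le.trans (hG x hx)).trans (le_max_left _ _)
    · rw [hgz x (not_le.mp fun h => hx (abs_le.mp h)), abs_zero]
      exact le_max_right _ _
  have hG0 : 0 ≤ G := (abs_nonneg _).trans (hG 0)
  refine tendsto_integral_of_dominated_convergence
    (fun x => (Set.Icc (-L) L).indicator (fun x => (C + T x) * G) x)
    (fun k => (hw k).mul hg.aestronglyMeasurable) ?_ (fun k => Eventually.of_forall fun x => ?_) ?_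
  · refine (integrable_indicator_iff measurableSet_Icc).mpr ?_
    exact ((integrableOn_const (by simp [Real.volume_Icc])).add hT.integrableOn).mul_const G
  · rw [Real.norm_eq_abs, abs_mul]
    by_cases hx : x ∈ Set.Icc (-L) L
    · rw [Set.indicator_of_mem hx]
      exact mul_le_mul (hb k x) (hG x) (abs_nonneg _) ((abs_nonneg _).trans (hb k x))
    · rw [Set.indicator_of_notMem hx, hgz x (not_le.mp fun h => hx (abs_le.mp h)), abs_zero, mul_zero]
  · filter_upwards [hlim] with x hx using hx.mul_const _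

theorem sum_abs_pair_le {K : ℕ} (c : Fin K → ℝ) :
    ∑ i, ∑ j, |c i| * |c j| ≤ K * ∑ i, c i ^ 2 := by
  rw [← Finset.sum_mul_sum]
  have := sq_sum_le_card_mul_sum_sq (s := Finset.univ) (f := fun i => |c i|)
  simp only [Finset.card_univ, Fintype.card_fin, sq_abs] at this
  linarith [sq (∑ i, |c i|)]

theorem sesq_near {K : ℕ} {A A₀ : Fin K → Fin K → ℝ} {ε : ℝ} (h : ∀ i j, |A i j - A₀ i j| ≤ ε)
    (c : Fin K → ℝ) :
    |(∑ i, ∑ j, c i * c j * A i j) - ∑ i, ∑ j, c i * c j * A₀ i j| ≤ ε * (K * ∑ i, c i ^ 2) := by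
  rcases K.eq_zero_or_pos with rfl | hK
  · simp
  have hε : 0 ≤ ε := (abs_nonneg _).trans (h ⟨0, hK⟩ ⟨0, hK⟩)
  rw [← Finset.sum_sub_distrib]
  simp only [← Finset.sum_sub_distrib, ← mul_sub]
  refine (Finset.abs_sum_le_sum_abs _ _).trans (le_trans ?_
    (mul_le_mul_of_nonneg_left (sum_abs_pair_le c) hε))
  rw [Finset.mul_sum]
  refine Finset.sum_le_sum fun i _ => (Finset.abs_sum_le_sum_abs _ _).trans ?_
  rw [Finset.mul_sum]
  refine Finset.sum_le_sum fun j _ => ?_
  rw [abs_mul, abs_mul, mul_comm ε]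
  exact mul_le_mul_of_nonneg_left (h i j) (by positivity)

theorem diag_form {K : ℕ} (ν c : Fin K → ℝ) :
    (∑ i, ∑ j, c i * c j * (if i = j then ν i else 0)) = ∑ i, c i ^ 2 * ν i := by
  refine Finset.sum_congr rfl fun i _ => ?_
  simp only [mul_ite, mul_zero, Finset.sum_ite_eq, Finset.mem_univ, if_true]
  ring

/-- The quadratic quantities of a combination. -/
theorem expand_sq {M K : ℕ} {L : ℝ} (f : Fin K → ℝ → Fin M → ℝ)
    (hf : ∀ i a, Continuous fun x => f i x a) (hz : ∀ i a x, L < |x| → f i x a = 0) (hL : 0 ≤ L)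
    (c : Fin K → ℝ) :
    ∫ x in (-L)..L, ∑ a, (∑ i, c i * f i x a) ^ 2
      = ∑ i, ∑ j, c i * c j * ∑ a, ∫ x, f i x a * f j x a := by
  have e : ∀ i j a, ∫ x, f i x a * f j x a = ∫ x in (-L)..L, f i x a * f j x a := by
    intro i j a
    rw [intervalIntegral.integral_of_le (by linarith), ← integral_Icc_eq_integral_Ioc]
    exact (setIntegral_eq_integral_of_forall_compl_eq_zero fun x hx => by
      rw [hz i a x (not_le.mp fun h => hx (abs_le.mp h)), zero_mul]).symm
  have hi : ∀ i j a, IntervalIntegrable (fun x => c i * c j * (f i x a * f j x a)) volume (-L) L :=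
    fun i j a => (continuous_const.mul ((hf i a).mul (hf j a))).intervalIntegrable _ _
  have e2 : ∀ x, ∑ a, (∑ i, c i * f i x a) ^ 2 = ∑ i, ∑ j, ∑ a, c i * c j * (f i x a * f j x a) := by
    intro x
    rw [Finset.sum_congr rfl fun i _ => Finset.sum_comm, Finset.sum_comm]
    refine Finset.sum_congr rfl fun a _ => ?_
    rw [sq, Finset.sum_mul_sum]
    exact Finset.sum_congr rfl fun i _ => Finset.sum_congr rfl fun j _ => by ring
  simp only [e2, e]
  rw [intervalIntegral.integral_finsetSum fun i _ => ii_sum fun j _ =>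
    ii_sum fun a _ => hi i j a]
  refine Finset.sum_congr rfl fun i _ => ?_
  rw [intervalIntegral.integral_finsetSum fun j _ => ii_sum fun a _ => hi i j a]
  refine Finset.sum_congr rfl fun j _ => ?_
  rw [intervalIntegral.integral_finsetSum fun a _ => hi i j a, Finset.mul_sum]
  exact Finset.sum_congr rfl fun a _ => intervalIntegral.integral_const_mul _ _

theorem expand_pot {M K : ℕ} {L : ℝ} (W : ℝ → Mat M) (hW : Continuous W) (f : Fin K → ℝ → Fin M → ℝ)
    (hf : ∀ i a, Continuous fun x => f i x a) (hz : ∀ i a x, L < |x| → f i x a = 0) (hL : 0 ≤ L)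
    (c : Fin K → ℝ) :
    ∫ x in (-L)..L, (∑ i, c i • f i x) ⬝ᵥ (W x *ᵥ ∑ i, c i • f i x)
      = ∑ i, ∑ j, c i * c j * ∑ a, ∑ b, ∫ x, W x a b * (f i x a * f j x b) := by
  have e : ∀ i j a b, ∫ x, W x a b * (f i x a * f j x b)
      = ∫ x in (-L)..L, W x a b * (f i x a * f j x b) := by
    intro i j a b
    rw [intervalIntegral.integral_of_le (by linarith), ← integral_Icc_eq_integral_Ioc]
    exact (setIntegral_eq_integral_of_forall_compl_eq_zero fun x hx => by
      rw [hz i a x (not_le.mp fun h => hx (abs_le.mp h))]; ring).symm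
  have hi : ∀ i j a b,
      IntervalIntegrable (fun x => c i * c j * (W x a b * (f i x a * f j x b))) volume (-L) L :=
    fun i j a b => (continuous_const.mul (((continuous_apply b).comp ((continuous_apply a).comp hW)).mul
      ((hf i a).mul (hf j b)))).intervalIntegrable _ _
  have e2 : ∀ x, (∑ i, c i • f i x) ⬝ᵥ (W x *ᵥ ∑ i, c i • f i x)
      = ∑ i, ∑ j, ∑ a, ∑ b, c i * c j * (W x a b * (f i x a * f j x b)) := by
    intro x
    simp only [Matrix.mulVec_sum, sum_dotProduct, dotProduct_sum]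
    rw [Finset.sum_comm]
    refine Finset.sum_congr rfl fun i _ => Finset.sum_congr rfl fun j _ => ?_
    simp only [dotProduct, Matrix.mulVec, Finset.mul_sum, Pi.smul_apply, smul_eq_mul]
    exact Finset.sum_congr rfl fun a _ => Finset.sum_congr rfl fun b _ => by ring
  simp only [e2, e]
  rw [intervalIntegral.integral_finsetSum fun i _ => ii_sum fun j _ =>
    ii_sum fun a _ => ii_sum fun b _ => hi i j a b]
  refine Finset.sum_congr rfl fun i _ => ?_
  rw [intervalIntegral.integral_finsetSum fun j _ => ii_sum fun a _ =>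
    ii_sum fun b _ => hi i j a b]
  refine Finset.sum_congr rfl fun j _ => ?_
  rw [intervalIntegral.integral_finsetSum fun a _ => ii_sum fun b _ => hi i j a b,
    Finset.mul_sum]
  refine Finset.sum_congr rfl fun a _ => ?_
  rw [intervalIntegral.integral_finsetSum fun b _ => hi i j a b, Finset.mul_sum]
  exact Finset.sum_congr rfl fun b _ => intervalIntegral.integral_const_mul _ _

theorem real_trial {M K : ℕ} {p : ℝ} (hp : 1 ≤ p) {W : ℝ → Mat M} {μ : Fin K → ℝ}
    {u u' : Fin K → ℝ → Fin M → ℝ} (hs : RealStates p W μ u u') {d δ : ℝ} (hd : 0 < d) (hd1 : d < 1)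
    (hδ : 0 < δ) :
    ∃ L : ℝ, 0 < L ∧ ∃ T : Trial K M (fun i => Real.sqrt ((1 - d) * μ i)) L,
      ∫ x in (-L)..L, trFn (fun v => v ^ p) (T.W x)
        ≤ (∫ x, trFn (fun v => v ^ p) (W x)) + δ := by
  set τ : ℝ → ℝ := fun x => trFn (fun v => v ^ p) (W x)
  have hτ0 : ∀ x, 0 ≤ τ x := fun x => trFn_rpow_nonneg (hs.psd x) p
  obtain ⟨B, hB⟩ := hs.bdd
  have happ := fun i a => exists_c1_approx (hs.sq i a).1 (hs.sq i a).2 (fun s t => hs.ftc i a s t)
    (B := B) (fun x => hB i a x)
  choose uk uk' hdu hcu hzu hbu hpt hl hl' using happ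
  have hucont : ∀ i a k, Continuous (uk i a k) := fun i a k =>
    continuous_iff_continuousAt.mpr fun x => (hdu i a k x).continuousAt
  have hsq : ∀ {f : ℝ → ℝ} {L : ℝ}, Continuous f → (∀ x, L < |x| → f x = 0) → IsSq f := by
    intro f L hf hz
    refine ⟨hf.aestronglyMeasurable, ?_⟩
    refine (((hf.pow 2).continuousOn.integrableOn_compact (isCompact_Icc (a := -L) (b := L))).congr_fun
      (fun x _ => rfl) measurableSet_Icc).integrable_of_forall_notMem_eq_zero fun x hx => ?_
    show f x ^ 2 = 0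
    rw [hz x (not_le.mp fun h => hx (abs_le.mp h))]; ring
  have hzu' : ∀ i a (k : ℕ) x, 2 * ((k : ℝ) + 1) < |x| → uk i a k x = 0 ∧ uk' i a k x = 0 :=
    fun i a k x hx => hzu i a k x hx.le
  have hsqu : ∀ i a k, IsSq (uk i a k) := fun i a k => hsq (hucont i a k) fun x hx => (hzu' i a k x hx).1
  have hsqu' : ∀ i a k, IsSq (uk' i a k) := fun i a k => hsq (hcu i a k) fun x hx => (hzu' i a k x hx).2
  -- positive lower bound and the tolerance
  obtain ⟨μ₀, hμ₀, hμle⟩ : ∃ μ₀ : ℝ, 0 < μ₀ ∧ ∀ i, μ₀ ≤ μ i := by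
    rcases isEmpty_or_nonempty (Fin K) with h | h
    · exact ⟨1, one_pos, fun i => isEmptyElim i⟩
    · obtain ⟨j, hj⟩ := Finite.exists_min μ
      exact ⟨μ j, hs.pos j, hj⟩
  set S := ∑ i, μ i
  have hS : 0 ≤ S := Finset.sum_nonneg fun i _ => (hs.pos i).le
  set ε := min (d * μ₀ / 4 / (((K : ℝ) + 1) * (1 + S + μ₀))) (1 / (2 * ((K : ℝ) + 1))) with hεdef
  have hε : 0 < ε := lt_min (by positivity) (by positivity)
  -- stage 1
  have hent : ∀ x a b, |W x a b| ≤ M + τ x := fun x a b =>
    (entry_sq_le (hs.psd x) a b).trans (trace_le_trFn (hs.psd x) hp)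
  have l1 : ∀ i j, Tendsto (fun k => ∑ a, ∫ x, uk i a k x * uk j a k x) atTop
      (𝓝 (if i = j then 1 else 0)) := fun i j => by
    rw [← hs.orth i j]
    exact tendsto_finsetSum _ fun a _ => prod_tendsto (hs.sq i a).1 (hs.sq j a).1
      (hsqu i a) (hsqu j a) (hl i a) (hl j a)
  have l2 : ∀ i j, Tendsto (fun k => (∑ a, ∫ x, uk' i a k x * uk' j a k x)
      - ∑ a, ∑ b, ∫ x, W x a b * (uk i a k x * uk j b k x)) atTop
      (𝓝 (if i = j then -μ i else 0)) := fun i j => by
    rw [← hs.form i j]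
    refine Tendsto.sub (tendsto_finsetSum _ fun a _ => prod_tendsto (hs.sq i a).2 (hs.sq j a).2
      (hsqu' i a) (hsqu' j a) (hl' i a) (hl' j a)) ?_
    refine tendsto_finsetSum _ fun a _ => tendsto_finsetSum _ fun b _ => ?_
    refine (weighted_tendsto (T := τ) (C := M) (B := B + 3) (hs.meas a b).aestronglyMeasurable
      (fun x => hent x a b) hs.intW hτ0 (hs.sq i a).1 (hs.sq j b).1 (hsqu i a) (hsqu j b)
      (hl i a) (hl j b) (fun k x => ⟨hbu i a k x, hbu j b k x⟩)
      (fun x => ⟨(hB i a x).trans (by linarith), (hB j b x).trans (by linarith)⟩)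
      (fun x => ⟨hpt i a x, hpt j b x⟩)).2.2
  obtain ⟨k, hk⟩ := ((eventually_all.mpr fun i => eventually_all.mpr fun j =>
    ((l1 i j).eventually (Metric.ball_mem_nhds _ (show (0 : ℝ) < ε / 3 by linarith))).and
      ((l2 i j).eventually (Metric.ball_mem_nhds _ (show (0 : ℝ) < ε / 3 by linarith))))).exists
  set f : Fin K → ℝ → Fin M → ℝ := fun i x a => uk i a k x
  set f' : Fin K → ℝ → Fin M → ℝ := fun i x a => uk' i a k x
  set L₁ := 2 * ((k : ℝ) + 1)
  have hfz : ∀ i a x, L₁ < |x| → f i x a = 0 ∧ f' i x a = 0 := fun i a x hx => hzu' i a k x hx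
  -- stage 2: truncation
  set A : ℕ → Set ℝ := fun n => {x | |x| ≤ (n : ℝ) ∧ (W x).trace ≤ (n : ℝ)}
  have hA : ∀ n, MeasurableSet (A n) := fun n =>
    (measurableSet_le measurable_norm measurable_const).inter
      (measurableSet_le (Finset.measurable_fun_sum _ fun a _ => hs.meas a a) measurable_const)
  set Wn : ℕ → ℝ → Mat M := fun n => (A n).indicator W
  have hWn_ab : ∀ n x a b, Wn n x a b = (A n).indicator (fun y => W y a b) x := fun n x a b => by
    by_cases hx : x ∈ A n <;> simp [Wn, hx]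
  have hWnm : ∀ n a b, Measurable fun x => Wn n x a b := fun n a b => by
    simp only [hWn_ab]; exact (hs.meas a b).indicator (hA n)
  have hWnp : ∀ n x, (Wn n x).PosSemidef := fun n x => by
    by_cases hx : x ∈ A n
    · simp only [Wn, Set.indicator_of_mem hx]; exact hs.psd x
    · simp only [Wn, Set.indicator_of_notMem hx]; exact Matrix.PosSemidef.zero
  have hWnt : ∀ n x, (Wn n x).trace ≤ n := fun n x => by
    by_cases hx : x ∈ A n
    · simp only [Wn, Set.indicator_of_mem hx]; exact hx.2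
    · simp only [Wn, Set.indicator_of_notMem hx, Matrix.trace_zero]; positivity
  have hWnlim : ∀ x a b, Tendsto (fun n => Wn n x a b) atTop (𝓝 (W x a b)) := fun x a b => by
    refine tendsto_const_nhds.congr' ?_
    filter_upwards [eventually_ge_atTop ⌈max |x| (W x).trace⌉₊] with n hn
    have h2 : max |x| (W x).trace ≤ n := (Nat.le_ceil _).trans (Nat.cast_le.mpr hn)
    have hx : x ∈ A n := ⟨(le_max_left _ _).trans h2, (le_max_right _ _).trans h2⟩
    simp [Wn, hx]
  have hWnb : ∀ n x a b, |Wn n x a b| ≤ M + τ x := fun n x a b => by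
    by_cases hx : x ∈ A n
    · simp only [Wn, Set.indicator_of_mem hx]; exact hent x a b
    · simp only [Wn, Set.indicator_of_notMem hx, Matrix.zero_apply, abs_zero]
      linarith [hτ0 x, Nat.cast_nonneg (α := ℝ) M]
  have hfc : ∀ i a, Continuous fun x => f i x a := fun i a => hucont i a k
  have l3 : ∀ i j, Tendsto (fun n => ∑ a, ∑ b, ∫ x, Wn n x a b * (f i x a * f j x b)) atTop
      (𝓝 (∑ a, ∑ b, ∫ x, W x a b * (f i x a * f j x b))) := fun i j =>
    tendsto_finsetSum _ fun a _ => tendsto_finsetSum _ fun b _ =>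
      box_tendsto (T := τ) (C := M) (L := L₁) (fun n => (hWnm n a b).aestronglyMeasurable)
        (fun n x => hWnb n x a b) hs.intW ((hfc i a).mul (hfc j b))
        (fun x hx => by simp [(hfz i a x hx).1]) (Eventually.of_forall fun x => hWnlim x a b)
  obtain ⟨n, hn⟩ := ((eventually_all.mpr fun i => eventually_all.mpr fun j =>
    (l3 i j).eventually (Metric.ball_mem_nhds _ (show (0 : ℝ) < ε / 3 by linarith)))).exists
  -- stage 3: averaging
  obtain ⟨V, hVc, hVp, hVt, hVb, hVz, hVlim⟩ := exists_average (hWnm n) (hWnp n)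
    (Nat.cast_nonneg n) (hWnt n) fun x hx => by
      have : x ∉ A n := fun h => absurd h.1 (not_le.mpr hx)
      simp [Wn, this]
  have hVm : ∀ q a b, Continuous fun x => V q x a b := fun q a b =>
    (continuous_apply b).comp ((continuous_apply a).comp (hVc q))
  have l4 : ∀ i j, Tendsto (fun q => ∑ a, ∑ b, ∫ x, V q x a b * (f i x a * f j x b)) atTop
      (𝓝 (∑ a, ∑ b, ∫ x, Wn n x a b * (f i x a * f j x b))) := fun i j =>
    tendsto_finsetSum _ fun a _ => tendsto_finsetSum _ fun b _ =>
      box_tendsto (T := 0) (C := n) (L := L₁) (fun q => (hVm q a b).aestronglyMeasurable)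
        (fun q x => by simpa using hVb q a b x) (integrable_zero _ _ _) ((hfc i a).mul (hfc j b))
        (fun x hx => by simp [(hfz i a x hx).1]) (hVlim.mono fun x hx => hx a b)
  have hp0 : p ≠ 0 := by linarith
  have hpc : ContinuousOn (fun v : ℝ => v ^ p) (Set.Ici 0) :=
    (Real.continuous_rpow_const (by linarith)).continuousOn
  have hVtr : ∀ q, Continuous fun x => trFn (fun v => v ^ p) (V q x) := fun q =>
    continuous_iff_continuousAt.mpr fun x₀ => tendsto_trFn (fun x => hVp q x) (hVp q x₀)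
      (fun a b => (hVm q a b).tendsto x₀) hpc
  have l5 : Tendsto (fun q => ∫ x, trFn (fun v => v ^ p) (V q x)) atTop
      (𝓝 (∫ x, trFn (fun v => v ^ p) (Wn n x))) := by
    refine tendsto_integral_of_dominated_convergence
      (fun x => (Set.Icc (-((n : ℝ) + 1)) ((n : ℝ) + 1)).indicator
        (fun _ => (M : ℝ) * ((M : ℝ) * n) ^ p) x)
      (fun q => (hVtr q).aestronglyMeasurable)
      ((integrable_indicator_iff measurableSet_Icc).mpr
        (integrableOn_const (by simp [Real.volume_Icc])))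
      (fun q => Eventually.of_forall fun x => ?_) ?_
    · rw [Real.norm_eq_abs, abs_of_nonneg (trFn_rpow_nonneg (hVp q x) p)]
      by_cases hx : x ∈ Set.Icc (-((n : ℝ) + 1)) ((n : ℝ) + 1)
      · rw [Set.indicator_of_mem hx]
        exact trFn_le_of_trace_le (hVp q x) (by linarith) (hVt q x)
      · rw [Set.indicator_of_notMem hx, hVz q x (not_le.mp fun h => hx (abs_le.mp h)), trFn_zero hp0]
    · filter_upwards [hVlim] with x hx
      exact tendsto_trFn (fun q => hVp q x) (hWnp n x) hx hpc
  have hWnint : ∫ x, trFn (fun v => v ^ p) (Wn n x) ≤ ∫ x, τ x := by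
    refine integral_mono_of_nonneg (Eventually.of_forall fun x => trFn_rpow_nonneg (hWnp n x) p)
      hs.intW (Eventually.of_forall fun x => ?_)
    by_cases hx : x ∈ A n
    · simp only [Wn, Set.indicator_of_mem hx]; exact le_rfl
    · simp only [Wn, Set.indicator_of_notMem hx, trFn_zero hp0]; exact hτ0 x
  obtain ⟨q, hq, hq5⟩ := ((eventually_all.mpr fun i => eventually_all.mpr fun j =>
    (l4 i j).eventually (Metric.ball_mem_nhds _ (show (0 : ℝ) < ε / 3 by linarith))).and
      (l5.eventually_lt_const (show ∫ x, trFn (fun v => v ^ p) (Wn n x) < (∫ x, τ x) + δ by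
        linarith))).exists
  -- assemble
  set L := L₁ + ((n : ℝ) + 1)
  have hL : 0 < L := by positivity
  have hzL : ∀ i a x, L < |x| → f i x a = 0 ∧ f' i x a = 0 := fun i a x hx =>
    hfz i a x (lt_of_le_of_lt (by simp only [L]; linarith [Nat.cast_nonneg (α := ℝ) n]) hx)
  set G : Fin K → Fin K → ℝ := fun i j => ∑ a, ∫ x, f i x a * f j x a
  set Q : Fin K → Fin K → ℝ := fun i j => (∑ a, ∫ x, f' i x a * f' j x a)
    - ∑ a, ∑ b, ∫ x, V q x a b * (f i x a * f j x b)
  have hG : ∀ i j, |G i j - (if i = j then 1 else 0)| ≤ ε := fun i j => by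
    have := (hk i j).1
    rw [Real.dist_eq] at this
    linarith
  have hQ : ∀ i j, |Q i j - (if i = j then -μ i else 0)| ≤ ε := fun i j => by
    have a1 := (hk i j).2
    have a2 := hn i j
    have a3 := hq i j
    rw [Real.dist_eq] at a1 a2 a3
    simp only [f, f', Q] at a1 a2 a3 ⊢
    rw [abs_lt] at a1 a2 a3
    exact abs_le.mpr ⟨by linarith, by linarith⟩
  have gram : ∀ c : Fin K → ℝ, |(∫ x in (-L)..L, ∑ a, (∑ i, c i * f i x a) ^ 2) - ∑ i, c i ^ 2|
      ≤ ε * (K * ∑ i, c i ^ 2) := fun c => by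
    rw [expand_sq f hfc (fun i a x hx => (hzL i a x hx).1) hL.le c]
    have h := sesq_near hG c
    rw [diag_form] at h
    simpa using h
  have hεK : ε * K ≤ 1 / 2 := by
    have := min_le_right (d * μ₀ / 4 / (((K : ℝ) + 1) * (1 + S + μ₀))) (1 / (2 * ((K : ℝ) + 1)))
    refine (mul_le_mul_of_nonneg_right this (Nat.cast_nonneg K)).trans ?_
    rw [div_mul_eq_mul_div, div_le_div_iff₀ (by positivity) two_pos]
    linarith
  refine ⟨L, hL, ⟨V q, f, f', d * μ₀ / 4, by positivity, hVc q, hVp q, fun i x a => hdu i a k x,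
    fun i => continuous_pi fun a => hcu i a k, fun i => funext fun a => ?_, fun i => funext fun a => ?_,
    fun c hc => ?_, fun j c hcj => ?_⟩, ?_⟩
  · refine (hzu i a k (-L) ?_).1
    rw [abs_neg, abs_of_pos hL]; simp only [L, L₁]; linarith [Nat.cast_nonneg (α := ℝ) n]
  · refine (hzu i a k L ?_).1
    rw [abs_of_pos hL]; simp only [L, L₁]; linarith [Nat.cast_nonneg (α := ℝ) n]
  · by_contra hcon
    push Not at hcon
    have hpos : 0 < ∑ i, c i ^ 2 := by
      obtain ⟨i, hi⟩ := Function.ne_iff.mp hc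
      exact Finset.sum_pos' (fun i _ => sq_nonneg _) ⟨i, Finset.mem_univ i, by
        have hi' : c i ≠ 0 := hi
        positivity⟩
    have h0 : ∫ x in (-L)..L, ∑ a, (∑ i, c i * f i x a) ^ 2 = 0 := by
      rw [intervalIntegral.integral_congr (g := fun _ => (0 : ℝ)), intervalIntegral.integral_zero]
      intro x hx
      rw [Set.uIcc_of_le (by linarith)] at hx
      refine Finset.sum_eq_zero fun a _ => ?_
      have := congrFun (hcon x hx) a
      simp only [Finset.sum_apply, Pi.smul_apply, smul_eq_mul, Pi.zero_apply] at this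
      rw [this]; ring
    have hgr := gram c
    rw [h0, zero_sub, abs_neg, abs_of_pos hpos, ← mul_assoc] at hgr
    nlinarith
  · have hc' : ∀ i a, Continuous fun x => f' i x a := fun i a => hcu i a k
    have hcc : ∀ a, Continuous fun x => ∑ i, c i * f' i x a := fun a =>
      continuous_finsetSum _ fun i _ => continuous_const.mul (hc' i a)
    have hcv : Continuous fun x => ∑ i, c i • f i x :=
      continuous_finsetSum _ fun i _ => (continuous_pi fun a => hfc i a).const_smul (c i)
    have hcp : Continuous fun x => (∑ i, c i • f i x) ⬝ᵥ (V q x *ᵥ ∑ i, c i • f i x) :=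
      hcv.dotProduct ((hVc q).matrix_mulVec hcv)
    have hsc : Continuous fun x => ∑ a, (∑ i, c i * f' i x a) ^ 2 :=
      continuous_finsetSum _ fun a _ => (hcc a).pow 2
    rw [intervalIntegral.integral_sub (hsc.intervalIntegrable _ _) (hcp.intervalIntegrable _ _),
      expand_sq f' hc' (fun i a x hx => (hzL i a x hx).2) hL.le c,
      expand_pot (V q) (hVc q) f hfc (fun i a x hx => (hzL i a x hx).1) hL.le c]
    have eQ : ∑ i, ∑ j, c i * c j * Q i j
        = (∑ i, ∑ j, c i * c j * ∑ a, ∫ x, f' i x a * f' j x a)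
          - ∑ i, ∑ j, c i * c j * ∑ a, ∑ b, ∫ x, V q x a b * (f i x a * f j x b) := by
      simp only [Q, mul_sub, Finset.sum_sub_distrib]
    rw [← eQ]
    have hq1 := sesq_near hQ c
    rw [diag_form] at hq1
    have hg1 := gram c
    set N2 := ∑ i, c i ^ 2
    have hN2 : 0 ≤ N2 := Finset.sum_nonneg fun i _ => sq_nonneg _
    have hdiag : ∑ i, c i ^ 2 * -μ i ≤ -μ j * N2 := by
      rw [Finset.mul_sum]
      refine Finset.sum_le_sum fun i _ => ?_
      rcases le_or_gt i j with hij | hij
      · nlinarith [hs.anti hij, sq_nonneg (c i)]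
      · simp [hcj i hij]
    have hμj : μ j ≤ S := Finset.single_le_sum (fun i _ => (hs.pos i).le) (Finset.mem_univ j)
    rw [Real.sq_sqrt (mul_nonneg (by linarith) (hs.pos j).le)]
    have hκ0 : 0 ≤ (1 - d) * μ j + d * μ₀ / 4 := by
      have := mul_nonneg (show 0 ≤ 1 - d by linarith) (hs.pos j).le
      positivity
    have hκ1 : (1 - d) * μ j + d * μ₀ / 4 ≤ S + μ₀ := by nlinarith [hs.pos j]
    have hεm : ε * K * (1 + S + μ₀) ≤ d * μ₀ / 4 := by
      have := min_le_left (d * μ₀ / 4 / (((K : ℝ) + 1) * (1 + S + μ₀))) (1 / (2 * ((K : ℝ) + 1)))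
      rw [← hεdef, le_div_iff₀ (by positivity)] at this
      nlinarith
    have b1 := (abs_le.mp hq1).2
    have b2 := (abs_le.mp hg1).2
    have b3 : ((1 - d) * μ j + d * μ₀ / 4) * ∫ x in (-L)..L, ∑ a, (∑ i, c i * f i x a) ^ 2
        ≤ ((1 - d) * μ j + d * μ₀ / 4) * N2 + (S + μ₀) * (ε * (K * N2)) := by
      refine (mul_le_mul_of_nonneg_left (show _ ≤ N2 + ε * (K * N2) by linarith) hκ0).trans ?_
      rw [mul_add]
      exact add_le_add le_rfl (mul_le_mul_of_nonneg_right hκ1 (by positivity))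
    have b4 := mul_le_mul_of_nonneg_right hεm hN2
    nlinarith [mul_nonneg (mul_nonneg hd.le (sub_nonneg.mpr (hμle j))) hN2,
      mul_nonneg (mul_nonneg hd.le hμ₀.le) hN2]
  · refine le_trans ?_ hq5.le
    rw [intervalIntegral.integral_of_le (by linarith)]
    refine setIntegral_le_integral ?_ (Eventually.of_forall fun x => trFn_rpow_nonneg (hVp q x) p)
    refine ((hVtr q).continuousOn.integrableOn_compact
      (isCompact_Icc (a := -((n : ℝ) + 1)) (b := (n : ℝ) + 1))).integrable_of_forall_notMem_eq_zero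
      fun x hx => ?_
    rw [hVz q x (not_le.mp fun h => hx (abs_le.mp h)), trFn_zero hp0]

end

end Vale.Agent.P371.Full
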