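import Vale.Agent.P371.Full.Family
import Vale.Agent.P371.Full.Realify
import Vale.Agent.P371.Full.TrialApprox
import Mathlib.Data.Fin.Tuple.Sort

/-! # M5a: from bound states to trial data (truncate, regularise, realify: `m ↦ 2m`, `N ↦ 2N`) -/

namespace Vale.Agent.P371.Full

open MeasureTheory Matrix Filter Topology
open Vale.Agent.P371.LT
open scoped ComplexOrder

noncomputable section

/-- The phase of a doubled index. -/
def phase (s : Fin 2) : ℂ := if s = 0 then 1 else Complex.I

theorem phase_sq (s : Fin 2) : star (phase s) * phase s = 1 := by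
  fin_cases s <;> simp [phase]

theorem phase_cross {s t : Fin 2} (h : s ≠ t) : (star (phase s) * phase t).re = 0 := by
  fin_cases s <;> fin_cases t <;> simp_all [phase]

theorem norm_phase (s : Fin 2) : ‖phase s‖ = 1 := by
  fin_cases s <;> simp [phase]

theorem abs_part_le (z : ℂ) (s : Fin 2) : |part z s| ≤ ‖z‖ := by
  fin_cases s <;> simp [part, Complex.abs_re_le_norm, Complex.abs_im_le_norm]

theorem part_isSq {f : ℝ → ℂ} (hf : MemLp f 2 volume) (s : Fin 2) : IsSq fun x => part (f x) s := by
  have hc : Continuous fun z : ℂ => part z s := by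
    fin_cases s <;> simp only [part] <;> [exact Complex.continuous_re; exact Complex.continuous_im]
  refine ⟨hc.comp_aestronglyMeasurable hf.1,
    Integrable.mono' ((memLp_two_iff_integrable_sq_norm hf.1).mp hf)
      ((hc.comp_aestronglyMeasurable hf.1).pow 2) (Eventually.of_forall fun x => ?_)⟩
  simp only [Real.norm_eq_abs, abs_pow]
  exact pow_le_pow_left₀ (abs_nonneg _) (abs_part_le _ _) 2

theorem part_prim {f f' : ℝ → ℂ} (hf : IsH1 f f') (c : ℂ) (s : Fin 2) (a b : ℝ) :
    part (c * f b) s - part (c * f a) s = ∫ x in a..b, part (c * f' x) s := by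
  have h := hf.2.2 a b
  have hi : IntervalIntegrable (fun x => c * f' x) volume a b := (hf.intInt a b).const_mul c
  have e : c * f b - c * f a = ∫ x in a..b, c * f' x := by
    rw [intervalIntegral.integral_const_mul, ← h, mul_sub]
  by_cases hs : s = 0
  · simp only [part, hs, if_true]
    rw [← Complex.sub_re, e]
    exact (Complex.reCLM.intervalIntegral_comp_comm hi).symm
  · simp only [part, hs, if_false]
    rw [← Complex.sub_im, e]
    exact (Complex.imCLM.intervalIntegral_comp_comm hi).symm

theorem w_integrable {w T u v : ℝ → ℝ} {C B : ℝ} (hw : AEStronglyMeasurable w volume)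
    (hwb : ∀ x, |w x| ≤ C + T x) (hT : Integrable T) (hT0 : ∀ x, 0 ≤ T x) (hu : IsSq u) (hv : IsSq v)
    (hB : ∀ x, |u x| ≤ B ∧ |v x| ≤ B) : Integrable fun x => w x * (u x * v x) :=
  (weighted_tendsto (uk := fun _ => u) (vk := fun _ => v) hw hwb hT hT0 hu hv (fun _ => hu) (fun _ => hv)
    (by simp) (by simp) (fun _ => hB) hB fun x => ⟨tendsto_const_nhds, tendsto_const_nhds⟩).1

/-- A complex function whose real rotations are integrable. -/
theorem cplx_integrable {S : ℝ → ℂ} (h1 : Integrable fun x => (S x).re)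
    (h2 : Integrable fun x => (-Complex.I * S x).re) : Integrable S := by
  refine (h1.ofReal.add (h2.ofReal.const_mul Complex.I)).congr (Eventually.of_forall fun x => ?_)
  apply Complex.ext <;> simp

theorem exists_trial {g : ℝ} (hg : 1 / 2 < g) (hg' : g < 3 / 2) {m N : ℕ}
    {W : ℝ → Matrix (Fin m) (Fin m) ℂ} {E : Fin N → ℝ} {ψ ψ' : Fin N → ℝ → Fin m → ℂ}
    (hW : IsPotentialFor g W) (h : IsBoundStates W E ψ ψ') {δ : ℝ} (hδ : 0 < δ) :
    ∃ (κ : Fin (2 * N) → ℝ) (L : ℝ), 0 < L ∧ (∀ i, 0 < κ i) ∧
      2 * (∑ n, |E n| ^ g) - δ ≤ ∑ i, κ i ^ (2 * g) ∧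
      ∃ T : Trial (2 * N) (2 * m) κ L,
        ∫ x in (-L)..L, trFn (fun v => v ^ (g + 1 / 2)) (T.W x)
          ≤ 2 * (∫ x, trPow (g + 1 / 2) (W x)) + δ := by
  obtain ⟨h1, h2, h3⟩ := h
  set p := g + 1 / 2
  set σ := Tuple.sort E
  set ix : Fin (2 * N) → Fin N := fun i => σ (split2 N i).1
  set ph : Fin (2 * N) → ℂ := fun i => phase (split2 N i).2
  set μ : Fin (2 * N) → ℝ := fun i => |E (ix i)|
  set W' : ℝ → Mat (2 * m) := fun x => realify (W x)
  set u : Fin (2 * N) → ℝ → Fin (2 * m) → ℝ := fun i x => realVec fun a => ph i * ψ (ix i) x a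
  set u' : Fin (2 * N) → ℝ → Fin (2 * m) → ℝ := fun i x => realVec fun a => ph i * ψ' (ix i) x a
  have hμpos : ∀ i, 0 < μ i := fun i => abs_pos.mpr (h3 (ix i)).1.ne
  have htr : ∀ x, trFn (fun v => v ^ p) (W' x) = 2 * trPow p (W x) := fun x =>
    trFn_realify (hW.2.1 x) p
  obtain ⟨B, hB⟩ : ∃ B, ∀ n x a, ‖ψ n x a‖ ≤ B := by
    set D : Fin N × Fin m → ℝ := fun q => Real.sqrt (Complex.normSq (ψ q.1 0 q.2)
      + ((∫ t, Complex.normSq (ψ q.1 t q.2)) + ∫ t, Complex.normSq (ψ' q.1 t q.2)))
    refine ⟨∑ q, D q, fun n x a => ?_⟩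
    have hh := IsH1.bounded (h1 n a) x
    rw [Complex.normSq_eq_norm_sq] at hh
    refine (((le_abs_self _).trans (Real.abs_le_sqrt hh)).trans (le_of_eq rfl)).trans ?_
    exact Finset.single_le_sum (f := D) (fun q _ => Real.sqrt_nonneg _) (Finset.mem_univ (n, a))
  have hub : ∀ (c : ℂ) n x (a : Fin (2 * m)), ‖c‖ = 1 →
      |realVec (fun b => c * ψ n x b) a| ≤ B := fun c n x a hc => by
    refine (abs_part_le _ _).trans ?_
    rw [norm_mul, hc, one_mul]
    exact hB n x _
  have hsqc : ∀ (c : ℂ) n (a : Fin (2 * m)), IsSq (fun x => realVec (fun b => c * ψ n x b) a) ∧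
      IsSq (fun x => realVec (fun b => c * ψ' n x b) a) := fun c n a =>
    ⟨part_isSq ((h1 n _).1.const_mul c) _, part_isSq ((h1 n _).2.1.const_mul c) _⟩
  have hmeas : ∀ a b, Measurable fun x => W' x a b := fun a b => by
    simp only [W', realify, Matrix.of_apply, blk]
    split_ifs
    · exact Complex.measurable_re.comp (hW.1 _ _)
    · exact (Complex.measurable_im.comp (hW.1 _ _)).neg
    · exact Complex.measurable_im.comp (hW.1 _ _)
    · exact Complex.measurable_re.comp (hW.1 _ _)
  have hintW : Integrable fun x => trFn (fun v => v ^ p) (W' x) := by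
    simp only [htr]; exact hW.2.2.const_mul 2
  have hent : ∀ x a b, |W' x a b| ≤ (2 * m : ℕ) + trFn (fun v => v ^ p) (W' x) := fun x a b =>
    (entry_sq_le (realify_psd (hW.2.1 x)) a b).trans
      (trace_le_trFn (realify_psd (hW.2.1 x)) (by simp only [p]; linarith))
  have hwi : ∀ (c d : ℂ), ‖c‖ = 1 → ‖d‖ = 1 → ∀ n q a b, Integrable fun x =>
      W' x a b * (realVec (fun e => c * ψ n x e) a * realVec (fun e => d * ψ q x e) b) :=
    fun c d hc hd n q a b => w_integrable (hmeas a b).aestronglyMeasurable (fun x => hent x a b)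
      hintW (fun x => trFn_rpow_nonneg (realify_psd (hW.2.1 x)) p) (hsqc c n a).1 (hsqc d q b).1
      fun x => ⟨hub c n x a hc, hub d q x b hd⟩
  set S : Fin N → Fin N → ℝ → ℂ := fun n q x => ∑ a, ∑ b, star (ψ n x a) * W x a b * ψ q x b
  have hrot : ∀ (c d : ℂ) n q x, (star c * d * S n q x).re
      = ∑ a, ∑ b, W' x a b * (realVec (fun e => c * ψ n x e) a * realVec (fun e => d * ψ q x e) b) := by
    intro c d n q x
    rw [quad_realVec]
    congr 1
    simp only [S, Finset.mul_sum, star_mul']
    exact Finset.sum_congr rfl fun a _ => Finset.sum_congr rfl fun b _ => by ring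
  have hrot_int : ∀ (c d : ℂ), ‖c‖ = 1 → ‖d‖ = 1 → ∀ n q,
      Integrable fun x => (star c * d * S n q x).re := fun c d hc hd n q => by
    simp only [hrot]
    exact integrable_finsetSum _ fun a _ => integrable_finsetSum _ fun b _ => hwi c d hc hd n q a b
  have hSi : ∀ n q, Integrable (S n q) := fun n q => by
    refine cplx_integrable ?_ ?_
    · simpa using hrot_int 1 1 (by simp) (by simp) n q
    · simpa using hrot_int Complex.I 1 Complex.norm_I (by simp) n q
  have hinner : ∀ {α β : ℝ → Fin m → ℂ}, (∀ a, MemLp (fun x => α x a) 2 volume) →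
      (∀ a, MemLp (fun x => β x a) 2 volume) → ∀ c d : ℂ,
      (∑ a : Fin (2 * m), ∫ x, realVec (fun e => c * α x e) a * realVec (fun e => d * β x e) a)
        = (star c * d * inner2 α β).re := by
    intro α β hα hβ c d
    have hi : ∀ a : Fin (2 * m),
        Integrable fun x => realVec (fun e => c * α x e) a * realVec (fun e => d * β x e) a :=
      fun a => (part_isSq ((hα _).const_mul c) _).mul (part_isSq ((hβ _).const_mul d) _)
    have hJ : Integrable fun x => ∑ a, star (α x a) * β x a := integrable_finsetSum _ fun a _ => by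
      refine Integrable.mono' (((memLp_two_iff_integrable_sq_norm (hα a).1).mp (hα a)).add
        ((memLp_two_iff_integrable_sq_norm (hβ a).1).mp (hβ a)))
        ((continuous_star.comp_aestronglyMeasurable (hα a).1).mul (hβ a).1)
        (Eventually.of_forall fun x => ?_)
      simp only [Pi.add_apply, norm_mul, norm_star]
      nlinarith [sq_nonneg (‖α x a‖ - ‖β x a‖), norm_nonneg (α x a), norm_nonneg (β x a)]
    rw [← integral_finsetSum _ fun a _ => hi a, inner2, ← integral_const_mul]
    refine Eq.trans ?_ (Complex.reCLM.integral_comp_comm (hJ.const_mul _))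
    refine integral_congr_ae (Eventually.of_forall fun x => ?_)
    show ∑ a, _ = (star c * d * ∑ a, star (α x a) * β x a).re
    rw [dot_realVec, Finset.mul_sum]
    congr 1
    exact Finset.sum_congr rfl fun a _ => by rw [star_mul']; ring
  have hdelta : ∀ i j, (star (ph i) * ph j * (if ix i = ix j then 1 else 0)).re
      = if i = j then 1 else 0 := by
    intro i j
    by_cases hij : i = j
    · subst hij
      simp only [ph, if_true, mul_one, phase_sq, Complex.one_re]
    · rw [if_neg hij]
      by_cases he : ix i = ix j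
      · rw [if_pos he, mul_one]
        refine phase_cross fun h2 => hij ((split2 N).injective (Prod.ext (σ.injective he) h2))
      · rw [if_neg he, mul_zero, Complex.zero_re]
  have hs : RealStates p W' μ u u' := by
    refine ⟨hmeas, fun x => realify_psd (hW.2.1 x), hintW, fun i a => hsqc (ph i) (ix i) a,
      fun i a s t => part_prim (h1 (ix i) (split2 m a).1) (ph i) (split2 m a).2 s t,
      ⟨B, fun i a x => hub (ph i) (ix i) x a (norm_phase _)⟩, fun i j => ?_, fun i j => ?_, hμpos, ?_⟩
    · simp only [u]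
      rw [hinner (fun a => (h1 (ix i) a).1) (fun a => (h1 (ix j) a).1), h2, hdelta]
    · simp only [u, u']
      rw [hinner (fun a => (h1 (ix i) a).2.1) (fun a => (h1 (ix j) a).2.1)]
      have hpot : (∑ a, ∑ b, ∫ x, W' x a b * (realVec (fun e => ph i * ψ (ix i) x e) a
            * realVec (fun e => ph j * ψ (ix j) x e) b))
          = (star (ph i) * ph j * ∫ x, S (ix i) (ix j) x).re := by
        have hI := hwi (ph i) (ph j) (norm_phase _) (norm_phase _) (ix i) (ix j)
        rw [← Finset.sum_congr rfl fun a _ => integral_finsetSum _ fun b _ => hI a b,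
          ← integral_finsetSum _ fun a _ => integrable_finsetSum _ fun b _ => hI a b,
          ← integral_const_mul]
        refine Eq.trans ?_ (Complex.reCLM.integral_comp_comm ((hSi _ _).const_mul _))
        exact integral_congr_ae (Eventually.of_forall fun x => (hrot _ _ _ _ x).symm)
      rw [hpot, ← Complex.sub_re, ← mul_sub]
      have hq := (h3 (ix j)).2 (ψ (ix i)) (ψ' (ix i)) (h1 (ix i))
      rw [form, h2] at hq
      rw [hq]
      have hd := hdelta i j
      have e : (star (ph i) * ph j * ((E (ix j) : ℂ) * if ix i = ix j then 1 else 0)).re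
          = E (ix j) * (star (ph i) * ph j * if ix i = ix j then 1 else 0).re := by
        rw [← Complex.re_ofReal_mul]; congr 1; ring
      rw [e, hd]
      by_cases hij : i = j
      · subst hij
        simp [μ, abs_of_neg (h3 (ix i)).1]
      · simp [hij]
    · intro i j hij
      have := Tuple.monotone_sort E (split2_mono hij)
      simp only [Function.comp_apply] at this
      simp only [μ, ix, σ, abs_of_neg (h3 _).1]
      linarith
  set sg := ∑ n, |E n| ^ g
  have hsg : 0 ≤ sg := Finset.sum_nonneg fun n _ => Real.rpow_nonneg (abs_nonneg _) _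
  set d := min (1 / 2) (δ / (4 * (sg + 1)))
  have hd : 0 < d := lt_min (by norm_num) (by positivity)
  have hd1 : d ≤ 1 / 2 := min_le_left _ _
  obtain ⟨L, hL, T, hT⟩ := real_trial (show 1 ≤ p by simp only [p]; linarith) hs hd (by linarith) hδ
  refine ⟨fun i => Real.sqrt ((1 - d) * μ i), L, hL,
    fun i => Real.sqrt_pos.mpr (mul_pos (by linarith) (hμpos i)), ?_, T, hT.trans (le_of_eq ?_)⟩
  · have e : ∀ i, Real.sqrt ((1 - d) * μ i) ^ (2 * g) = (1 - d) ^ g * μ i ^ g := fun i => by
      rw [Real.rpow_mul (Real.sqrt_nonneg _), Real.rpow_two,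
        Real.sq_sqrt (mul_nonneg (by linarith) (hμpos i).le),
        Real.mul_rpow (by linarith) (hμpos i).le]
    have hsum : ∑ i, μ i ^ g = 2 * sg := by
      rw [sum_index (fun n => |E (σ n)| ^ g), Equiv.sum_comp σ (fun n => |E n| ^ g)]
    simp only [e, ← Finset.mul_sum, hsum]
    have hlow : 1 - 2 * d ≤ (1 - d) ^ g := by
      have h1 : (1 - d) ^ (2 : ℝ) ≤ (1 - d) ^ g :=
        Real.rpow_le_rpow_of_exponent_ge (by linarith) (by linarith) (by linarith)
      rw [Real.rpow_two] at h1
      nlinarith
    have hdS : d * (4 * (sg + 1)) ≤ δ := by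
      have := min_le_right (1 / 2) (δ / (4 * (sg + 1)))
      rwa [le_div_iff₀ (by positivity)] at this
    nlinarith [mul_le_mul_of_nonneg_right hlow (show 0 ≤ 2 * sg by linarith)]
  · simp only [htr]
    rw [integral_const_mul]

end

end Vale.Agent.P371.Full
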