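import Vale.Agent.P371.Full.Defs
import Vale.Agent.P371.Lower
import Mathlib.MeasureTheory.Integral.ExpDecay

/-! # M5c: the constant and the soliton `a (a+1) sech²` -/

namespace Vale.Agent.P371.Full

open MeasureTheory Matrix Filter Topology
open Vale.Agent.P371.LT
open scoped ComplexOrder

noncomputable section

theorem bInt_continuous {a : ℝ} (ha : 0 ≤ a) : Continuous fun t : ℝ => (1 - t ^ 2) ^ a :=
  (continuous_const.sub (continuous_pow 2)).rpow_const fun _ => Or.inr ha

theorem bInt_pos {a : ℝ} (ha : 0 < a) : 0 < bInt a := by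
  refine intervalIntegral.integral_pos (by norm_num) (bInt_continuous ha.le).continuousOn
    (fun t ht => Real.rpow_nonneg (by nlinarith [ht.1, ht.2]) _) ⟨0, by norm_num, ?_⟩
  simp

/-- `bInt a = √π Γ(a+1) / Γ(a+3/2)`. -/
theorem bInt_eq {a : ℝ} (ha : 0 < a) :
    bInt a = Real.sqrt Real.pi * Real.Gamma (a + 1) / Real.Gamma (a + 3 / 2) := by
  have h1 : bInt a = ∫ u in (0 : ℝ)..2, u ^ a * (2 - u) ^ a := by
    have hs := intervalIntegral.integral_comp_sub_right (fun t : ℝ => (1 - t ^ 2) ^ a)
      (a := 0) (b := 2) 1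
    norm_num at hs
    rw [bInt, ← hs]
    refine intervalIntegral.integral_congr fun u hu => ?_
    rw [Set.uIcc_of_le (by norm_num)] at hu
    rw [← Real.mul_rpow hu.1 (by linarith [hu.2]), show 1 - (u - 1) ^ 2 = u * (2 - u) by ring]
  have h2 : ∫ u in (0 : ℝ)..2, u ^ a * (2 - u) ^ a
      = (2 : ℝ) ^ (2 * a + 1) * ProbabilityTheory.beta (a + 1) (a + 1) := by
    have h := Complex.betaIntegral_scaled ((a + 1 : ℝ) : ℂ) ((a + 1 : ℝ) : ℂ) (a := 2) two_pos
    have e : ∫ x in (0 : ℝ)..2, (x : ℂ) ^ (((a + 1 : ℝ) : ℂ) - 1)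
          * (((2 : ℝ) : ℂ) - x) ^ (((a + 1 : ℝ) : ℂ) - 1)
        = ((∫ x in (0 : ℝ)..2, x ^ a * (2 - x) ^ a : ℝ) : ℂ) := by
      rw [← intervalIntegral.integral_ofReal]
      refine intervalIntegral.integral_congr fun t ht => ?_
      rw [Set.uIcc_of_le (by norm_num)] at ht
      rw [Complex.ofReal_mul, Complex.ofReal_cpow ht.1, Complex.ofReal_cpow (by linarith [ht.2])]
      push_cast
      ring_nf
    rw [e, show (((a + 1 : ℝ) : ℂ) + ((a + 1 : ℝ) : ℂ) - 1) = ((2 * a + 1 : ℝ) : ℂ) by push_cast; ring,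
      ← Complex.ofReal_cpow two_pos.le] at h
    have h3 := congrArg Complex.re h
    rw [Complex.re_ofReal_mul, Complex.ofReal_re] at h3
    rw [h3, ProbabilityTheory.beta_eq_betaIntegralReal _ _ (by linarith) (by linarith)]
  have hd := Real.Gamma_mul_Gamma_add_half (a + 1)
  rw [show a + 1 + 1 / 2 = a + 3 / 2 by ring] at hd
  have hG : 0 < Real.Gamma (2 * (a + 1)) := Real.Gamma_pos_of_pos (by linarith)
  have hG' : 0 < Real.Gamma (a + 3 / 2) := Real.Gamma_pos_of_pos (by linarith)
  have h2p : (2 : ℝ) ^ (2 * a + 1) * 2 ^ (1 - 2 * (a + 1)) = 1 := by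
    rw [← Real.rpow_add two_pos, show 2 * a + 1 + (1 - 2 * (a + 1)) = 0 by ring, Real.rpow_zero]
  rw [h1, h2, ProbabilityTheory.beta, show a + 1 + (a + 1) = 2 * (a + 1) by ring]
  generalize Real.Gamma (a + 3 / 2) = G at hd hG' ⊢
  generalize Real.Gamma (2 * (a + 1)) = H at hd hG ⊢
  field_simp
  linear_combination (2 : ℝ) ^ (2 * a + 1) * hd
    + (H * Real.sqrt Real.pi) * h2p

theorem oneState_eq {g : ℝ} (hg : 1 / 2 < g) :
    oneState g = 1 / (g - 1 / 2) * ((g - 1 / 2) / (g + 1 / 2)) ^ (g + 1 / 2) / bInt (g - 1 / 2) := by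
  have ha : 0 < g - 1 / 2 := by linarith
  have hb : 0 < g + 1 / 2 := by linarith
  rw [bInt_eq ha, oneState, show g - 1 / 2 + 1 = g + 1 / 2 by ring,
    show g - 1 / 2 + 3 / 2 = g + 1 by ring,
    show g + 3 / 2 = g + 1 / 2 + 1 by ring, Real.Gamma_add_one hb.ne']
  have e : ((g - 1 / 2) / (g + 1 / 2)) ^ (g + 1 / 2)
      = ((g - 1 / 2) / (g + 1 / 2)) ^ (g - 1 / 2) * ((g - 1 / 2) / (g + 1 / 2)) := by
    rw [← Real.rpow_add_one (by positivity)]
    congr 1
    ring
  rw [e]
  have := (Real.Gamma_pos_of_pos (by linarith : 0 < g + 1)).ne'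
  have := (Real.Gamma_pos_of_pos hb).ne'
  field_simp
  rw [mul_div_cancel_left₀ _ (show 2 * g - 1 ≠ 0 by linarith)]

/-! ### Powers of `sech` -/

theorem sech_le_exp (x : ℝ) : sech x ≤ 2 * Real.exp (-|x|) := by
  rw [sech, Real.cosh_eq, inv_div, div_le_iff₀ (by positivity), Real.exp_neg |x|]
  have h : Real.exp |x| ≤ Real.exp x + Real.exp (-x) := by
    rcases abs_cases x with ⟨e, -⟩ | ⟨e, -⟩ <;> rw [e] <;>
      linarith [Real.exp_pos x, Real.exp_pos (-x)]
  have h0 := Real.exp_pos |x|
  field_simp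
  linarith

theorem exp_abs_integrable {c : ℝ} (hc : 0 < c) : Integrable fun x : ℝ => Real.exp (-c * |x|) := by
  rw [← integrableOn_univ, ← Set.Iic_union_Ioi (a := (0 : ℝ))]
  refine IntegrableOn.union ?_ ?_
  · rw [integrableOn_Iic_iff_integrableOn_Iio]
    have h := ((exp_neg_integrableOn_Ioi 0 hc).integrable_indicator measurableSet_Ioi).comp_neg
    refine (h.integrableOn (s := Set.Iio 0)).congr_fun (fun x hx => ?_) measurableSet_Iio
    simp only [Set.mem_Iio] at hx
    rw [abs_of_neg hx]
    simp [Set.indicator_of_mem (Set.mem_Ioi.mpr (neg_pos.mpr hx))]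
  · refine (exp_neg_integrableOn_Ioi 0 hc).congr_fun (fun x hx => ?_) measurableSet_Ioi
    simp only [abs_of_pos (Set.mem_Ioi.mp hx)]

theorem sech_rpow_continuous (c : ℝ) : Continuous fun x => sech x ^ c :=
  sech_continuous.rpow_const fun x => Or.inl (sech_pos x).ne'

theorem sech_rpow_integrable {c : ℝ} (hc : 0 < c) : Integrable fun x => sech x ^ c := by
  refine Integrable.mono' ((exp_abs_integrable hc).const_mul ((2 : ℝ) ^ c))
    (sech_rpow_continuous c).aestronglyMeasurable (Eventually.of_forall fun x => ?_)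
  rw [Real.norm_eq_abs, abs_of_pos (Real.rpow_pos_of_pos (sech_pos x) _)]
  refine (Real.rpow_le_rpow (sech_pos x).le (sech_le_exp x) hc.le).trans (le_of_eq ?_)
  rw [Real.mul_rpow two_pos.le (Real.exp_pos _).le, ← Real.exp_mul]
  ring_nf

theorem hasDerivAt_sech_rpow (c x : ℝ) :
    HasDerivAt (fun y => sech y ^ c) (-c * (Real.sinh x * sech x) * sech x ^ c) x := by
  refine ((hasDerivAt_sech x).rpow_const (Or.inl (sech_pos x).ne')).congr_deriv ?_
  rw [Real.rpow_sub_one (sech_pos x).ne']
  have := sech_pos x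
  field_simp

theorem integral_sech_rpow {a : ℝ} (ha : 0 < a) : ∫ x, sech x ^ (2 * a + 2) = bInt a := by
  set T : ℝ → ℝ := fun x => Real.sinh x * sech x
  have hT : ∀ x, HasDerivAt T (sech x ^ 2) x := by
    intro x
    refine ((Real.hasDerivAt_sinh x).fun_mul (hasDerivAt_sech x)).congr_deriv ?_
    have hc : Real.cosh x * sech x = 1 := mul_inv_cancel₀ (Real.cosh_pos x).ne'
    linear_combination hc - sech_sq_add x
  have hcomp : ∀ b : ℝ, ∫ x in (-b)..b, sech x ^ (2 * a + 2)
      = ∫ u in T (-b)..T b, (1 - u ^ 2) ^ a := by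
    intro b
    rw [← intervalIntegral.integral_comp_mul_deriv (f := T) (f' := fun x => sech x ^ 2)
      (fun x _ => hT x) (sech_continuous.pow 2).continuousOn (bInt_continuous ha.le)]
    refine intervalIntegral.integral_congr fun x _ => ?_
    simp only [Function.comp_apply, T]
    rw [show 1 - (Real.sinh x * sech x) ^ 2 = sech x ^ 2 by linarith [sech_sq_add x],
      ← Real.rpow_natCast (sech x) 2, ← Real.rpow_mul (sech_pos x).le,
      ← Real.rpow_add (sech_pos x)]
    push_cast; rfl
  have hlim : Tendsto T atTop (𝓝 1) := by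
    have hb : ∀ x, 0 ≤ x → 1 - sech x ≤ T x ∧ T x ≤ 1 := by
      intro x hx
      have h0 : 0 ≤ T x := mul_nonneg (Real.sinh_nonneg_iff.mpr hx) (sech_pos x).le
      have h1 := sech_sq_add x
      have := sech_le_one x
      have := sech_pos x
      exact ⟨by nlinarith, by nlinarith⟩
    refine tendsto_of_tendsto_of_tendsto_of_le_of_le'
      (by simpa using sech_tendsto_atTop.const_sub 1) tendsto_const_nhds ?_ ?_
    · filter_upwards [eventually_ge_atTop (0 : ℝ)] with x hx using (hb x hx).1
    · filter_upwards [eventually_ge_atTop (0 : ℝ)] with x hx using (hb x hx).2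
  have hodd : ∀ b, T (-b) = -T b := fun b => by simp [T, sech]
  have hP : Continuous fun b : ℝ => ∫ u in (-b)..b, (1 - u ^ 2) ^ a := by
    have h := intervalIntegral.continuous_primitive
      (fun u v => (bInt_continuous ha.le).intervalIntegrable (μ := volume) u v) 0
    have e : (fun b : ℝ => ∫ u in (-b)..b, (1 - u ^ 2) ^ a)
        = fun b => (∫ u in (0 : ℝ)..b, (1 - u ^ 2) ^ a) - ∫ u in (0 : ℝ)..(-b), (1 - u ^ 2) ^ a := by
      funext b
      rw [intervalIntegral.integral_interval_sub_left ((bInt_continuous ha.le).intervalIntegrable _ _)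
        ((bInt_continuous ha.le).intervalIntegrable _ _)]
    rw [e]
    exact h.sub (h.comp continuous_neg)
  have h1 := intervalIntegral_tendsto_integral (sech_rpow_integrable (c := 2 * a + 2) (by linarith))
    tendsto_neg_atTop_atBot (tendsto_id (α := ℝ))
  refine tendsto_nhds_unique h1 ?_
  simp only [id, hcomp, hodd]
  exact (hP.tendsto 1).comp hlim

/-! ### The weak equation of a real bound state -/

theorem real_isH1 {b b' : ℝ → ℝ} (hd : ∀ x, HasDerivAt b (b' x) x) (hc : Continuous b')
    {C : ℝ} (hb : ∀ x, |b' x| ≤ C * |b x|) (hi : Integrable fun x => b x ^ 2) :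
    IsH1 (fun x => (b x : ℂ)) (fun x => (b' x : ℂ)) := by
  have hbc : Continuous b := continuous_iff_continuousAt.mpr fun x => (hd x).continuousAt
  refine ⟨?_, ?_, fun u v => ?_⟩
  · refine (memLp_two_iff_integrable_sq_norm
      (Complex.continuous_ofReal.comp hbc).aestronglyMeasurable).mpr ?_
    exact hi.congr (Eventually.of_forall fun x => by simp [Complex.norm_real])
  · refine (memLp_two_iff_integrable_sq_norm
      (Complex.continuous_ofReal.comp hc).aestronglyMeasurable).mpr ?_
    refine Integrable.mono' (hi.const_mul (C ^ 2))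
      ((Complex.continuous_ofReal.comp hc).norm.pow 2).aestronglyMeasurable
      (Eventually.of_forall fun x => ?_)
    simp only [Function.comp_apply, Complex.norm_real, Real.norm_eq_abs, sq_abs, abs_pow]
    have := pow_le_pow_left₀ (abs_nonneg _) (hb x) 2
    rw [mul_pow, sq_abs, sq_abs] at this
    exact this
  · rw [intervalIntegral.integral_ofReal, intervalIntegral.integral_eq_sub_of_hasDerivAt
      (fun x _ => hd x) (hc.intervalIntegrable u v)]
    push_cast; ring

theorem real_weak {b b' V : ℝ → ℝ} {e C D : ℝ} (hd : ∀ x, HasDerivAt b (b' x) x)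
    (hd' : ∀ x, HasDerivAt b' ((e - V x) * b x) x) (hV : Continuous V) (hVb : ∀ x, |V x| ≤ D)
    (hb : ∀ x, |b' x| ≤ C * |b x|) (hi : Integrable fun x => b x ^ 2)
    (htop : Tendsto b' atTop (𝓝 0)) (hbot : Tendsto b' atBot (𝓝 0))
    {f f' : ℝ → ℂ} (hf : IsH1 f f') :
    (∫ x, star (f' x) * (b' x : ℂ)) - (∫ x, star (f x) * (V x : ℂ) * (b x : ℂ))
      = ((-e : ℝ) : ℂ) * ∫ x, star (f x) * (b x : ℂ) := by
  have hbc : Continuous b := continuous_iff_continuousAt.mpr fun x => (hd x).continuousAt
  have hbc' : Continuous b' := continuous_iff_continuousAt.mpr fun x => (hd' x).continuousAt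
  have hB := real_isH1 hd hbc' hb hi
  have prod : ∀ {u v : ℝ → ℂ}, MemLp u 2 volume → MemLp v 2 volume →
      Integrable (fun x => star (u x) * v x) := by
    intro u v hu hv
    refine Integrable.mono' (((memLp_two_iff_integrable_sq_norm hu.1).mp hu).add
      ((memLp_two_iff_integrable_sq_norm hv.1).mp hv))
      ((continuous_star.comp_aestronglyMeasurable hu.1).mul hv.1) (Eventually.of_forall fun x => ?_)
    simp only [Pi.add_apply, norm_mul, norm_star]
    nlinarith [sq_nonneg (‖u x‖ - ‖v x‖), norm_nonneg (u x), norm_nonneg (v x)]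
  have i1 := prod hf.2.1 hB.2.1
  have i3 := prod hf.1 hB.1
  have i2 : Integrable (fun x => star (f x) * (V x : ℂ) * (b x : ℂ)) := by
    refine Integrable.mono' (i3.norm.const_mul D) (((continuous_star.comp hf.continuous).mul
      (Complex.continuous_ofReal.comp hV)).mul
      (Complex.continuous_ofReal.comp hbc)).aestronglyMeasurable (Eventually.of_forall fun x => ?_)
    simp only [norm_mul, norm_star, Complex.norm_real, Real.norm_eq_abs]
    calc ‖f x‖ * |V x| * |b x| ≤ ‖f x‖ * D * |b x| :=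
          mul_le_mul_of_nonneg_right (mul_le_mul_of_nonneg_left (hVb x) (norm_nonneg _)) (abs_nonneg _)
      _ = D * (‖f x‖ * |b x|) := by ring
  set g : ℝ → ℂ := fun x => star (f' x) * (b' x : ℂ)
    + (star (f x) * (b x : ℂ) * ((e : ℝ) : ℂ) - star (f x) * (V x : ℂ) * (b x : ℂ)) with hg
  have hgi : Integrable g := i1.add ((i3.mul_const _).sub i2)
  set G : ℝ → ℂ := fun x => star (f x) * (b' x : ℂ) with hG
  have hcc : Continuous fun x => (((e - V x) * b x : ℝ) : ℂ) :=
    Complex.continuous_ofReal.comp ((continuous_const.sub hV).mul hbc)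
  have hbac : ∀ u v, ACc (fun x => (b' x : ℂ)) u v := by
    intro u v
    have he : (fun x => (b' x : ℂ)) = fun x => (b' 0 : ℂ)
        + ∫ t in (0 : ℝ)..x, (((e - V t) * b t : ℝ) : ℂ) := by
      funext x
      rw [intervalIntegral.integral_eq_sub_of_hasDerivAt (fun t _ => (hd' t).ofReal_comp)
        (hcc.intervalIntegrable 0 x)]
      ring
    rw [he]
    exact ACc.prim (fun p q => hcc.intervalIntegrable p q) _ u v
  have hdG : ∀ᵐ x, HasDerivAt G (g x) x := by
    filter_upwards [hf.ae_deriv] with x hx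
    have h1 : HasDerivAt (fun y => star (f y)) (star (f' x)) x :=
      Complex.conjCLE.toContinuousLinearMap.hasFDerivAt.comp_hasDerivAt x hx
    refine (h1.fun_mul (hd' x).ofReal_comp).congr_deriv ?_
    simp only [hg]; push_cast; ring
  obtain ⟨B, hBd⟩ : ∃ B, ∀ x, ‖f x‖ ≤ B :=
    ⟨_, fun x => by
      have := hf.bounded x
      rw [Complex.normSq_eq_norm_sq] at this
      exact Real.abs_le_sqrt this |> (fun h => (le_abs_self _).trans h)⟩
  have hlim : ∀ {l : Filter ℝ}, Tendsto b' l (𝓝 0) → Tendsto G l (𝓝 0) := by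
    intro l hl
    refine squeeze_zero_norm (a := fun x => B * |b' x|) (fun x => ?_) ?_
    · simp only [hG, norm_mul, norm_star, Complex.norm_real, Real.norm_eq_abs]
      exact mul_le_mul_of_nonneg_right (hBd x) (abs_nonneg _)
    · simpa using hl.abs.const_mul B
  have hint : ∀ r : ℝ, ∫ x in (-r)..r, g x = G r - G (-r) := fun r =>
    integral_acc ((hf.acc _ _).star.mul (hbac _ _)) hdG hgi.intervalIntegrable
  have h1 := intervalIntegral_tendsto_integral hgi tendsto_neg_atTop_atBot (tendsto_id (α := ℝ))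
  have h2 : Tendsto (fun r => ∫ x in (-r)..r, g x) atTop (𝓝 0) := by
    simp only [hint]
    simpa using (hlim htop).sub ((hlim hbot).comp tendsto_neg_atTop_atBot)
  have h0 := tendsto_nhds_unique h1 h2
  simp only [hg] at h0
  have i4 : Integrable (fun x => star (f x) * (b x : ℂ) * ((e : ℝ) : ℂ)) := i3.mul_const _
  have i5 : Integrable (fun x => star (f x) * (b x : ℂ) * ((e : ℝ) : ℂ)
      - star (f x) * (V x : ℂ) * (b x : ℂ)) := i4.sub i2
  rw [integral_add i1 i5, integral_sub i4 i2, integral_mul_const] at h0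
  push_cast
  linear_combination h0

/-- The potential `a (a+1) sech²` in the first component. -/
def solPot (a : ℝ) (k : ℕ) (x : ℝ) : Matrix (Fin (k + 1)) (Fin (k + 1)) ℂ :=
  diagonal fun i => ((if i = 0 then a * (a + 1) * sech x ^ 2 else 0 : ℝ) : ℂ)

theorem solPot_trPow {a p : ℝ} (hp : p ≠ 0) (k : ℕ) (x : ℝ) :
    trPow p (solPot a k x) = (a * (a + 1) * sech x ^ 2) ^ p := by
  rw [solPot, trPow_diagonal, Finset.sum_eq_single 0]
  · rw [if_pos rfl]
  · intro i _ hi
    rw [if_neg hi, Real.zero_rpow hp]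
  · simp

theorem soliton_attains {g : ℝ} (hg : 1 / 2 < g) {m : ℕ} (hm : 1 ≤ m) :
    ∃ (W : ℝ → Matrix (Fin m) (Fin m) ℂ) (E : Fin 1 → ℝ) (ψ ψ' : Fin 1 → ℝ → Fin m → ℂ),
      IsPotentialFor g W ∧ IsBoundStates W E ψ ψ' ∧ 0 < ∫ x, trPow (g + 1 / 2) (W x) ∧
      ∑ n, |E n| ^ g = oneState g * ∫ x, trPow (g + 1 / 2) (W x) := by
  obtain ⟨k, rfl⟩ : ∃ k, m = k + 1 := ⟨m - 1, by omega⟩
  set a := g - 1 / 2 with ha_def
  have ha : 0 < a := by linarith
  have hg1 : g + 1 / 2 = a + 1 := by linarith
  set J := ∫ x, sech x ^ (2 * a)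
  have hJi := sech_rpow_integrable (c := 2 * a) (by linarith)
  have hJ : 0 < J := by
    refine (integral_pos_iff_support_of_nonneg (fun x => Real.rpow_nonneg (sech_pos x).le _) hJi).mpr ?_
    rw [show Function.support (fun x => sech x ^ (2 * a)) = Set.univ from
      Set.eq_univ_of_forall fun x => (Real.rpow_pos_of_pos (sech_pos x) _).ne']
    simp
  set b : ℝ → ℝ := fun x => sech x ^ a / Real.sqrt J with hb_def
  set b' : ℝ → ℝ := fun x => -a * (Real.sinh x * sech x) * b x with hb'_def
  have hd : ∀ x, HasDerivAt b (b' x) x := fun x =>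
    ((hasDerivAt_sech_rpow a x).div_const _).congr_deriv (by simp only [hb'_def, hb_def]; ring)
  have hd' : ∀ x, HasDerivAt b' ((a ^ 2 - a * (a + 1) * sech x ^ 2) * b x) x := by
    intro x
    have h1 := ((Real.hasDerivAt_sinh x).fun_mul (hasDerivAt_sech x)).const_mul (-a)
    refine (h1.fun_mul (hd x)).congr_deriv ?_
    simp only [hb'_def]
    have hc : Real.cosh x * sech x = 1 := mul_inv_cancel₀ (Real.cosh_pos x).ne'
    linear_combination ((a + a ^ 2) * b x) * sech_sq_add x + (-(a * b x)) * hc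
  have hb0 : ∀ x, 0 ≤ b x := fun x => by
    have := sech_pos x
    positivity
  have hbsq : ∀ x, b x ^ 2 = sech x ^ (2 * a) / J := fun x => by
    rw [hb_def, div_pow, Real.sq_sqrt hJ.le, ← Real.rpow_natCast (sech x ^ a) 2,
      ← Real.rpow_mul (sech_pos x).le]
    push_cast; ring_nf
  have hi : Integrable fun x => b x ^ 2 := by
    simp only [hbsq]; exact hJi.div_const _
  have hbd : ∀ x, |b' x| ≤ a * |b x| := fun x => by
    have h : |Real.sinh x * sech x| ≤ 1 :=
      abs_le.mpr ⟨by nlinarith [sech_sq_add x, sq_nonneg (sech x)],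
        by nlinarith [sech_sq_add x, sq_nonneg (sech x)]⟩
    rw [hb'_def, abs_mul, abs_mul, abs_neg, abs_of_pos ha]
    exact mul_le_mul_of_nonneg_right (mul_le_of_le_one_right ha.le h) (abs_nonneg _)
  have hblim : ∀ {l : Filter ℝ}, Tendsto sech l (𝓝 0) → Tendsto b' l (𝓝 0) := by
    intro l hl
    refine squeeze_zero_norm (a := fun x => a * b x) (fun x => ?_) ?_
    · rw [Real.norm_eq_abs]; exact (hbd x).trans (le_of_eq (by rw [abs_of_nonneg (hb0 x)]))
    · have h0 := (((Real.continuous_rpow_const ha.le).tendsto 0).comp hl).div_const (Real.sqrt J)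
      simpa [hb_def, Real.zero_rpow ha.ne'] using h0.const_mul a
  have hVc : Continuous fun x => a * (a + 1) * sech x ^ 2 :=
    continuous_const.mul (sech_continuous.pow 2)
  have hVb : ∀ x, |a * (a + 1) * sech x ^ 2| ≤ a * (a + 1) := fun x => by
    rw [abs_of_nonneg (by positivity)]
    exact mul_le_of_le_one_right (by positivity) (pow_le_one₀ (sech_pos x).le (sech_le_one x))
  have htr : ∀ x, trPow (g + 1 / 2) (solPot a k x)
      = (a * (a + 1)) ^ (a + 1) * sech x ^ (2 * a + 2) := fun x => by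
    rw [solPot_trPow (by linarith), hg1, Real.mul_rpow (by positivity) (sq_nonneg _),
      ← Real.rpow_natCast (sech x) 2, ← Real.rpow_mul (sech_pos x).le]
    push_cast; ring_nf
  have hI : ∫ x, trPow (g + 1 / 2) (solPot a k x) = (a * (a + 1)) ^ (a + 1) * bInt a := by
    simp only [htr]; rw [integral_const_mul, integral_sech_rpow ha]
  refine ⟨solPot a k, fun _ => -a ^ 2, fun _ x i => if i = 0 then (b x : ℂ) else 0,
    fun _ x i => if i = 0 then (b' x : ℂ) else 0, ⟨fun i j => ?_, fun x => ?_, ?_⟩,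
    ⟨fun n i => ?_, fun n q => ?_, fun n => ⟨by nlinarith, fun φ φ' hφ => ?_⟩⟩, ?_, ?_⟩
  · simp only [solPot, diagonal_apply]
    by_cases hij : i = j
    · simp only [hij, if_true]
      by_cases hj : j = 0
      · simp only [hj, if_true]
        exact (Complex.continuous_ofReal.comp hVc).measurable
      · simp only [hj, if_false]; exact measurable_const
    · simp only [hij, if_false]; exact measurable_const
  · refine Matrix.PosSemidef.diagonal fun i => ?_
    simp only [Pi.zero_apply]
    rw [Complex.zero_le_real]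
    split_ifs <;> positivity
  · simp only [htr]
    exact (sech_rpow_integrable (by linarith)).const_mul _
  · by_cases hi0 : i = 0
    · simp only [hi0, if_true]
      exact real_isH1 hd (continuous_iff_continuousAt.mpr fun x => (hd' x).continuousAt) hbd hi
    · simp only [hi0, if_false]
      exact ⟨MemLp.zero, MemLp.zero, fun u v => by simp⟩
  · rw [if_pos (Subsingleton.elim n q), inner2]
    have e : ∀ x, ∑ i : Fin (k + 1), star (if i = 0 then (b x : ℂ) else 0)
        * (if i = 0 then (b x : ℂ) else 0) = ((b x ^ 2 : ℝ) : ℂ) := by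
      intro x
      rw [Finset.sum_eq_single 0 (fun i _ hi => by simp [hi]) (by simp)]
      simp [sq]
    simp only [e]
    rw [integral_complex_ofReal]
    simp only [hbsq]
    rw [integral_div, div_self hJ.ne', Complex.ofReal_one]
  · have h3 := real_weak hd hd' hVc hVb hbd hi (hblim sech_tendsto_atTop) (hblim sech_tendsto_atBot)
      (f := fun x => φ x 0) (f' := fun x => φ' x 0) (hφ 0)
    have a1 : ∀ x, ∑ i : Fin (k + 1), star (φ' x i) * (if i = 0 then (b' x : ℂ) else 0)
        = star (φ' x 0) * (b' x : ℂ) := fun x => by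
      rw [Finset.sum_eq_single 0 (fun i _ hi => by simp [hi]) (by simp)]; simp
    have a2 : ∀ x, ∑ i, ∑ j, star (φ x i) * solPot a k x i j * (if j = 0 then (b x : ℂ) else 0)
        = star (φ x 0) * ((a * (a + 1) * sech x ^ 2 : ℝ) : ℂ) * (b x : ℂ) := fun x => by
      rw [Finset.sum_eq_single 0 (fun i _ hi => Finset.sum_eq_zero fun j _ => ?_) (by simp),
        Finset.sum_eq_single 0 (fun j _ hj => by simp [hj]) (by simp)]
      · simp [solPot]
      · by_cases hj : j = 0
        · subst hj; simp [solPot, hi]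
        · simp [hj]
    have a3 : ∀ x, ∑ i : Fin (k + 1), star (φ x i) * (if i = 0 then (b x : ℂ) else 0)
        = star (φ x 0) * (b x : ℂ) := fun x => by
      rw [Finset.sum_eq_single 0 (fun i _ hi => by simp [hi]) (by simp)]; simp
    simp only [form, inner2, a1, a2, a3]
    exact h3
  · rw [hI]
    exact mul_pos (Real.rpow_pos_of_pos (by positivity) _) (bInt_pos ha)
  · rw [hI, Fin.sum_univ_one, oneState_eq hg, hg1, abs_neg, abs_of_nonneg (sq_nonneg a),
      ← Real.rpow_natCast a 2, ← Real.rpow_mul ha.le]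
    have hB := (bInt_pos ha).ne'
    rw [← ha_def, Real.div_rpow ha.le (by linarith), Real.mul_rpow ha.le (by linarith)]
    have h1 : 0 < (a + 1) ^ (a + 1) := Real.rpow_pos_of_pos (by linarith) _
    field_simp
    rw [← Real.rpow_natCast (a ^ (a + 1)) 2, ← Real.rpow_mul ha.le, ← Real.rpow_add_one ha.ne',
      show g = a + 1 / 2 by linarith]
    push_cast; ring_nf

end

end Vale.Agent.P371.Full
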