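import Vale.Agent.P371.Full.Defs
import Vale.Agent.P371.Full.Topo.Main

/-! # M4b: the endpoint matrix vanishes somewhere (in the notation of `Defs`) -/

namespace Vale.Agent.P371.Full

open Matrix

theorem exists_zero {N : ℕ} (hN : 0 < N) (R : (Fin N → Fin N → ℝ) → Mat N)
    (hc : ∀ i j, ContinuousOn (fun c => R c i j) (tri0 N))
    (hp : ∀ c ∈ tri0 N, (R c).PosSemidef ∧ (R c).det = 0)
    (hf : ∀ c ∈ tri0 N, ∀ e : Fin N → ℝ, IsSigns e →
      R (fun j i => e j * c j i) = flipMat e (R c))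
    (hz : ∀ c ∈ tri0 N, ∀ j, c j = 0 → 0 < R c j j ∧ ∀ l, l ≠ j → R c j l = 0) :
    ∃ c ∈ tri0 N, R c = 0 := by
  have hD : Topo.Dom N = tri0 N := Set.ext fun c => And.comm
  have hs : ∀ C ∈ Topo.Dom N, (R C).IsSymm := fun C hC => by
    have h := (hp C (hD ▸ hC)).1.isHermitian
    rwa [IsHermitian, conjTranspose_eq_transpose_of_trivial] at h
  obtain ⟨c, hc', h0⟩ := Topo.exists_zero N hN R
    (hD ▸ continuousOn_pi.2 fun i => continuousOn_pi.2 fun j => hc i j) hs
    (fun e C hC j l => by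
      set s : Fin N → ℝ := fun i => if e i then -1 else 1 with hsdef
      have he : IsSigns s := fun i => by by_cases h : e i <;> simp [hsdef, h]
      have hfl : Topo.flip e C = fun j i => s j * C j i := by
        funext j i
        by_cases h : e j <;> simp [Topo.flip, hsdef, h]
      rw [hfl, hf C (hD ▸ hC) s he]
      cases hj : e j <;> cases hl : e l <;> simp [flipMat, hsdef, hj, hl])
    (fun C hC j hj => (hz C (hD ▸ hC) j hj).1)
    (fun C hC => (hp C (hD ▸ hC)).2)
  exact ⟨c, hD ▸ hc', h0⟩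

end Vale.Agent.P371.Full
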