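import Vale.Agent.P371.Full.CalibPath
import Vale.Agent.P371.Full.Endpoint
import Vale.Agent.P371.Full.Zero
import Vale.Agent.P371.Full.Reduce
import Vale.Agent.P371.Full.Soliton

/-! # Assembly: the sharp inequality for `1/2 < γ < 3/2` -/

namespace Vale.Agent.P371.Full

open MeasureTheory Matrix
open Vale.Agent.P371.LT

noncomputable section

theorem trFn_smul_le {N : ℕ} {A : Mat N} (hA : A.PosSemidef) {θ p : ℝ} (hθ : 0 ≤ θ) (hθ' : θ ≤ 1)
    (hp : 1 ≤ p) : trFn (fun v => v ^ p) (θ • A) ≤ trFn (fun v => v ^ p) A := by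
  have hU : (1 - (Real.sqrt θ • (1 : Mat N))ᵀ * (Real.sqrt θ • (1 : Mat N))).PosSemidef := by
    rw [transpose_smul, transpose_one, smul_mul_smul_comm, Real.mul_self_sqrt hθ, Matrix.one_mul,
      show (1 : Mat N) - θ • (1 : Mat N) = (1 - θ) • (1 : Mat N) by rw [sub_smul, one_smul]]
    exact PosSemidef.one.smul (by linarith)
  have h := trFn_contraction_le (convexOn_rpow hp) (Real.zero_rpow (by linarith))
    (fun v hv => Real.rpow_nonneg hv p) hU hA
  rwa [transpose_smul, transpose_one, Matrix.smul_mul, Matrix.one_mul, Matrix.mul_smul,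
    Matrix.mul_one, smul_smul, Real.mul_self_sqrt hθ] at h

/-- `x ↦ tr A(x)^p` is continuous along a continuous nonnegative path. -/
theorem continuous_trFn_rpow {N : ℕ} {p : ℝ} (hp : 0 ≤ p) {A : ℝ → Mat N} (hA : Continuous A)
    (hA0 : ∀ x, (A x).PosSemidef) : Continuous fun x => trFn (fun v => v ^ p) (A x) := by
  have hg : Continuous fun t : ℝ => (t - 1) ^ p :=
    (continuous_id.sub continuous_const).rpow_const fun _ => Or.inr hp
  have h : ∀ x, (cfc (fun t : ℝ => (t - 1) ^ p) (A x + 1)).trace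
      = trFn (fun v => v ^ p) (A x) := by
    intro x
    have hH := (hA0 x).isHermitian
    have e : A x + 1 = cfc (fun t : ℝ => t + 1) (A x) := by
      rw [cfc_spectral hH,
        show diagonal (fun i => hH.eigenvalues i + 1) = diagonal hH.eigenvalues + 1 from by
          rw [← diagonal_one, diagonal_add],
        Matrix.mul_add, Matrix.add_mul, ← spectral hH, Matrix.mul_one, eU_orth' hH]
    rw [e, ← cfc_comp (fun t : ℝ => (t - 1) ^ p) (fun t : ℝ => t + 1) (A x) hH.isSelfAdjoint
      hg.continuousOn (by fun_prop), trace_cfc hH]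
    simp [Function.comp_def]
  have hc : ContinuousOn (fun x => cfc (fun t : ℝ => (t - 1) ^ p) (A x + 1)) Set.univ :=
    continuousOn_cfc_mat hg.continuousOn (hA.add continuous_const).continuousOn continuousOn_const
      (fun _ _ => one_pos) (fun x _ => (hA0 x).isHermitian.add isHermitian_one) fun x _ => by
        simpa using hA0 x
  rw [continuousOn_univ] at hc
  exact (continuous_finsetSum Finset.univ fun k _ => hc.matrix_elem k k).congr h

/-- The inequality for trial data. -/
theorem trial_bound {g : ℝ} (hg : 1 / 2 < g) (hg' : g < 3 / 2) {N m : ℕ} {κ : Fin N → ℝ} {L : ℝ}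
    (hL : 0 < L) (hκ : ∀ i, 0 < κ i) (T : Trial N m κ L) :
    ∑ i, κ i ^ (2 * g)
      ≤ oneState g * ∫ x in (-L)..L, trFn (fun v => v ^ (g + 1 / 2)) (T.W x) := by
  obtain ⟨a, rfl⟩ : ∃ a, g = a + 1 / 2 := ⟨g - 1 / 2, by ring⟩
  have ha : 0 < a := by linarith
  have ha1 : a < 1 := by linarith
  have hB := bInt_pos ha
  have hco : 0 ≤ 1 / a * (a / (1 + a)) ^ (1 + a) := by positivity
  rw [oneState_eq hg, show a + 1 / 2 - 1 / 2 = a by ring, show a + 1 / 2 + 1 / 2 = 1 + a by ring,
    div_mul_eq_mul_div, le_div_iff₀ hB]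
  have hW0 : ∀ x, 0 ≤ trFn (fun v => v ^ (1 + a)) (T.W x) := fun x => by
    rw [trFn_eq (T.psdW x).isHermitian]
    exact Finset.sum_nonneg fun i _ => Real.rpow_nonneg ((T.psdW x).eigenvalues_nonneg i) _
  rcases Nat.eq_zero_or_pos N with rfl | hN
  · simp only [Finset.univ_eq_empty, Finset.sum_empty, zero_mul]
    exact mul_nonneg hco (intervalIntegral.integral_nonneg (by linarith) fun x _ => hW0 x)
  obtain ⟨V, hVc, hVp, hVf, hVz, hVt⟩ := exists_family hL T (p := 1 + a) (by linarith)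
  obtain ⟨R, hRc, hRp, hRf, hRz, hR0⟩ :=
    exists_endpoint hκ hL hVc (fun c hc x => (hVp c hc x).1) hVt
  have hflip : ∀ c ∈ tri0 N, ∀ e : Fin N → ℝ, IsSigns e →
      (fun j i => e j * c j i) ∈ tri0 N := by
    intro c hc e he
    refine ⟨fun h => hc.1 ?_, fun j i hji => by simp [hc.2 j i hji]⟩
    funext j i
    have h2 : e j * c j i = 0 := congrFun (congrFun h j) i
    rcases he j with h3 | h3 <;> simpa [h3] using h2
  obtain ⟨c, hc, hc0⟩ := exists_zero hN R hRc hRp
    (fun c hc e he => hRf c hc _ (hflip c hc e he) e he (hVf c hc e he))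
    (fun c hc j hj => by
      obtain ⟨h1, h2⟩ := hRz c hc j (hVz c hc j hj)
      exact ⟨by have := hκ j; linarith, h2⟩)
  obtain ⟨θ, hθ, S, hS⟩ := hR0 c hc hc0
  have h1 := calib_path ha ha1 hκ hS
  rw [show (∑ i, κ i ^ (2 * (a + 1 / 2))) = ∑ i, κ i ^ (2 * a + 1) by
    simp only [show 2 * (a + 1 / 2) = 2 * a + 1 by ring], mul_comm]
  refine h1.trans (mul_le_mul_of_nonneg_left ?_ hco)
  exact intervalIntegral.integral_mono_on (by linarith)
    ((continuous_trFn_rpow (by linarith) hS.contV hS.psdV).intervalIntegrable _ _)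
    ((continuous_trFn_rpow (by linarith) T.contW T.psdW).intervalIntegrable _ _)
    fun x _ => (trFn_smul_le (hVp c hc x).1 hθ.1 hθ.2 (by linarith)).trans (hVp c hc x).2

theorem sharp_upper {g : ℝ} (hg : 1 / 2 < g) (hg' : g < 3 / 2) {m N : ℕ}
    {W : ℝ → Matrix (Fin m) (Fin m) ℂ} {E : Fin N → ℝ} {ψ ψ' : Fin N → ℝ → Fin m → ℂ}
    (hW : IsPotentialFor g W) (h : IsBoundStates W E ψ ψ') :
    ∑ n, |E n| ^ g ≤ oneState g * ∫ x, trPow (g + 1 / 2) (W x) := by
  have hc : 0 < oneState g := by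
    rw [oneState_eq hg]
    have := bInt_pos (a := g - 1 / 2) (by linarith)
    have h1 : 0 < g - 1 / 2 := by linarith
    have h2 : 0 < g + 1 / 2 := by linarith
    positivity
  refine le_of_forall_pos_le_add fun δ hδ => ?_
  obtain ⟨κ, L, hL, hκ, hsum, T, hT⟩ := exists_trial hg hg' hW h (δ := δ / (1 + oneState g)) (by positivity)
  have h1 := trial_bound hg hg' hL hκ T
  have h2 := mul_le_mul_of_nonneg_left hT hc.le
  have h3 : δ / (1 + oneState g) * (1 + oneState g) = δ := div_mul_cancel₀ _ (by positivity)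
  nlinarith

end

end Vale.Agent.P371.Full
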