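import Vale.Agent.P371.Full.Defs
import Mathlib.MeasureTheory.Integral.IntegralEqImproper
import Mathlib.Analysis.SpecialFunctions.Integrals.Basic
import Mathlib.Analysis.SpecialFunctions.Log.Deriv

/-! # M2: functions of `s` that are `O(log s)` at `0` and `O(1/s)` at `∞` -/

namespace Vale.Agent.P371.Full

open MeasureTheory Filter Topology

noncomputable section

/-- Continuous on `(0, ∞)`, `O(|log s| + 1)` below `b` and `O(1/s)` above `b`. -/
structure Tame (b : ℝ) (f : ℝ → ℝ) : Prop where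
  pos : 0 < b
  cont : ContinuousOn f (Set.Ioi 0)
  low : ∃ C, 0 ≤ C ∧ ∀ s ∈ Set.Ioc 0 b, |f s| ≤ C * (|Real.log s| + 1)
  high : ∃ C, 0 ≤ C ∧ ∀ s, b ≤ s → |f s| ≤ C / s

variable {a b : ℝ} {f g : ℝ → ℝ}

lemma Tame.add (hf : Tame b f) (hg : Tame b g) : Tame b fun s => f s + g s where
  pos := hf.pos
  cont := hf.cont.add hg.cont
  low := by
    obtain ⟨C, hC, h⟩ := hf.low
    obtain ⟨D, hD, h'⟩ := hg.low
    exact ⟨C + D, by linarith, fun s hs => (abs_add_le _ _).trans
      ((add_le_add (h s hs) (h' s hs)).trans_eq (add_mul _ _ _).symm)⟩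
  high := by
    obtain ⟨C, hC, h⟩ := hf.high
    obtain ⟨D, hD, h'⟩ := hg.high
    exact ⟨C + D, by linarith, fun s hs => (abs_add_le _ _).trans
      ((add_le_add (h s hs) (h' s hs)).trans_eq (add_div _ _ _).symm)⟩

lemma Tame.const_mul (hf : Tame b f) (c : ℝ) : Tame b fun s => c * f s where
  pos := hf.pos
  cont := continuousOn_const.mul hf.cont
  low := by
    obtain ⟨C, hC, h⟩ := hf.low
    refine ⟨|c| * C, by positivity, fun s hs => ?_⟩
    rw [abs_mul, mul_assoc]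
    exact mul_le_mul_of_nonneg_left (h s hs) (abs_nonneg c)
  high := by
    obtain ⟨C, hC, h⟩ := hf.high
    refine ⟨|c| * C, by positivity, fun s hs => ?_⟩
    rw [abs_mul, mul_div_assoc]
    exact mul_le_mul_of_nonneg_left (h s hs) (abs_nonneg c)

lemma Tame.congr (hf : Tame b f) (h : ∀ s, 0 < s → g s = f s) : Tame b g where
  pos := hf.pos
  cont := hf.cont.congr fun s hs => h s hs
  low := by
    obtain ⟨C, hC, h'⟩ := hf.low
    exact ⟨C, hC, fun s hs => by rw [h s hs.1]; exact h' s hs⟩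
  high := by
    obtain ⟨C, hC, h'⟩ := hf.high
    exact ⟨C, hC, fun s hs => by rw [h s (hf.pos.trans_le hs)]; exact h' s hs⟩

lemma abs_log_le {e s : ℝ} (he : 0 < e) (hs : 0 < s) : |Real.log s| ≤ s ^ (-e) / e + s := by
  have h1 : 0 ≤ s ^ (-e) / e := by positivity
  have h2 := Real.log_le_rpow_div (inv_pos.2 hs).le he
  rw [Real.log_inv, Real.inv_rpow hs.le, ← Real.rpow_neg hs.le] at h2
  have h3 := Real.log_le_sub_one_of_pos hs
  rw [abs_le]
  constructor <;> linarith

lemma integrableOn_rpow_Ioc {r : ℝ} (hr : -1 < r) (hb : 0 ≤ b) :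
    IntegrableOn (fun s : ℝ => s ^ r) (Set.Ioc 0 b) :=
  (intervalIntegrable_iff_integrableOn_Ioc_of_le hb).1
    (intervalIntegral.intervalIntegrable_rpow' hr)

lemma rpow_log_bound (ha : 0 < a) {s b : ℝ} (hs : 0 < s) (hb : s ≤ b) (r : ℝ) :
    s ^ r * (|Real.log s| + 1) ≤ 2 / a * s ^ (r - a / 2) + (b + 1) * s ^ r := by
  have h := abs_log_le (half_pos ha) hs
  have hr : 0 ≤ s ^ r := by positivity
  have e : s ^ (r - a / 2) = s ^ r * s ^ (-(a / 2)) := by
    rw [← Real.rpow_add hs]; ring_nf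
  rw [e]
  have h' : |Real.log s| + 1 ≤ 2 / a * s ^ (-(a / 2)) + (b + 1) := by
    have e2 : s ^ (-(a / 2)) / (a / 2) = 2 / a * s ^ (-(a / 2)) := by field_simp
    rw [e2] at h
    linarith
  exact (mul_le_mul_of_nonneg_left h' hr).trans_eq (by ring)

lemma Tame.integrableOn (hf : Tame b f) (ha : 0 < a) (ha1 : a < 1) :
    IntegrableOn (fun s => s ^ (a - 1) * f s) (Set.Ioi 0) := by
  have hc : ContinuousOn (fun s => s ^ (a - 1) * f s) (Set.Ioi 0) :=
    (ContinuousOn.rpow_const continuousOn_id fun s hs => Or.inl (ne_of_gt (Set.mem_Ioi.1 hs))).mul hf.cont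
  rw [← Set.Ioc_union_Ioi_eq_Ioi hf.pos.le, integrableOn_union]
  constructor
  · obtain ⟨C, hC, h⟩ := hf.low
    refine Integrable.mono' (((integrableOn_rpow_Ioc (r := a - 1 - a / 2) (by linarith) hf.pos.le).const_mul
        (C * (2 / a))).add ((integrableOn_rpow_Ioc (r := a - 1) (by linarith) hf.pos.le).const_mul
        (C * (b + 1))))
      ((hc.mono Set.Ioc_subset_Ioi_self).aestronglyMeasurable measurableSet_Ioc) ?_
    refine (ae_restrict_mem measurableSet_Ioc).mono fun s hs => ?_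
    have hs0 : 0 ≤ s ^ (a - 1) := Real.rpow_nonneg hs.1.le _
    rw [Real.norm_eq_abs, abs_mul, abs_of_nonneg hs0, Pi.add_apply]
    calc s ^ (a - 1) * |f s| ≤ s ^ (a - 1) * (C * (|Real.log s| + 1)) :=
          mul_le_mul_of_nonneg_left (h s hs) hs0
      _ = C * (s ^ (a - 1) * (|Real.log s| + 1)) := by ring
      _ ≤ C * (2 / a * s ^ (a - 1 - a / 2) + (b + 1) * s ^ (a - 1)) :=
          mul_le_mul_of_nonneg_left (rpow_log_bound ha hs.1 hs.2 _) hC
      _ = _ := by ring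
  · obtain ⟨C, hC, h⟩ := hf.high
    refine Integrable.mono' ((integrableOn_Ioi_rpow_of_lt (a := a - 2) (by linarith) hf.pos).const_mul C)
      ((hc.mono (Set.Ioi_subset_Ioi hf.pos.le)).aestronglyMeasurable measurableSet_Ioi) ?_
    refine (ae_restrict_mem measurableSet_Ioi).mono fun s hs => ?_
    have hs' : 0 < s := hf.pos.trans hs
    have e : s ^ (a - 2) = s ^ (a - 1) / s := by
      rw [← Real.rpow_sub_one hs'.ne']; ring_nf
    rw [Real.norm_eq_abs, abs_mul, abs_of_nonneg (Real.rpow_nonneg hs'.le _), e]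
    exact (mul_le_mul_of_nonneg_left (h s (le_of_lt hs)) (Real.rpow_nonneg hs'.le _)).trans_eq
      (by ring)

lemma Tame.tendsto_zero (hf : Tame b f) (ha : 0 < a) :
    Tendsto (fun s => s ^ a * f s) (𝓝[>] 0) (𝓝 0) := by
  obtain ⟨C, hC, h⟩ := hf.low
  have h1 : ∀ r : ℝ, 0 < r → Tendsto (fun s : ℝ => s ^ r) (𝓝[>] 0) (𝓝 0) := fun r hr => by
    have h2 := (Real.continuousAt_rpow_const 0 r (Or.inr hr.le)).tendsto
    rw [Real.zero_rpow hr.ne'] at h2
    exact h2.mono_left nhdsWithin_le_nhds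
  refine squeeze_zero_norm' ?_ (show Tendsto
    (fun s => C * (2 / a * s ^ (a - a / 2) + (b + 1) * s ^ a)) (𝓝[>] 0) (𝓝 0) by
      simpa using (((h1 (a - a / 2) (by linarith)).const_mul (2 / a)).add
        ((h1 a ha).const_mul (b + 1))).const_mul C)
  filter_upwards [Ioc_mem_nhdsGT hf.pos] with s hs
  have hs0 : 0 ≤ s ^ a := Real.rpow_nonneg hs.1.le _
  rw [Real.norm_eq_abs, abs_mul, abs_of_nonneg hs0]
  calc s ^ a * |f s| ≤ s ^ a * (C * (|Real.log s| + 1)) :=
        mul_le_mul_of_nonneg_left (h s hs) hs0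
    _ = C * (s ^ a * (|Real.log s| + 1)) := by ring
    _ ≤ _ := mul_le_mul_of_nonneg_left (rpow_log_bound ha hs.1 hs.2 _) hC

lemma Tame.tendsto_top (hf : Tame b f) (ha1 : a < 1) :
    Tendsto (fun s => s ^ a * f s) atTop (𝓝 0) := by
  obtain ⟨C, hC, h⟩ := hf.high
  refine squeeze_zero_norm' ?_ (show Tendsto (fun s : ℝ => C * s ^ (-(1 - a))) atTop (𝓝 0) by
      simpa using (tendsto_rpow_neg_atTop (show (0 : ℝ) < 1 - a by linarith)).const_mul C)
  filter_upwards [eventually_ge_atTop b] with s hs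
  have hs' : 0 < s := hf.pos.trans_le hs
  have e : s ^ (-(1 - a)) = s ^ a / s := by
    rw [← Real.rpow_sub_one hs'.ne']; ring_nf
  rw [Real.norm_eq_abs, abs_mul, abs_of_nonneg (Real.rpow_nonneg hs'.le _), e]
  exact (mul_le_mul_of_nonneg_left (h s hs) (Real.rpow_nonneg hs'.le _)).trans_eq (by ring)

/-- If `Φ' ≤ φ` on `(0, ∞)` and `Φ` vanishes at both ends, then `0 ≤ ∫ φ`. -/
lemma integral_nonneg_of_deriv_le {F dF φ : ℝ → ℝ} (hd : ∀ s, 0 < s → HasDerivAt F (dF s) s)
    (hle : ∀ s, 0 < s → dF s ≤ φ s) (hi : IntegrableOn φ (Set.Ioi 0))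
    (h0 : Tendsto F (𝓝[>] 0) (𝓝 0)) (hinf : Tendsto F atTop (𝓝 0)) :
    0 ≤ ∫ s in Set.Ioi (0 : ℝ), φ s := by
  set lo : ℕ → ℝ := fun n => 1 / (n + 1) with hlo
  set hi' : ℕ → ℝ := fun n => (n : ℝ) + 1 with hhi
  have hl : Tendsto lo atTop (𝓝[>] 0) := tendsto_nhdsWithin_iff.2
    ⟨tendsto_one_div_add_atTop_nhds_zero_nat, Eventually.of_forall fun n => by
      simp only [Set.mem_Ioi, lo]; positivity⟩
  have hh : Tendsto hi' atTop atTop := tendsto_atTop_add_const_right _ 1 tendsto_natCast_atTop_atTop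
  have hcov : AECover (volume.restrict (Set.Ioi (0 : ℝ))) atTop fun n => Set.Ioc (lo n) (hi' n) :=
    (aecover_Ioi_of_Ioi (hl.mono_right nhdsWithin_le_nhds)).inter (aecover_Iic hh).restrict
  have ht := hcov.integral_tendsto_of_countably_generated hi
  have hlim : Tendsto (fun n => F (hi' n) - F (lo n)) atTop (𝓝 0) := by
    simpa using (hinf.comp hh).sub (h0.comp hl)
  refine le_of_tendsto_of_tendsto' hlim ht fun n => ?_
  have hlp : 0 < lo n := by simp only [lo]; positivity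
  have hle' : lo n ≤ hi' n := by
    simp only [lo, hi']
    rw [div_le_iff₀ (by positivity)]
    nlinarith [(Nat.cast_nonneg n : (0 : ℝ) ≤ n)]
  have hsub : Set.Icc (lo n) (hi' n) ⊆ Set.Ioi 0 := fun x hx => hlp.trans_le hx.1
  have h := intervalIntegral.sub_le_integral_of_hasDeriv_right_of_le hle'
    (fun x hx => (hd x (hsub hx)).continuousAt.continuousWithinAt)
    (fun x hx => (hd x (hsub (Set.Ioo_subset_Icc_self hx))).hasDerivWithinAt)
    (hi.mono_set hsub) (fun x hx => hle x (hsub (Set.Ioo_subset_Icc_self hx)))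
  rw [intervalIntegral.integral_of_le hle'] at h
  refine h.trans_eq ?_
  have e : Set.Ioc (lo n) (hi' n) ∩ Set.Ioi 0 = Set.Ioc (lo n) (hi' n) :=
    Set.inter_eq_left.2 fun x hx => hlp.trans hx.1
  rw [Measure.restrict_restrict measurableSet_Ioc, e]

/-- `∫ φ = 0` if `φ` has an antiderivative vanishing at both ends. -/
lemma integral_eq_zero_of_deriv {F φ : ℝ → ℝ} (hd : ∀ s, 0 < s → HasDerivAt F (φ s) s)
    (hi : IntegrableOn φ (Set.Ioi 0))
    (h0 : Tendsto F (𝓝[>] 0) (𝓝 0)) (hinf : Tendsto F atTop (𝓝 0)) :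
    ∫ s in Set.Ioi (0 : ℝ), φ s = 0 := by
  have h1 := integral_nonneg_of_deriv_le hd (fun _ _ => le_rfl) hi h0 hinf
  have h2 := integral_nonneg_of_deriv_le (F := fun s => -F s) (φ := fun s => -φ s)
    (fun s hs => (hd s hs).neg) (fun _ _ => le_rfl) hi.neg
    (by simpa using h0.neg) (by simpa using hinf.neg)
  rw [integral_neg] at h2
  linarith

end

end Vale.Agent.P371.Full
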