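import Vale.Agent.P371.Full.CalibCore
import Vale.Agent.P371.Full.CalibTame

/-! # M2: bounds on `tr (M ℓ(s))`, uniform in `S` -/

namespace Vale.Agent.P371.Full

open MeasureTheory Matrix Filter Topology

noncomputable section

variable {N : ℕ}

/-- An upper bound for the energies. -/
def bnd (κ : Fin N → ℝ) : ℝ := 1 + ∑ i, κ i

/-- The threshold beyond which the expansions at infinity hold. -/
def thr (κ : Fin N → ℝ) : ℝ := 16 * bnd κ ^ 2

/-- The derivative of `R`. -/
def Rd' (κ : Fin N → ℝ) (s : ℝ) : Mat N := diagonal fun i => 1 / (2 * Real.sqrt (κ i ^ 2 + s))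

variable {κ : Fin N → ℝ} (hκ : ∀ i, 0 < κ i)

include hκ

lemma one_le_bnd : 1 ≤ bnd κ := by
  have := Finset.sum_nonneg fun i (_ : i ∈ Finset.univ) => (hκ i).le
  rw [bnd]; linarith

lemma le_bnd (i : Fin N) : κ i ≤ bnd κ := by
  have := Finset.single_le_sum (fun j _ => (hκ j).le) (Finset.mem_univ i)
  rw [bnd]; linarith

lemma thr_pos : 0 < thr κ := by
  have := one_le_bnd hκ
  rw [thr]; positivity

lemma Rd_hasDerivAt (S : Mat N) {s : ℝ} (hs : 0 < s) (i j : Fin N) :
    HasDerivAt (fun t => (Rd κ t + S) i j) (Rd' κ s i j) s := by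
  have := hκ
  by_cases h : i = j
  · subst h
    simp only [Matrix.add_apply, Rd, Rd', diagonal_apply_eq]
    have hd : HasDerivAt (fun t => κ i ^ 2 + t) 1 s := (hasDerivAt_id' s).const_add _
    exact (hd.sqrt (by positivity)).add_const _
  · simp only [Matrix.add_apply, Rd, Rd', diagonal_apply_ne _ h, zero_add]
    exact hasDerivAt_const _ _

section
variable {S : Mat N} (hu : (diagonal κ - S).PosSemidef) (hl : (diagonal κ + S).PosSemidef)

omit hκ in
lemma neg_upper (hl : (diagonal κ + S).PosSemidef) : (diagonal κ - -S).PosSemidef := by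
  rwa [sub_neg_eq_add]

omit hκ in
lemma neg_lower (hu : (diagonal κ - S).PosSemidef) : (diagonal κ + -S).PosSemidef := by
  rwa [← sub_eq_add_neg]

include hl in
lemma hasDerivAt_log_add (M : Mat N) {s : ℝ} (hs : 0 < s) :
    HasDerivAt (fun t => (M * cfc Real.log (Rd κ t + S)).trace)
      (∫ u in Set.Ioi (0 : ℝ), (M * ((Rd κ s + S + u • 1)⁻¹ * Rd' κ s *
        (Rd κ s + S + u • 1)⁻¹)).trace) s :=
  hasDerivAt_trace_log (A := fun t => Rd κ t + S)
    ((eventually_gt_nhds hs).mono fun _ ht => posDef_add hκ hl ht)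
    (Rd_hasDerivAt hκ S hs)

include hl in
lemma le_add {s : ℝ} {c : ℝ} (h : ∀ i, c + κ i ≤ Real.sqrt (κ i ^ 2 + s)) :
    (Rd κ s + S - c • 1).PosSemidef := by
  have e : Rd κ s + S - c • 1
      = diagonal (fun i => Real.sqrt (κ i ^ 2 + s) - (c + κ i)) + (diagonal κ + S) := by
    ext i j
    by_cases hij : i = j
    · subst hij
      simp [Rd]
      ring
    · simp [Rd, hij]
  have := hκ
  rw [e]
  exact (PosSemidef.diagonal fun i => sub_nonneg.2 (h i)).add hl

include hu in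
lemma add_le' {s : ℝ} {c : ℝ} (h : ∀ i, Real.sqrt (κ i ^ 2 + s) + κ i ≤ c) :
    (c • 1 - (Rd κ s + S)).PosSemidef := by
  have e : c • (1 : Mat N) - (Rd κ s + S)
      = diagonal (fun i => c - (Real.sqrt (κ i ^ 2 + s) + κ i)) + (diagonal κ - S) := by
    ext i j
    by_cases hij : i = j
    · subst hij
      simp [Rd]
      ring
    · simp [Rd, hij]
  have := hκ
  rw [e]
  exact (PosSemidef.diagonal fun i => sub_nonneg.2 (h i)).add hu

include hl in
lemma herm_add {s : ℝ} (hs : 0 < s) : (Rd κ s + S).IsHermitian := (posDef_add hκ hl hs).1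

include hu hl in
lemma trace_log_low (M : Mat N) {s : ℝ} (hs : 0 < s) (hs' : s ≤ thr κ) :
    |(M * cfc Real.log (Rd κ s + S)).trace|
      ≤ absSum M * (N * (|Real.log s| + Real.log (2 * Real.sqrt (bnd κ ^ 2 + thr κ)))) := by
  set c := Real.sqrt (bnd κ ^ 2 + thr κ) with hc
  have hb := one_le_bnd hκ
  have hbc : bnd κ ≤ c := Real.le_sqrt_of_sq_le (by linarith [thr_pos hκ])
  have hc0 : 0 < c := by linarith
  have hA := herm_add hκ hl hs
  refine abs_trace_cfc_le hA M fun k => ?_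
  have hR : ∀ i, Real.sqrt (κ i ^ 2 + s) ≤ c := fun i => Real.sqrt_le_sqrt
    (add_le_add (pow_le_pow_left₀ (hκ i).le (le_bnd hκ i) 2) hs')
  have h1 : hA.eigenvalues k ≤ 2 * c :=
    eig_le hA (add_le' hκ hu fun i => by linarith [hR i, le_bnd hκ i]) k
  have h2 : s / (2 * c) ≤ hA.eigenvalues k := le_eig hA (le_add hκ hl fun i => by
    have h3 : Real.sqrt (κ i ^ 2 + s) * Real.sqrt (κ i ^ 2 + s) = κ i ^ 2 + s :=
      Real.mul_self_sqrt (by positivity)
    have h4 : κ i ≤ Real.sqrt (κ i ^ 2 + s) := Real.le_sqrt_of_sq_le (by linarith)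
    rw [← le_sub_iff_add_le, div_le_iff₀ (by positivity)]
    nlinarith [mul_le_mul_of_nonneg_left (add_le_add (hR i) ((le_bnd hκ i).trans hbc))
      (sub_nonneg.2 h4)]) k
  have hp : 0 < s / (2 * c) := by positivity
  have h5 := Real.log_le_log (hp.trans_le h2) h1
  have h6 := Real.log_le_log hp h2
  have h7 : 0 ≤ Real.log (2 * c) := Real.log_nonneg (by linarith)
  rw [Real.log_div hs.ne' (by positivity)] at h6
  rw [abs_le]
  constructor <;> linarith [neg_abs_le (Real.log s), abs_nonneg (Real.log s)]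

omit hκ in
lemma log_taylor {y : ℝ} (hy : |y| ≤ 1 / 2) (n : ℕ) :
    |(∑ i ∈ Finset.range n, (-y) ^ (i + 1) / (i + 1)) + Real.log (1 + y)| ≤ 2 * |y| ^ (n + 1) := by
  have h := Real.abs_log_sub_add_sum_range_le (x := -y) (by rw [abs_neg]; linarith) n
  rw [sub_neg_eq_add, abs_neg] at h
  refine h.trans ?_
  rw [div_le_iff₀ (by linarith)]
  nlinarith [pow_nonneg (abs_nonneg y) (n + 1)]

include hu hl in
lemma eig_far {s : ℝ} (hs : thr κ ≤ s) (hA : (Rd κ s + S).IsHermitian) (k : Fin N) :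
    |hA.eigenvalues k / Real.sqrt s - 1| ≤ 2 * bnd κ / Real.sqrt s ∧
      |hA.eigenvalues k / Real.sqrt s - 1| ≤ 1 / 2 ∧
      Real.log (hA.eigenvalues k) - Real.log s / 2
        = Real.log (1 + (hA.eigenvalues k / Real.sqrt s - 1)) := by
  have hs0 : 0 < s := (thr_pos hκ).trans_le hs
  have hb := one_le_bnd hκ
  have hq : 0 < Real.sqrt s := Real.sqrt_pos.2 hs0
  have hq4 : 4 * bnd κ ≤ Real.sqrt s := Real.le_sqrt_of_sq_le (by rw [thr] at hs; linarith)
  have h1 : hA.eigenvalues k ≤ Real.sqrt s + 2 * bnd κ := eig_le hA (add_le' hκ hu fun i => by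
    have : Real.sqrt (κ i ^ 2 + s) ≤ Real.sqrt s + κ i := by
      rw [Real.sqrt_le_left (by linarith [hκ i])]
      nlinarith [Real.mul_self_sqrt hs0.le, mul_pos hq (hκ i)]
    linarith [le_bnd hκ i]) k
  have h2 : Real.sqrt s - bnd κ ≤ hA.eigenvalues k := le_eig hA (le_add hκ hl fun i => by
    have : Real.sqrt s ≤ Real.sqrt (κ i ^ 2 + s) := Real.sqrt_le_sqrt (by nlinarith)
    linarith [le_bnd hκ i]) k
  have h3 : |hA.eigenvalues k / Real.sqrt s - 1| ≤ 2 * bnd κ / Real.sqrt s := by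
    rw [div_sub_one hq.ne', abs_div, abs_of_pos hq]
    refine div_le_div_of_nonneg_right ?_ hq.le
    rw [abs_le]
    constructor <;> linarith
  refine ⟨h3, h3.trans ?_, ?_⟩
  · rw [div_le_iff₀ hq]; linarith
  · rw [add_sub_cancel, Real.log_div (by linarith) hq.ne', Real.log_sqrt hs0.le]

include hu hl in
lemma trace_log_high (M : Mat N) {s : ℝ} (hs : thr κ ≤ s) :
    |(M * cfc Real.log (Rd κ s + S)).trace - Real.log s / 2 * M.trace
        - ((M * (Rd κ s + S)).trace / Real.sqrt s - M.trace)|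
      ≤ absSum M * (N * (8 * bnd κ ^ 2 / s)) := by
  have hs0 : 0 < s := (thr_pos hκ).trans_le hs
  have hA := herm_add hκ hl hs0
  have e : (M * cfc Real.log (Rd κ s + S)).trace - Real.log s / 2 * M.trace
        - ((M * (Rd κ s + S)).trace / Real.sqrt s - M.trace)
      = (M * cfc (fun x => Real.log x - Real.log s / 2 - (x / Real.sqrt s - 1)) (Rd κ s + S)).trace := by
    have e2 : (M * (Rd κ s + S)).trace = ∑ k, wgt hA M k * hA.eigenvalues k := by
      conv_lhs => rw [← cfc_id_eq hA]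
      exact trace_mul_wgt hA M _
    rw [trace_mul_wgt hA, trace_mul_wgt hA, e2, ← sum_wgt hA M, Finset.mul_sum, Finset.sum_div]
    simp only [← Finset.sum_sub_distrib]
    exact Finset.sum_congr rfl fun k _ => by ring
  rw [e]
  refine abs_trace_cfc_le hA M fun k => ?_
  obtain ⟨h1, h2, h3⟩ := eig_far hκ hu hl hs hA k
  rw [h3]
  set y := hA.eigenvalues k / Real.sqrt s - 1
  have h4 := log_taylor h2 1
  simp only [Finset.sum_range_one, zero_add, pow_one, Nat.cast_zero, div_one] at h4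
  rw [show Real.log (1 + y) - y = -y + Real.log (1 + y) by ring]
  refine h4.trans ?_
  have h5 : |y| ^ 2 ≤ (2 * bnd κ / Real.sqrt s) ^ 2 := pow_le_pow_left₀ (abs_nonneg y) h1 2
  rw [div_pow, Real.sq_sqrt hs0.le] at h5
  calc 2 * |y| ^ (1 + 1) ≤ 2 * ((2 * bnd κ) ^ 2 / s) := mul_le_mul_of_nonneg_left h5 (by norm_num)
    _ = _ := by ring

end

omit hκ in
lemma trace_ell_mul (S M : Mat N) (s : ℝ) :
    (ell κ S s * M).trace = (M * cfc Real.log (Rd κ s + S)).trace
      + (M * cfc Real.log (Rd κ s + -S)).trace - Real.log s * M.trace := by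
  rw [Matrix.trace_mul_comm, ell, ← sub_eq_add_neg, Matrix.mul_sub, Matrix.mul_add,
    Matrix.trace_sub, Matrix.trace_add, Matrix.mul_smul, Matrix.mul_one, Matrix.trace_smul,
    smul_eq_mul]
  rfl

lemma sqrt_ratio (i : Fin N) {s : ℝ} (hs : 0 < s) :
    0 ≤ Real.sqrt (κ i ^ 2 + s) / Real.sqrt s - 1 ∧
      Real.sqrt (κ i ^ 2 + s) / Real.sqrt s - 1 ≤ κ i ^ 2 / (2 * s) ∧
      2 * (Real.sqrt (κ i ^ 2 + s) / Real.sqrt s - 1)
        + (Real.sqrt (κ i ^ 2 + s) / Real.sqrt s - 1) ^ 2 = κ i ^ 2 / s := by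
  have := hκ
  have h : 1 ≤ Real.sqrt (κ i ^ 2 + s) / Real.sqrt s := by
    rw [one_le_div (Real.sqrt_pos.2 hs)]
    exact Real.sqrt_le_sqrt (by nlinarith)
  have e : (Real.sqrt (κ i ^ 2 + s) / Real.sqrt s) ^ 2 = κ i ^ 2 / s + 1 := by
    rw [div_pow, Real.sq_sqrt (by positivity), Real.sq_sqrt hs.le, add_div, div_self hs.ne']
  have e3 : κ i ^ 2 / (2 * s) = κ i ^ 2 / s / 2 := by ring
  refine ⟨by linarith, ?_, by linarith [e]⟩
  rw [e3]
  nlinarith [sq_nonneg (Real.sqrt (κ i ^ 2 + s) / Real.sqrt s - 1)]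

lemma continuousOn_trace_ell {S : Mat N} (hu : (diagonal κ - S).PosSemidef)
    (hl : (diagonal κ + S).PosSemidef) (M : Mat N) :
    ContinuousOn (fun s => (ell κ S s * M).trace) (Set.Ioi 0) := by
  intro s hs
  simp only [trace_ell_mul]
  exact ((((hasDerivAt_log_add hκ hl M hs).add (hasDerivAt_log_add hκ (neg_lower hu) M hs)).sub
    ((Real.hasDerivAt_log (ne_of_gt (Set.mem_Ioi.1 hs))).mul_const M.trace)).continuousAt).continuousWithinAt

/-- `|tr (ℓ M)|` is `O(|log s| + 1)` at `0` and `O(1/s)` at `∞`, uniformly in `S`. -/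
lemma trace_ell_bound : ∃ C, 0 ≤ C ∧ ∀ S M : Mat N, (diagonal κ - S).PosSemidef →
    (diagonal κ + S).PosSemidef →
      (∀ s ∈ Set.Ioc 0 (thr κ), |(ell κ S s * M).trace| ≤ absSum M * C * (|Real.log s| + 1)) ∧
      (∀ s, thr κ ≤ s → |(ell κ S s * M).trace| ≤ absSum M * C / s) := by
  set c := Real.log (2 * Real.sqrt (bnd κ ^ 2 + thr κ)) with hc
  have hb := one_le_bnd hκ
  have hc0 : 0 ≤ c := by
    refine Real.log_nonneg ?_
    have : bnd κ ≤ Real.sqrt (bnd κ ^ 2 + thr κ) :=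
      Real.le_sqrt_of_sq_le (by linarith [thr_pos hκ])
    linarith
  refine ⟨2 * N * (1 + c) + 1 + (16 * N + 1) * bnd κ ^ 2, by positivity, fun S M hu hl => ⟨?_, ?_⟩⟩
  · intro s hs
    have h1 := trace_log_low hκ hu hl M hs.1 hs.2
    have h2 := trace_log_low hκ (neg_upper hl) (neg_lower hu) M hs.1 hs.2
    have h3 : |M.trace| ≤ absSum M := by
      refine (Finset.abs_sum_le_sum_abs _ _).trans (Finset.sum_le_sum fun i _ => ?_)
      exact Finset.single_le_sum (f := fun j => |M i j|) (fun j _ => abs_nonneg _) (Finset.mem_univ i)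
    rw [trace_ell_mul]
    refine (abs_sub _ _).trans ((add_le_add ((abs_add_le _ _).trans (add_le_add h1 h2))
      (le_of_eq (abs_mul _ _))).trans ?_)
    have h4 := mul_le_mul_of_nonneg_left h3 (abs_nonneg (Real.log s))
    have h5 := absSum_nonneg M
    have hl0 := abs_nonneg (Real.log s)
    nlinarith [mul_nonneg (mul_nonneg h5 (Nat.cast_nonneg (α := ℝ) N)) hc0,
      mul_nonneg (mul_nonneg (mul_nonneg h5 (Nat.cast_nonneg (α := ℝ) N)) hc0) hl0,
      mul_nonneg h5 (Nat.cast_nonneg (α := ℝ) N),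
      mul_nonneg (mul_nonneg h5 (add_nonneg (mul_nonneg (by norm_num : (0:ℝ) ≤ 16) (Nat.cast_nonneg (α := ℝ) N)) zero_le_one)) (sq_nonneg (bnd κ)),
      mul_nonneg (mul_nonneg (mul_nonneg h5 (add_nonneg (mul_nonneg (by norm_num : (0:ℝ) ≤ 16) (Nat.cast_nonneg (α := ℝ) N)) zero_le_one)) (sq_nonneg (bnd κ))) hl0]
  · intro s hs
    have hs0 : 0 < s := (thr_pos hκ).trans_le hs
    have h1 := trace_log_high hκ hu hl M hs
    have h2 := trace_log_high hκ (neg_upper hl) (neg_lower hu) M hs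
    have h3 : |2 * ((M * Rd κ s).trace / Real.sqrt s - M.trace)| ≤ absSum M * bnd κ ^ 2 / s := by
      rw [Matrix.trace, Matrix.trace, Finset.sum_div, ← Finset.sum_sub_distrib, Finset.mul_sum,
        absSum, Finset.sum_mul, Finset.sum_div]
      refine (Finset.abs_sum_le_sum_abs _ _).trans (Finset.sum_le_sum fun i _ => ?_)
      obtain ⟨q1, q2, -⟩ := sqrt_ratio hκ i hs0
      rw [Matrix.diag_apply, Matrix.diag_apply, Rd, mul_diagonal, mul_div_assoc,
        show 2 * (M i i * (Real.sqrt (κ i ^ 2 + s) / Real.sqrt s) - M i i)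
          = M i i * (2 * (Real.sqrt (κ i ^ 2 + s) / Real.sqrt s - 1)) by ring,
        abs_mul, abs_of_nonneg (by linarith : 0 ≤ 2 * (Real.sqrt (κ i ^ 2 + s) / Real.sqrt s - 1)),
        mul_div_assoc]
      refine mul_le_mul (Finset.single_le_sum (f := fun j => |M i j|) (fun j _ => abs_nonneg _)
        (Finset.mem_univ i)) ?_ (by linarith) (Finset.sum_nonneg fun j _ => abs_nonneg _)
      refine (mul_le_mul_of_nonneg_left q2 (by norm_num)).trans ?_
      rw [show 2 * (κ i ^ 2 / (2 * s)) = κ i ^ 2 / s by field_simp]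
      exact div_le_div_of_nonneg_right (pow_le_pow_left₀ (hκ i).le (le_bnd hκ i) 2) hs0.le
    rw [trace_ell_mul]
    set L1 := (M * cfc Real.log (Rd κ s + S)).trace
    set L2 := (M * cfc Real.log (Rd κ s + -S)).trace
    have e : L1 + L2 - Real.log s * M.trace
        = (L1 - Real.log s / 2 * M.trace - ((M * (Rd κ s + S)).trace / Real.sqrt s - M.trace))
        + (L2 - Real.log s / 2 * M.trace - ((M * (Rd κ s + -S)).trace / Real.sqrt s - M.trace))
        + 2 * ((M * Rd κ s).trace / Real.sqrt s - M.trace) := by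
      simp only [Matrix.mul_add, Matrix.trace_add, Matrix.mul_neg, Matrix.trace_neg]
      ring
    rw [e]
    refine ((abs_add_three _ _ _).trans (add_le_add (add_le_add h1 h2) h3)).trans ?_
    have h5 := absSum_nonneg M
    rw [show absSum M * (↑N * (8 * bnd κ ^ 2 / s)) + absSum M * (↑N * (8 * bnd κ ^ 2 / s))
        + absSum M * bnd κ ^ 2 / s = absSum M * ((16 * N + 1) * bnd κ ^ 2) / s by ring]
    refine div_le_div_of_nonneg_right (mul_le_mul_of_nonneg_left ?_ h5) hs0.le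
    have : 0 ≤ 2 * (N : ℝ) * (1 + c) + 1 := by positivity
    linarith

lemma tame_trace_ell {S : Mat N} (hu : (diagonal κ - S).PosSemidef)
    (hl : (diagonal κ + S).PosSemidef) (M : Mat N) :
    Tame (thr κ) fun s => (ell κ S s * M).trace := by
  obtain ⟨C, hC, h⟩ := trace_ell_bound hκ
  obtain ⟨h1, h2⟩ := h S M hu hl
  exact ⟨thr_pos hκ, continuousOn_trace_ell hκ hu hl M,
    ⟨_, mul_nonneg (absSum_nonneg M) hC, h1⟩, ⟨_, mul_nonneg (absSum_nonneg M) hC, h2⟩⟩

end

end Vale.Agent.P371.Full
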