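import Vale.Agent.P371.Full.MatTools
import Vale.Agent.P371.Full.CalibBound
import Mathlib.MeasureTheory.Measure.Lebesgue.Integral
import Mathlib.Analysis.SpecialFunctions.Pow.Deriv

/-! # M2a: the pointwise calibration -/

namespace Vale.Agent.P371.Full

open MeasureTheory Matrix Filter Topology

noncomputable section

variable {N : ℕ}

/-! ## Scalar integrals -/

lemma log_one_add_bound {b w s : ℝ} (hw : 0 ≤ w) (hs : 0 < s) (hb : s ≤ b) :
    Real.log (1 + w / s) ≤ (|Real.log (b + w)| + 1) * (|Real.log s| + 1) := by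
  rw [show 1 + w / s = (s + w) / s by field_simp, Real.log_div (by positivity) hs.ne']
  have h1 : Real.log (s + w) ≤ Real.log (b + w) := Real.log_le_log (by positivity) (by linarith)
  nlinarith [le_abs_self (Real.log (b + w)), neg_abs_le (Real.log s),
    mul_nonneg (abs_nonneg (Real.log (b + w))) (abs_nonneg (Real.log s))]

lemma log_one_add_div_le {w s : ℝ} (hw : 0 ≤ w) (hs : 0 < s) : Real.log (1 + w / s) ≤ w / s := by
  have := Real.log_le_sub_one_of_pos (show 0 < 1 + w / s by positivity)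
  linarith

lemma tame_log {b : ℝ} (hb : 0 < b) {w : ℝ} (hw : 0 ≤ w) :
    Tame b fun s => Real.log (1 + w / s) where
  pos := hb
  cont := ContinuousOn.log
    (continuousOn_const.add (continuousOn_const.div continuousOn_id fun _ hs => ne_of_gt hs))
    fun s hs => by have : 0 < s := hs; positivity
  low := ⟨|Real.log (b + w)| + 1, by positivity, fun s hs => by
    rw [abs_of_nonneg (Real.log_nonneg (by have := div_nonneg hw hs.1.le; linarith))]
    exact log_one_add_bound hw hs.1 hs.2⟩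
  high := ⟨w, hw, fun s hs => by
    have hs0 : 0 < s := hb.trans_le hs
    rw [abs_of_nonneg (Real.log_nonneg (by have := div_nonneg hw hs0.le; linarith))]
    exact log_one_add_div_le hw hs0⟩

lemma phi_nonneg {u : ℝ} (hu : 0 ≤ u) : 0 ≤ phi u := by
  have h := Real.one_sub_inv_le_log_of_pos (show 0 < 1 + u by linarith)
  have h1 := mul_le_mul_of_nonneg_left h (show 0 ≤ 1 + u by linarith)
  rw [mul_sub, mul_inv_cancel₀ (by linarith), mul_one] at h1
  rw [phi]; linarith

lemma phi_le {u : ℝ} (hu : 0 ≤ u) : phi u ≤ u * Real.log (1 + u) := by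
  have := Real.log_le_sub_one_of_pos (show 0 < 1 + u by linarith)
  rw [phi]; linarith

lemma tame_phi {b : ℝ} (hb : 0 < b) {w : ℝ} (hw : 0 ≤ w) :
    Tame b fun s => s * phi (w / s) := by
  have hd : ContinuousOn (fun s : ℝ => w / s) (Set.Ioi 0) :=
    continuousOn_const.div continuousOn_id fun _ hs => ne_of_gt hs
  have hle : ∀ s, 0 < s → |s * phi (w / s)| ≤ |w * Real.log (1 + w / s)| := fun s hs => by
    have hu := div_nonneg hw hs.le
    rw [abs_of_nonneg (mul_nonneg hs.le (phi_nonneg hu))]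
    refine ((mul_le_mul_of_nonneg_left (phi_le hu) hs.le).trans_eq ?_).trans (le_abs_self _)
    field_simp
  obtain ⟨C, hC, h1⟩ := ((tame_log hb hw).const_mul w).low
  obtain ⟨D, hD, h2⟩ := ((tame_log hb hw).const_mul w).high
  refine ⟨hb, ?_, ⟨C, hC, fun s hs => (hle s hs.1).trans (h1 s hs)⟩,
    ⟨D, hD, fun s hs => (hle s (hb.trans_le hs)).trans (h2 s hs)⟩⟩
  have h1 : ContinuousOn (fun s : ℝ => 1 + w / s) (Set.Ioi 0) := continuousOn_const.add hd
  exact continuousOn_id.mul ((h1.mul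
    (h1.log fun s hs => ne_of_gt (by have := div_nonneg hw (le_of_lt (Set.mem_Ioi.1 hs)); linarith))).sub hd)

theorem cNorm_pos {a : ℝ} (ha : 0 < a) (ha1 : a < 1) : 0 < cNorm a := by
  have hi := (tame_log (b := 1) one_pos zero_le_one).integrableOn ha ha1
  have hpos : ∀ s : ℝ, 0 < s → 0 < s ^ (a - 1) * Real.log (1 + 1 / s) := fun s hs =>
    mul_pos (Real.rpow_pos_of_pos hs _) (Real.log_pos (by have := one_div_pos.2 hs; linarith))
  rw [cNorm, setIntegral_pos_iff_support_of_nonneg_ae ?_ hi]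
  · refine lt_of_lt_of_le ?_ (measure_mono (s := Set.Ioi (0 : ℝ)) fun s hs =>
      ⟨(hpos s hs).ne', hs⟩)
    rw [Real.volume_Ioi]
    exact ENNReal.zero_lt_top
  · exact (ae_restrict_mem measurableSet_Ioi).mono fun s hs => (hpos s hs).le

lemma phi_unit_integral {a : ℝ} (ha : 0 < a) (ha1 : a < 1) :
    ∫ s in Set.Ioi (0 : ℝ), s ^ a * phi (1 / s) = cNorm a / (a + 1) := by
  have hL := (tame_log (b := 1) one_pos zero_le_one).integrableOn ha ha1
  have hP := tame_phi (b := 1) one_pos zero_le_one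
  have e : ∀ s : ℝ, 0 < s → s ^ (a - 1) * (s * phi (1 / s)) = s ^ a * phi (1 / s) := fun s hs => by
    rw [← mul_assoc, ← Real.rpow_add_one hs.ne', sub_add_cancel]
  have hP' : IntegrableOn (fun s => s ^ a * phi (1 / s)) (Set.Ioi 0) :=
    (hP.integrableOn ha ha1).congr_fun e measurableSet_Ioi
  have hd : ∀ s : ℝ, 0 < s → HasDerivAt (fun t => t ^ a * (t * phi (1 / t)))
      ((a + 1) * (s ^ a * phi (1 / s)) - s ^ (a - 1) * Real.log (1 + 1 / s)) s := fun s hs => by
    have hu : HasDerivAt (fun t : ℝ => 1 / t) (-(s ^ 2)⁻¹) s := by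
      simpa [one_div] using hasDerivAt_inv hs.ne'
    have h1 : HasDerivAt (fun t : ℝ => 1 + 1 / t) (-(s ^ 2)⁻¹) s := hu.const_add 1
    have h2 := (h1.mul (h1.log (by positivity))).sub hu
    have h3 := (Real.hasDerivAt_rpow_const (x := s) (p := a) (Or.inl hs.ne')).mul
      ((hasDerivAt_id' s).mul h2)
    refine h3.congr_deriv ?_
    have h4 : (1 + 1 / s) ≠ 0 := by positivity
    have h5 : s ^ a = s ^ (a - 1) * s := by rw [← Real.rpow_add_one hs.ne', sub_add_cancel]
    simp only [Pi.mul_apply, Pi.sub_apply, phi, h5]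
    field_simp
    ring
  have h := integral_eq_zero_of_deriv hd ((hP'.const_mul (a + 1)).sub hL)
    (hP.tendsto_zero ha) (hP.tendsto_top ha1)
  rw [integral_sub (hP'.const_mul (a + 1)) hL, integral_const_mul] at h
  rw [eq_div_iff (by linarith), cNorm]
  linarith

lemma phi_integral {a : ℝ} (ha : 0 < a) (ha1 : a < 1) {w : ℝ} (hw : 0 ≤ w) :
    ∫ s in Set.Ioi (0 : ℝ), s ^ (a - 1) * (s * phi (w / s))
      = w ^ (1 + a) * (cNorm a / (a + 1)) := by
  rcases hw.eq_or_lt with rfl | hw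
  · rw [Real.zero_rpow (by linarith)]
    simp [phi]
  · have e : ∀ s ∈ Set.Ioi (0 : ℝ),
        s ^ (a - 1) * (s * phi (w / s)) = w ^ a * ((w⁻¹ * s) ^ a * phi (1 / (w⁻¹ * s))) := by
      intro s hs
      have hs' : 0 < s := hs
      rw [← mul_assoc, ← Real.rpow_add_one hs'.ne', sub_add_cancel, Real.mul_rpow (by positivity) hs'.le,
        Real.inv_rpow hw.le, show 1 / (w⁻¹ * s) = w / s by field_simp]
      have : w ^ a ≠ 0 := (Real.rpow_pos_of_pos hw a).ne'
      field_simp
    rw [setIntegral_congr_fun measurableSet_Ioi e, integral_const_mul,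
      integral_comp_mul_left_Ioi (fun x => x ^ a * phi (1 / x)) 0 (inv_pos.2 hw), mul_zero,
      smul_eq_mul, inv_inv, phi_unit_integral ha ha1, add_comm 1 a, Real.rpow_add_one hw.ne']
    ring

/-! ## The function `H = tr X - s tr ℓ` -/

variable {κ : Fin N → ℝ} (hκ : ∀ i, 0 < κ i) {S : Mat N}
  (hu : (diagonal κ - S).PosSemidef) (hl : (diagonal κ + S).PosSemidef)

lemma trace_cfc_eq {A : Mat N} (hA : A.IsHermitian) (f : ℝ → ℝ) :
    (cfc f A).trace = ∑ k, f (hA.eigenvalues k) := by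
  rw [← trFn_eq_trace hA, trFn, dif_pos hA]

include hκ hu hl in
lemma trace_log_cubic {s : ℝ} (hs : thr κ ≤ s) :
    let Y := (Real.sqrt s)⁻¹ • (Rd κ s + S) + (-1 : ℝ) • (1 : Mat N)
    |(cfc Real.log (Rd κ s + S)).trace - Real.log s / 2 * N
        - (Y.trace - (Y * Y).trace / 2 + (Y * Y * Y).trace / 3)|
      ≤ N * (32 * bnd κ ^ 4 / s ^ 2) := by
  intro Y
  have hs0 : 0 < s := (thr_pos hκ).trans_le hs
  have hA := herm_add hκ hl hs0
  have hY : Y = cfc (fun x => (Real.sqrt s)⁻¹ * x + -1) (Rd κ s + S) := by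
    rw [← cfc_add_eig hA, cfc_const_eig hA, ← cfc_smul_eig hA, cfc_id_eq hA]
  have hN : Real.log s / 2 * N = ∑ _k : Fin N, Real.log s / 2 := by simp [mul_comm]
  rw [hY, cfc_mul_eig hA, cfc_mul_eig hA, trace_cfc_eq hA, trace_cfc_eq hA, trace_cfc_eq hA,
    trace_cfc_eq hA, hN, Finset.sum_div, Finset.sum_div]
  simp only [← Finset.sum_sub_distrib, ← Finset.sum_add_distrib]
  refine (Finset.abs_sum_le_sum_abs _ _).trans ((Finset.sum_le_sum (g := fun _ =>
    32 * bnd κ ^ 4 / s ^ 2) fun k _ => ?_).trans_eq (by simp))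
  obtain ⟨h1, h2, h3⟩ := eig_far hκ hu hl hs hA k
  rw [inv_mul_eq_div, ← sub_eq_add_neg, h3]
  set y := hA.eigenvalues k / Real.sqrt s - 1
  have h4 := log_taylor h2 3
  simp only [Finset.sum_range_succ, Finset.sum_range_zero] at h4
  norm_num at h4
  rw [show Real.log (1 + y) - (y - y * y / 2 + y * y * y / 3)
    = -y + (-y) ^ 2 / 2 + (-y) ^ 3 / 3 + Real.log (1 + y) by ring]
  refine le_trans (le_of_eq (by ring_nf)) (h4.trans ?_)
  have h5 : |y| ^ 4 ≤ (2 * bnd κ / Real.sqrt s) ^ 4 := pow_le_pow_left₀ (abs_nonneg y) h1 4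
  rw [div_pow, show Real.sqrt s ^ 4 = (Real.sqrt s ^ 2) ^ 2 by ring, Real.sq_sqrt hs0.le] at h5
  calc 2 * |y| ^ 4 ≤ 2 * ((2 * bnd κ) ^ 4 / s ^ 2) := mul_le_mul_of_nonneg_left h5 (by norm_num)
    _ = _ := by ring

/-- `tr (ℓ(s))`. -/
def trEll (κ : Fin N → ℝ) (S : Mat N) (s : ℝ) : ℝ := (ell κ S s * 1).trace

/-- `tr X - s tr ℓ(s)`. -/
def hEll (κ : Fin N → ℝ) (S : Mat N) (s : ℝ) : ℝ := (Xm κ S).trace - s * trEll κ S s

include hκ hu hl in
lemma hEll_high : ∃ C, 0 ≤ C ∧ ∀ s, thr κ ≤ s → |hEll κ S s| ≤ C / s := by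
  have hb := one_le_bnd hκ
  refine ⟨N * (2 * bnd κ ^ 4) + bnd κ ^ 2 * absSum (S * S) + 2 * (N * (32 * bnd κ ^ 4)),
    by have := absSum_nonneg (S * S); positivity, fun s hs => ?_⟩
  have hs0 : 0 < s := (thr_pos hκ).trans_le hs
  have hq : 0 < Real.sqrt s := Real.sqrt_pos.2 hs0
  have h1 := trace_log_cubic hκ hu hl hs
  have h2 := trace_log_cubic hκ (neg_upper hl) (neg_lower hu) hs
  simp only at h1 h2
  set p : Fin N → ℝ := fun i => Real.sqrt (κ i ^ 2 + s) / Real.sqrt s - 1 with hp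
  set P : Mat N := diagonal p with hP
  set W : Mat N := (Real.sqrt s)⁻¹ • S with hW
  have hPe : (Real.sqrt s)⁻¹ • Rd κ s + (-1 : ℝ) • (1 : Mat N) = P := by
    rw [Rd, ← diagonal_smul, smul_one_eq_diagonal, diagonal_add, hP]
    congr 1
    funext i
    simp only [Pi.smul_apply, smul_eq_mul, p]
    ring
  have e1 : (Real.sqrt s)⁻¹ • (Rd κ s + S) + (-1 : ℝ) • (1 : Mat N) = P + W := by
    rw [← hPe, hW]; module
  have e2 : (Real.sqrt s)⁻¹ • (Rd κ s + -S) + (-1 : ℝ) • (1 : Mat N) = P + -W := by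
    rw [← hPe, hW]; module
  rw [e1] at h1
  rw [e2] at h2
  have c1 : (P * W * P).trace = (P * P * W).trace := Matrix.trace_mul_cycle P W P
  have c2 : (W * P * P).trace = (P * P * W).trace :=
    (Matrix.trace_mul_cycle W P P).trans c1
  have c3 : (W * W * P).trace = (P * W * W).trace := Matrix.trace_mul_cycle W W P
  have c4 : (W * P * W).trace = (P * W * W).trace :=
    (Matrix.trace_mul_cycle W P W).trans c3
  have c5 : (W * P).trace = (P * W).trace := Matrix.trace_mul_comm W P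
  have hWW : W * W = s⁻¹ • (S * S) := by
    rw [hW, Matrix.smul_mul, Matrix.mul_smul, smul_smul, ← mul_inv, Real.mul_self_sqrt hs0.le]
  have t1 : P.trace = ∑ i, p i := by rw [hP, trace_diagonal]
  have t2 : (P * P).trace = ∑ i, p i * p i := by rw [hP, diagonal_mul_diagonal, trace_diagonal]
  have t3 : (P * P * P).trace = ∑ i, p i * p i * p i := by
    rw [hP, diagonal_mul_diagonal, diagonal_mul_diagonal, trace_diagonal]
  have t4 : (P * W * W).trace = ∑ i, p i * (s⁻¹ * (S * S) i i) := by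
    rw [Matrix.mul_assoc, hWW]
    simp only [Matrix.trace, hP, Matrix.diag, diagonal_mul, Matrix.smul_apply, smul_eq_mul]
  have t5 : (W * W).trace = ∑ i, s⁻¹ * (S * S) i i := by
    rw [hWW]; simp [Matrix.trace]
  have tX : (Xm κ S).trace / s = ∑ i, (κ i ^ 2 / s - s⁻¹ * (S * S) i i) := by
    rw [Xm, Matrix.trace_sub, trace_diagonal, Matrix.trace, sub_div, Finset.sum_div, Finset.sum_div,
      ← Finset.sum_sub_distrib]
    exact Finset.sum_congr rfl fun i _ => by rw [Matrix.diag_apply]; ring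
  set r1 := (cfc Real.log (Rd κ s + S)).trace - Real.log s / 2 * N
    - ((P + W).trace - ((P + W) * (P + W)).trace / 2 + ((P + W) * (P + W) * (P + W)).trace / 3)
  set r2 := (cfc Real.log (Rd κ s + -S)).trace - Real.log s / 2 * N
    - ((P + -W).trace - ((P + -W) * (P + -W)).trace / 2
      + ((P + -W) * (P + -W) * (P + -W)).trace / 3)
  have key : trEll κ S s - (Xm κ S).trace / s
      = (∑ i, (-2 * p i ^ 2 + 2 / 3 * p i ^ 3 + 2 * (p i * (s⁻¹ * (S * S) i i)))) + r1 + r2 := by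
    have e : trEll κ S s = (cfc Real.log (Rd κ s + S)).trace
        + (cfc Real.log (Rd κ s + -S)).trace - Real.log s * N := by
      rw [trEll, trace_ell_mul, Matrix.one_mul, Matrix.one_mul, Matrix.trace_one, Fintype.card_fin]
    have hX : (Xm κ S).trace / s = 2 * (∑ i, p i) + (∑ i, p i * p i) - ∑ i, s⁻¹ * (S * S) i i := by
      rw [tX, Finset.mul_sum, ← Finset.sum_add_distrib, ← Finset.sum_sub_distrib]
      refine Finset.sum_congr rfl fun i _ => ?_
      have hk : 2 * p i + p i ^ 2 = κ i ^ 2 / s := (sqrt_ratio hκ i hs0).2.2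
      rw [← hk]
      ring
    have hR : ∑ i, (-2 * p i ^ 2 + 2 / 3 * p i ^ 3 + 2 * (p i * (s⁻¹ * (S * S) i i)))
        = -2 * (∑ i, p i * p i) + 2 / 3 * (∑ i, p i * p i * p i)
          + 2 * ∑ i, p i * (s⁻¹ * (S * S) i i) := by
      rw [Finset.mul_sum, Finset.mul_sum, Finset.mul_sum, ← Finset.sum_add_distrib,
        ← Finset.sum_add_distrib]
      exact Finset.sum_congr rfl fun i _ => by ring
    rw [hX, hR]
    simp only [r1, r2, e, Matrix.mul_add, Matrix.add_mul, Matrix.mul_neg, Matrix.neg_mul, neg_neg,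
      Matrix.trace_add, Matrix.trace_neg, neg_add_rev, c1, c2, c3, c4, c5]
    rw [t1, t2, t3, t4, t5]
    ring
  have hsum : |∑ i, (-2 * p i ^ 2 + 2 / 3 * p i ^ 3 + 2 * (p i * (s⁻¹ * (S * S) i i)))|
      ≤ (N * (2 * bnd κ ^ 4) + bnd κ ^ 2 * absSum (S * S)) / s ^ 2 := by
    refine (Finset.abs_sum_le_sum_abs _ _).trans ((Finset.sum_le_sum (g := fun i =>
      2 * bnd κ ^ 4 / s ^ 2 + bnd κ ^ 2 / s ^ 2 * ∑ j, |(S * S) i j|) fun i _ => ?_).trans_eq ?_)
    · obtain ⟨q1, q2, -⟩ := sqrt_ratio hκ i hs0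
      change 0 ≤ p i at q1
      change p i ≤ κ i ^ 2 / (2 * s) at q2
      have q3 : p i ≤ bnd κ ^ 2 / (2 * s) := q2.trans
        (div_le_div_of_nonneg_right (pow_le_pow_left₀ (hκ i).le (le_bnd hκ i) 2) (by positivity))
      have q4 : p i ≤ 1 := q3.trans (by
        rw [div_le_one (by positivity)]; rw [thr] at hs; linarith [sq_nonneg (bnd κ)])
      have q5 : p i ^ 2 ≤ bnd κ ^ 4 / (4 * s ^ 2) := by
        refine (pow_le_pow_left₀ q1 q3 2).trans_eq ?_
        ring
      refine (abs_add_le _ _).trans (add_le_add ?_ ?_)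
      · have q6 : p i ^ 3 ≤ p i ^ 2 := pow_le_pow_of_le_one q1 q4 (by norm_num)
        have q9 : 0 ≤ bnd κ ^ 4 / (4 * s ^ 2) := by positivity
        have q7 : bnd κ ^ 4 / (4 * s ^ 2) * 8 = 2 * bnd κ ^ 4 / s ^ 2 := by ring
        rw [abs_le]
        constructor <;> linarith [pow_nonneg q1 3, sq_nonneg (p i)]
      · rw [abs_mul, abs_mul, abs_mul, abs_of_nonneg q1, abs_two, abs_inv, abs_of_pos hs0]
        have q8 : |(S * S) i i| ≤ ∑ j, |(S * S) i j| :=
          Finset.single_le_sum (f := fun j => |(S * S) i j|) (fun j _ => abs_nonneg _)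
            (Finset.mem_univ i)
        refine (mul_le_mul_of_nonneg_left (mul_le_mul q3 (mul_le_mul_of_nonneg_left q8
          (inv_nonneg.2 hs0.le)) (by positivity) (by positivity)) (by norm_num)).trans_eq ?_
        field_simp
    · rw [Finset.sum_add_distrib, ← Finset.mul_sum, absSum]
      simp
      ring
  have hkey : |trEll κ S s - (Xm κ S).trace / s| ≤
      (N * (2 * bnd κ ^ 4) + bnd κ ^ 2 * absSum (S * S) + 2 * (N * (32 * bnd κ ^ 4))) / s ^ 2 := by
    rw [key]
    refine ((abs_add_three _ _ _).trans (add_le_add (add_le_add hsum h1) h2)).trans_eq ?_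
    ring
  have e : hEll κ S s = -s * (trEll κ S s - (Xm κ S).trace / s) := by
    rw [hEll]; field_simp; ring
  rw [e, abs_mul, abs_neg, abs_of_pos hs0]
  refine (mul_le_mul_of_nonneg_left hkey hs0.le).trans_eq ?_
  field_simp

include hκ hu hl in
lemma tame_hEll : Tame (thr κ) (hEll κ S) where
  pos := thr_pos hκ
  cont := continuousOn_const.sub (continuousOn_id.mul (tame_trace_ell hκ hu hl 1).cont)
  low := by
    obtain ⟨C, hC, h⟩ := (tame_trace_ell hκ hu hl 1).low
    refine ⟨|(Xm κ S).trace| + thr κ * C, by have := thr_pos hκ; positivity, fun s hs => ?_⟩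
    refine (abs_sub _ _).trans ?_
    rw [abs_mul, abs_of_pos hs.1, add_mul]
    refine add_le_add (le_mul_of_one_le_right (abs_nonneg _) (by linarith [abs_nonneg (Real.log s)]))
      ?_
    rw [mul_assoc (thr κ)]
    exact mul_le_mul hs.2 (h s hs) (abs_nonneg _) (thr_pos hκ).le
  high := hEll_high hκ hu hl

include hκ hl in
lemma deriv_bound {s : ℝ} (hs : 0 < s) :
    ∫ u in Set.Ioi (0 : ℝ), ((Xm κ S + s • 1) *
        ((Rd κ s + S + u • 1)⁻¹ * Rd' κ s * (Rd κ s + S + u • 1)⁻¹)).trace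
      ≤ N - (Rd' κ s * (Rd κ s + S)).trace := by
  have h := sandwich_integral_le (posDef_add hκ hl hs)
    (r := fun i => Real.sqrt (κ i ^ 2 + s)) (fun i => Real.sqrt_pos.2 (by positivity))
  have e : (Rd κ s + S) * Rd κ s + Rd κ s * (Rd κ s + S) - (Rd κ s + S) * (Rd κ s + S)
      = Xm κ S + s • 1 := by
    calc _ = Rd κ s * Rd κ s - S * S := by noncomm_ring
      _ = _ := by rw [Rd_mul_Rd hκ hs.le, Xm]; abel
  change ∫ u in Set.Ioi (0 : ℝ), (((Rd κ s + S) * Rd κ s + Rd κ s * (Rd κ s + S)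
    - (Rd κ s + S) * (Rd κ s + S)) * _).trace ≤ _ at h
  rw [e] at h
  exact h

include hκ hu hl in
lemma key_inequality {a : ℝ} (ha : 0 < a) (ha1 : a < 1) :
    0 ≤ ∫ s in Set.Ioi (0 : ℝ), s ^ (a - 1) * (a * (ell κ S s * Xm κ S).trace
      - (a + 1) * hEll κ S s) := by
  have hG := tame_trace_ell hκ hu hl (Xm κ S)
  have hH := tame_hEll hκ hu hl
  have hF : Tame (thr κ) fun t => (ell κ S t * Xm κ S).trace - hEll κ S t :=
    (hG.add (hH.const_mul (-1))).congr fun t _ => by ring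
  have hφ : IntegrableOn (fun s => s ^ (a - 1) * (a * (ell κ S s * Xm κ S).trace
      - (a + 1) * hEll κ S s)) (Set.Ioi 0) :=
    (((hG.const_mul a).add (hH.const_mul (-(a + 1)))).integrableOn ha ha1).congr_fun
      (fun s _ => by ring) measurableSet_Ioi
  set D : ℝ → Mat N → ℝ := fun s M => (∫ u in Set.Ioi (0 : ℝ), (M *
      ((Rd κ s + S + u • 1)⁻¹ * Rd' κ s * (Rd κ s + S + u • 1)⁻¹)).trace) +
    (∫ u in Set.Ioi (0 : ℝ), (M *
      ((Rd κ s + -S + u • 1)⁻¹ * Rd' κ s * (Rd κ s + -S + u • 1)⁻¹)).trace) -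
    s⁻¹ * M.trace with hD
  have hell : ∀ M s, 0 < s → HasDerivAt (fun t => (ell κ S t * M).trace) (D s M) s := by
    intro M s hs
    simp only [trace_ell_mul]
    exact ((hasDerivAt_log_add hκ hl M hs).add
      (hasDerivAt_log_add hκ (neg_lower hu) M hs)).sub ((Real.hasDerivAt_log hs.ne').mul_const _)
  have hFd : ∀ s, 0 < s → HasDerivAt (fun t => (ell κ S t * Xm κ S).trace - hEll κ S t)
      (D s (Xm κ S + s • 1) + trEll κ S s) s := by
    intro s hs
    have h := ((hell (Xm κ S + s • 1) s hs).add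
      (((hasDerivAt_id' s).sub_const s).mul (hell 1 s hs))).sub_const (Xm κ S).trace
    refine (h.congr_deriv (by simp [trEll])).congr_of_eventuallyEq (Eventually.of_forall fun t => ?_)
    simp only [hEll, trEll, Matrix.mul_add, Matrix.mul_smul, Matrix.trace_add, Matrix.trace_smul,
      smul_eq_mul, Pi.add_apply, Pi.mul_apply]
    ring
  refine integral_nonneg_of_deriv_le
    (fun s hs => (Real.hasDerivAt_rpow_const (p := a) (Or.inl hs.ne')).mul (hFd s hs))
    (fun s hs => ?_) hφ (hF.tendsto_zero ha) (hF.tendsto_top ha1)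
  have hb : D s (Xm κ S + s • 1) + trEll κ S s ≤ -(hEll κ S s / s) := by
    have b1 := deriv_bound hκ hl hs
    have b2 := deriv_bound hκ (neg_lower hu) hs
    rw [show Xm κ (-S) = Xm κ S by simp [Xm]] at b2
    have hsum : (Rd' κ s * (Rd κ s + S)).trace + (Rd' κ s * (Rd κ s + -S)).trace = N := by
      rw [Matrix.mul_add, Matrix.mul_add, Matrix.mul_neg, Matrix.trace_add, Matrix.trace_add,
        Matrix.trace_neg, Rd, Rd', diagonal_mul_diagonal, trace_diagonal]
      have : ∀ i, 1 / (2 * Real.sqrt (κ i ^ 2 + s)) * Real.sqrt (κ i ^ 2 + s) = 1 / 2 := fun i => by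
        have : Real.sqrt (κ i ^ 2 + s) ≠ 0 := (Real.sqrt_pos.2 (by positivity)).ne'
        field_simp
      simp only [this]
      simp
      ring
    have htr : s⁻¹ * (Xm κ S + s • (1 : Mat N)).trace = (Xm κ S).trace / s + N := by
      rw [Matrix.trace_add, Matrix.trace_smul, Matrix.trace_one, Fintype.card_fin, smul_eq_mul]
      field_simp
    have he : hEll κ S s / s = (Xm κ S).trace / s - trEll κ S s := by
      rw [hEll]; field_simp
    simp only [hD]
    linarith
  have h5 : s ^ a = s ^ (a - 1) * s := by rw [← Real.rpow_add_one hs.ne', sub_add_cancel]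
  calc _ ≤ a * s ^ (a - 1) * ((ell κ S s * Xm κ S).trace - hEll κ S s)
        + s ^ a * -(hEll κ S s / s) := by
        gcongr
    _ = _ := by rw [h5]; field_simp; ring

theorem calib_integrable {a : ℝ} (ha : 0 < a) (ha1 : a < 1) {κ : Fin N → ℝ} (hκ : ∀ i, 0 < κ i)
    {S : Mat N} (hu : (diagonal κ - S).PosSemidef) (hl : (diagonal κ + S).PosSemidef) (M : Mat N) :
    IntegrableOn (fun s => s ^ (a - 1) * (ell κ S s * M).trace) (Set.Ioi 0) :=
  (tame_trace_ell hκ hu hl M).integrableOn ha ha1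

lemma trFn_rpow_smul {V : Mat N} (hV : V.PosSemidef) {c : ℝ} (hc : 0 ≤ c) (p : ℝ) :
    trFn (fun v => v ^ p) (c • V) = c ^ p * trFn (fun v => v ^ p) V := by
  have h : (c • V).IsHermitian := (hV.smul hc).1
  rw [trFn_eq_trace h]
  conv_lhs => rw [← cfc_id_eq hV.1, cfc_smul_eig hV.1, cfc_comp_eig hV.1]
  rw [trace_cfc_eq hV.1, trFn, dif_pos hV.1, Finset.mul_sum]
  exact Finset.sum_congr rfl fun k _ => Real.mul_rpow hc (hV.eigenvalues_nonneg k)

/-- `tr Y (V - (P - S²)) ≤ (1/a) (a/(1+a))^(1+a) C_a tr V^(1+a)`. -/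
theorem calib_pointwise {a : ℝ} (ha : 0 < a) (ha1 : a < 1) {κ : Fin N → ℝ} (hκ : ∀ i, 0 < κ i)
    {S V : Mat N} (hu : (diagonal κ - S).PosSemidef) (hl : (diagonal κ + S).PosSemidef)
    (hV : V.PosSemidef) :
    -(∫ s in Set.Ioi (0 : ℝ),
        s ^ (a - 1) * (ell κ S s * (diagonal (fun i => κ i ^ 2) - S * S - V)).trace)
      ≤ cNorm a * (1 / a * (a / (1 + a)) ^ (1 + a)) * trFn (fun v => v ^ (1 + a)) V := by
  set c := a / (1 + a) with hc
  have hc0 : 0 < c := by positivity
  have hV' : (c • V).PosSemidef := hV.smul hc0.le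
  set w := hV'.1.eigenvalues
  have hG := tame_trace_ell hκ hu hl (Xm κ S)
  have hTV := tame_trace_ell hκ hu hl V
  have hH := tame_hEll hκ hu hl
  have hb := thr_pos hκ
  have iG := hG.integrableOn ha ha1
  have iV := hTV.integrableOn ha ha1
  have iH := hH.integrableOn ha ha1
  have iw : ∀ i, IntegrableOn (fun s => s ^ (a - 1) * (s * phi (w i / s))) (Set.Ioi 0) := fun i =>
    (tame_phi hb (hV'.eigenvalues_nonneg i)).integrableOn ha ha1
  have e : ∀ s, s ^ (a - 1) * (ell κ S s * (diagonal (fun i => κ i ^ 2) - S * S - V)).trace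
      = s ^ (a - 1) * (ell κ S s * Xm κ S).trace - s ^ (a - 1) * (ell κ S s * V).trace := fun s => by
    rw [← Xm, Matrix.mul_sub, Matrix.trace_sub, mul_sub]
  simp only [e]
  rw [integral_sub iG iV]
  have hV1 : c * ∫ s in Set.Ioi (0 : ℝ), s ^ (a - 1) * (ell κ S s * V).trace
      ≤ (∫ s in Set.Ioi (0 : ℝ), s ^ (a - 1) * hEll κ S s)
        + ∑ i, w i ^ (1 + a) * (cNorm a / (a + 1)) := by
    have hi := integrable_finsetSum Finset.univ fun i _ => iw i
    rw [← integral_const_mul, ← Finset.sum_congr rfl fun i _ =>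
      phi_integral ha ha1 (hV'.eigenvalues_nonneg i), ← integral_finsetSum _ fun i _ => iw i,
      ← integral_add iH hi]
    refine setIntegral_mono_on (iV.const_mul c) (iH.add hi) measurableSet_Ioi fun s hs => ?_
    have hs0 : 0 < s := hs
    have hk := klein hκ hu hl hs0 hV'
    rw [Matrix.mul_smul, Matrix.trace_smul, smul_eq_mul] at hk
    rw [← Finset.mul_sum, ← mul_add, mul_left_comm]
    refine mul_le_mul_of_nonneg_left ?_ (Real.rpow_nonneg hs0.le _)
    simp only [hEll, trEll, Matrix.mul_one]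
    linarith
  have hkey := key_inequality hκ hu hl ha ha1
  have e2 : ∀ s, s ^ (a - 1) * (a * (ell κ S s * Xm κ S).trace - (a + 1) * hEll κ S s)
      = a * (s ^ (a - 1) * (ell κ S s * Xm κ S).trace) - (a + 1) * (s ^ (a - 1) * hEll κ S s) :=
    fun s => by ring
  simp only [e2] at hkey
  rw [integral_sub (iG.const_mul a) (iH.const_mul (a + 1)), integral_const_mul,
    integral_const_mul] at hkey
  have hw : ∑ i, w i ^ (1 + a) * (cNorm a / (a + 1))
      = cNorm a / (a + 1) * (c ^ (1 + a) * trFn (fun v => v ^ (1 + a)) V) := by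
    rw [← trFn_rpow_smul hV hc0.le, trFn, dif_pos hV'.1, Finset.mul_sum]
    exact Finset.sum_congr rfl fun i _ => mul_comm _ _
  rw [hw] at hV1
  have ha' : (1 + a) * c = a := by rw [hc]; field_simp
  have h1 := mul_le_mul_of_nonneg_left hV1 (show 0 ≤ 1 + a by linarith)
  rw [← mul_assoc, ha'] at h1
  refine le_of_mul_le_mul_left ?_ ha
  have e3 : a * (cNorm a * (1 / a * c ^ (1 + a)) * trFn (fun v => v ^ (1 + a)) V)
      = (1 + a) * (cNorm a / (a + 1) * (c ^ (1 + a) * trFn (fun v => v ^ (1 + a)) V)) := by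
    field_simp
    ring
  rw [e3]
  linarith

end

end Vale.Agent.P371.Full
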