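import Vale.Agent.P371.Full.MatLog
import Mathlib.MeasureTheory.Integral.IntervalIntegral.FundThmCalculus

/-! # The trace of `x log x - x` along a path -/

namespace Vale.Agent.P371.Full

open MeasureTheory Matrix Filter Topology Set

noncomputable section

attribute [local instance] Matrix.linftyOpNormedRing Matrix.linftyOpNormedAlgebra

variable {n : ℕ}

/-- The derivative of `tr (A y)^(k+1)` is `(k+1) tr (A^k A')`. -/
theorem hasDerivWithinAt_trace_pow {A : ℝ → Mat n} {A' : Mat n} {s : Set ℝ} {x : ℝ}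
    (hd : ∀ i j, HasDerivWithinAt (fun y => A y i j) (A' i j) s x) (k : ℕ) :
    HasDerivWithinAt (fun y => (A y ^ (k + 1)).trace) (((k + 1 : ℕ) : ℝ) * (A x ^ k * A').trace) s x := by
  have hm : ∀ {i j : Fin n} {F : ℝ → Mat n} {F' : Mat n}, HasDerivWithinAt F F' s x →
      HasDerivWithinAt (fun y => F y i j) (F' i j) s x := fun {i j F F'} h =>
    hasDerivWithinAt_pi.mp (hasDerivWithinAt_pi.mp h i) j
  have hA : HasDerivWithinAt A A' s x :=
    hasDerivWithinAt_pi.mpr fun i => hasDerivWithinAt_pi.mpr fun j => hd i j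
  have main : ∀ k : ℕ, ∃ D : Mat n, HasDerivWithinAt (fun y => A y ^ (k + 1)) D s x ∧
      ∀ B : Mat n, B * A x = A x * B → (B * D).trace = ((k + 1 : ℕ) : ℝ) * (B * A x ^ k * A').trace := by
    intro k
    induction k with
    | zero => exact ⟨A', by simpa using hA, fun B _ => by simp⟩
    | succ k ih =>
      obtain ⟨D, hD, hB⟩ := ih
      refine ⟨D * A x + A x ^ (k + 1) * A', ?_, fun B hB' => ?_⟩
      · have e : (fun y => A y ^ (k + 1 + 1)) = fun y => A y ^ (k + 1) * A y := funext fun y => pow_succ _ _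
        rw [e]
        exact hD.fun_mul hA
      · have h1 : (B * (D * A x)).trace = ((k + 1 : ℕ) : ℝ) * (B * A x ^ (k + 1) * A').trace := by
          rw [← Matrix.mul_assoc, trace_mul_comm, ← Matrix.mul_assoc,
            hB (A x * B) (by rw [Matrix.mul_assoc, hB']),
            ← hB', Matrix.mul_assoc B (A x), ← pow_succ']
        rw [Matrix.mul_add, trace_add, h1, ← Matrix.mul_assoc]
        push_cast
        ring
  obtain ⟨D, hD, hB⟩ := main k
  have h1 := hB 1 (by simp)
  simp only [Matrix.one_mul] at h1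
  rw [← h1]
  exact HasDerivWithinAt.fun_sum fun i _ => hm hD

theorem cfc_pow_mat {A : Mat n} (hA : A.IsHermitian) (k : ℕ) : cfc (fun t : ℝ => t ^ k) A = A ^ k :=
  cfc_pow_id A k hA.isSelfAdjoint

theorem eigen_bounds {A : ℝ → Mat n} {a b : ℝ} (hA : ∀ x ∈ Icc a b, (A x).PosDef)
    (hc : ∀ i j, ContinuousOn (fun y => A y i j) (Icc a b)) :
    ∃ lo hi : ℝ, 0 < lo ∧ lo ≤ hi ∧ ∀ x ∈ Icc a b, ∀ (h : (A x).IsHermitian) i,
      h.eigenvalues i ∈ Icc lo hi := by
  set K : Set (ℝ × (Fin n → ℝ)) := Icc a b ×ˢ {v | v ⬝ᵥ v = 1} with hK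
  have hKc : IsCompact K := by
    refine isCompact_Icc.prod (IsCompact.of_isClosed_subset
      (isCompact_univ_pi fun _ => isCompact_Icc (a := (-1 : ℝ)) (b := 1))
      (isClosed_eq (by fun_prop) continuous_const) fun v hv i _ => ?_)
    have h : v i * v i ≤ 1 := by
      rw [← mem_ofPred_eq.mp hv]
      exact Finset.single_le_sum (f := fun k => v k * v k) (fun k _ => mul_self_nonneg _)
        (Finset.mem_univ i)
    exact abs_le.mp (abs_le_one_iff_mul_self_le_one.mpr h)
  have hfc : ContinuousOn (fun p : ℝ × (Fin n → ℝ) => p.2 ⬝ᵥ (A p.1 *ᵥ p.2)) K := by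
    simp only [dotProduct, Matrix.mulVec]
    exact continuousOn_finsetSum _ fun i _ => (by fun_prop : Continuous fun p : ℝ × (Fin n → ℝ) =>
      p.2 i).continuousOn.mul (continuousOn_finsetSum _ fun j _ =>
        ((hc i j).comp continuous_fst.continuousOn fun p hp => hp.1).mul
          (by fun_prop : Continuous fun p : ℝ × (Fin n → ℝ) => p.2 j).continuousOn)
  have hmem : ∀ x ∈ Icc a b, ∀ (h : (A x).IsHermitian) (i : Fin n),
      (x, fun k => eU h k i) ∈ K := fun x hx h i => ⟨hx, eigen_norm h i⟩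
  by_cases hne : K.Nonempty
  swap
  · exact ⟨1, 1, one_pos, le_rfl, fun x hx h i => absurd ⟨_, hmem x hx h i⟩ hne⟩
  obtain ⟨p, hp, hmin⟩ := hKc.exists_isMinOn hne hfc
  obtain ⟨q, hq, hmax⟩ := hKc.exists_isMaxOn hne hfc
  refine ⟨p.2 ⬝ᵥ (A p.1 *ᵥ p.2), q.2 ⬝ᵥ (A q.1 *ᵥ q.2), ?_, hmin hq, fun x hx h i => ?_⟩
  · have h0 : p.2 ≠ 0 := fun h => by
      have := hp.2
      simp [h] at this
    simpa using (hA p.1 hp.1).dotProduct_mulVec_pos h0
  · rw [← eigen_qform h i]
    exact ⟨hmin (hmem x hx h i), hmax (hmem x hx h i)⟩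

/-- The trace of `h(A)`, `h x = x log x - x`, along a `C¹` path. -/
theorem trFn_hlog_sub {A A' : ℝ → Mat n} {a b : ℝ} (hab : a ≤ b)
    (hA : ∀ x ∈ Set.Icc a b, (A x).PosDef)
    (hd : ∀ x ∈ Set.Icc a b, ∀ i j, HasDerivWithinAt (fun y => A y i j) (A' x i j) (Set.Icc a b) x)
    (hc : ∀ i j, ContinuousOn (fun y => A' y i j) (Set.Icc a b)) :
    trFn (fun t => t * Real.log t - t) (A b) - trFn (fun t => t * Real.log t - t) (A a)
      = ∫ x in a..b, (cfc Real.log (A x) * A' x).trace := by
  have hAc : ∀ i j, ContinuousOn (fun y => A y i j) (Icc a b) := fun i j x hx =>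
    (hd x hx i j).continuousWithinAt
  obtain ⟨lo, hi, hlo, hlh, hmem⟩ := eigen_bounds hA hAc
  set h : ℝ → ℝ := fun t => t * Real.log t - t with hh
  set g := fun x => (cfc Real.log (A x) * A' x).trace
  obtain ⟨B, hB0, hB⟩ : ∃ B, 0 ≤ B ∧ ∀ x ∈ Icc a b, ∀ i j, |A' x i j| ≤ B := by
    obtain ⟨C, hC⟩ := (isCompact_Icc (a := a) (b := b)).exists_bound_of_continuousOn
      (continuousOn_finsetSum Finset.univ fun i _ => continuousOn_finsetSum Finset.univ fun j _ =>
        (hc i j).abs)
    refine ⟨|C|, abs_nonneg _, fun x hx i j => ?_⟩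
    have h1 := Finset.single_le_sum (f := fun j => |A' x i j|) (fun _ _ => abs_nonneg _)
      (Finset.mem_univ j)
    have h2 := Finset.single_le_sum (f := fun i => ∑ j, |A' x i j|)
      (fun _ _ => Finset.sum_nonneg fun _ _ => abs_nonneg _) (Finset.mem_univ i)
    have h3 := hC x hx
    rw [Real.norm_eq_abs] at h3
    linarith [le_abs_self (∑ i, ∑ j, |A' x i j|), le_abs_self C]
  set C := (n : ℝ) * ((n : ℝ) ^ 2 * B) with hCdef
  have key : ∀ ε > 0, ∃ g' : ℝ → ℝ, ContinuousOn g' (Icc a b) ∧
      (∀ x ∈ Icc a b, |g' x - g x| ≤ ε * C) ∧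
      |(trFn h (A b) - trFn h (A a)) - ∫ x in a..b, g' x| ≤ ε * (2 * n * (hi - lo)) := by
    intro ε hε
    obtain ⟨p, hp⟩ := exists_polynomial_near_of_continuousOn lo hi Real.log
      (Real.continuousOn_log.mono fun x hx => (hlo.trans_le hx.1).ne') ε hε
    set D := p.natDegree + 1
    set c := fun k => p.coeff k
    set P := fun t : ℝ => ∑ k ∈ Finset.range D, c k / ((k + 1 : ℕ) : ℝ) * t ^ (k + 1) with hP
    have hPd : ∀ t, HasDerivAt P (p.eval t) t := by
      intro t
      rw [Polynomial.eval_eq_sum_range]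
      refine HasDerivAt.fun_sum fun k _ => ((hasDerivAt_pow (k + 1) t).const_mul _).congr_deriv ?_
      simp only [Nat.add_sub_cancel, c]
      field_simp
    set g' := fun x => ∑ k ∈ Finset.range D, c k * (A x ^ k * A' x).trace with hg'
    have htrP : ∀ x ∈ Icc a b, trFn P (A x)
        = ∑ k ∈ Finset.range D, c k / ((k + 1 : ℕ) : ℝ) * (A x ^ (k + 1)).trace := by
      intro x hx
      have hH := (hA x hx).isHermitian
      simp only [trFn_eq hH, hP]
      rw [Finset.sum_comm]
      refine Finset.sum_congr rfl fun k _ => ?_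
      rw [← Finset.mul_sum, ← trFn_eq hH (fun t => t ^ (k + 1)), ← trace_cfc hH,
        cfc_pow_mat hH]
    have hder : ∀ x ∈ Icc a b, HasDerivWithinAt (fun y => trFn P (A y)) (g' x) (Icc a b) x := by
      intro x hx
      refine HasDerivWithinAt.congr ?_ htrP (htrP x hx)
      refine HasDerivWithinAt.fun_sum fun k _ =>
        ((hasDerivWithinAt_trace_pow (hd x hx) k).const_mul _).congr_deriv ?_
      field_simp
    have hgc : ContinuousOn g' (Icc a b) := by
      have hmA : ContinuousOn A (Icc a b) :=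
        continuousOn_pi.mpr fun i => continuousOn_pi.mpr fun j => hAc i j
      refine continuousOn_finsetSum _ fun k _ => continuousOn_const.mul ?_
      simp only [Matrix.trace, Matrix.diag, Matrix.mul_apply]
      exact continuousOn_finsetSum _ fun i _ => continuousOn_finsetSum _ fun j _ =>
        ((continuousOn_pi.mp (continuousOn_pi.mp (hmA.pow k) i) j)).mul (hc j i)
    refine ⟨g', hgc, fun x hx => ?_, ?_⟩
    · have hH := (hA x hx).isHermitian
      have e1 : g' x = ∑ i, ((eU hH)ᵀ * A' x * eU hH) i i * p.eval (hH.eigenvalues i) := by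
        simp only [Polynomial.eval_eq_sum_range, Finset.mul_sum]
        rw [Finset.sum_comm]
        refine Finset.sum_congr rfl fun k _ => ?_
        rw [trace_mul_comm, ← cfc_pow_mat hH k, trace_mul_cfc hH, Finset.mul_sum]
        exact Finset.sum_congr rfl fun i _ => by ring
      have e2 : g x = ∑ i, ((eU hH)ᵀ * A' x * eU hH) i i * Real.log (hH.eigenvalues i) := by
        show (cfc Real.log (A x) * A' x).trace = _
        rw [trace_mul_comm, trace_mul_cfc hH]
      rw [e1, e2, ← Finset.sum_sub_distrib]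
      refine (Finset.abs_sum_le_sum_abs _ _).trans ((Finset.sum_le_sum
        (g := fun _ => ε * ((n : ℝ) ^ 2 * B)) fun i _ => ?_).trans (le_of_eq (by simp [hCdef]; ring)))
      rw [← mul_sub, abs_mul, mul_comm ε]
      refine mul_le_mul ?_ (hp _ (hmem x hx hH i)).le (abs_nonneg _) (by positivity)
      simp only [Matrix.mul_apply, transpose_apply, Finset.sum_mul]
      refine (Finset.abs_sum_le_sum_abs _ _).trans ((Finset.sum_le_sum fun l _ =>
        Finset.abs_sum_le_sum_abs _ _).trans ((Finset.sum_le_sum fun l _ => Finset.sum_le_sum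
        (g := fun _ => B) fun j _ => ?_).trans (le_of_eq (by simp; ring))))
      rw [abs_mul, abs_mul]
      calc |eU hH j i| * |A' x j l| * |eU hH l i| ≤ 1 * B * 1 := by
            gcongr
            exacts [abs_eU_le hH j i, hB x hx j l, abs_eU_le hH l i]
        _ = B := by ring
    · have hftc : ∫ x in a..b, g' x = trFn P (A b) - trFn P (A a) :=
        intervalIntegral.integral_eq_sub_of_hasDerivAt_of_le hab
          (fun x hx => (hder x hx).continuousWithinAt)
          (fun x hx => (hder x (Ioo_subset_Icc_self hx)).hasDerivAt (Icc_mem_nhds hx.1 hx.2))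
          (ContinuousOn.intervalIntegrable (by rwa [uIcc_of_le hab]))
      have hmv : ∀ t ∈ Icc lo hi, |(P t - h t) - (P lo - h lo)| ≤ ε * (hi - lo) := by
        intro t ht
        have hbd := Convex.norm_image_sub_le_of_norm_hasDerivWithin_le (f := fun t => P t - h t)
          (f' := fun t => p.eval t - Real.log t) (C := ε) (fun y hy => ?_)
          (fun y hy => by rw [Real.norm_eq_abs]; exact (hp y hy).le) (convex_Icc lo hi)
          (left_mem_Icc.mpr hlh) ht
        · rw [Real.norm_eq_abs, Real.norm_eq_abs, abs_of_nonneg (sub_nonneg.mpr ht.1)] at hbd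
          exact hbd.trans (mul_le_mul_of_nonneg_left (by linarith [ht.2]) hε.le)
        · have h1 := ((hasDerivAt_id' y).mul (Real.hasDerivAt_log (hlo.trans_le hy.1).ne')).sub
            (hasDerivAt_id' y)
          refine ((hPd y).sub (h1.congr_deriv ?_)).hasDerivWithinAt
          have : y ≠ 0 := (hlo.trans_le hy.1).ne'
          field_simp
          ring
      rw [hftc, show trFn h (A b) - trFn h (A a) - (trFn P (A b) - trFn P (A a))
        = (trFn h (A b) - trFn P (A b) + n * (P lo - h lo))
          - (trFn h (A a) - trFn P (A a) + n * (P lo - h lo)) by ring]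
      have hend : ∀ x ∈ Icc a b,
          |trFn h (A x) - trFn P (A x) + n * (P lo - h lo)| ≤ n * (ε * (hi - lo)) := by
        intro x hx
        have hH := (hA x hx).isHermitian
        rw [trFn_eq hH, trFn_eq hH, ← Finset.sum_sub_distrib,
          show (n : ℝ) * (P lo - h lo) = ∑ _i : Fin n, (P lo - h lo) by simp [mul_sub],
          ← Finset.sum_add_distrib]
        refine (Finset.abs_sum_le_sum_abs _ _).trans ((Finset.sum_le_sum
          (g := fun _ => ε * (hi - lo)) fun i _ => ?_).trans (le_of_eq (by simp)))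
        rw [← abs_neg, show -(h (hH.eigenvalues i) - P (hH.eigenvalues i) + (P lo - h lo))
          = P (hH.eigenvalues i) - h (hH.eigenvalues i) - (P lo - h lo) by ring]
        exact hmv _ (hmem x hx hH i)
      refine (abs_sub _ _).trans ((add_le_add (hend b (right_mem_Icc.mpr hab))
        (hend a (left_mem_Icc.mpr hab))).trans (le_of_eq ?_))
      ring
  have hgc : ContinuousOn g (Icc a b) := by
    choose G hG1 hG2 _ using fun k : ℕ => key (1 / ((k : ℝ) + 1)) (by positivity)
    refine TendstoUniformlyOn.continuousOn (F := G) (p := atTop) ?_ (Eventually.of_forall hG1).frequently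
    rw [Metric.tendstoUniformlyOn_iff]
    intro ε hε
    have ht : Tendsto (fun k : ℕ => 1 / ((k : ℝ) + 1) * C) atTop (𝓝 0) := by
      simpa using tendsto_one_div_add_atTop_nhds_zero_nat.mul_const C
    filter_upwards [ht.eventually (eventually_lt_nhds hε)] with k hk x hx
    rw [dist_comm, Real.dist_eq]
    exact (hG2 k x hx).trans_lt hk
  refine sub_eq_zero.mp (abs_eq_zero.mp (le_antisymm ?_ (abs_nonneg _)))
  refine le_of_forall_pos_le_add fun δ hδ => ?_
  set M := 2 * n * (hi - lo) + C * (b - a)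
  have hM : 0 ≤ M := by
    have : 0 ≤ hi - lo := sub_nonneg.mpr hlh
    have : 0 ≤ b - a := sub_nonneg.mpr hab
    positivity
  obtain ⟨g', h1, h2, h3⟩ := key (δ / (M + 1)) (by positivity)
  have hi1 : IntervalIntegrable g' volume a b :=
    ContinuousOn.intervalIntegrable (by rwa [uIcc_of_le hab])
  have hi2 : IntervalIntegrable g volume a b :=
    ContinuousOn.intervalIntegrable (by rwa [uIcc_of_le hab])
  have h4 : |(∫ x in a..b, g' x) - ∫ x in a..b, g x| ≤ δ / (M + 1) * C * (b - a) := by
    rw [← intervalIntegral.integral_sub hi1 hi2, ← Real.norm_eq_abs]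
    refine (intervalIntegral.norm_integral_le_of_norm_le_const fun x hx => ?_).trans
      (le_of_eq (by rw [abs_of_nonneg (sub_nonneg.mpr hab)]))
    rw [uIoc_of_le hab] at hx
    exact h2 x ⟨hx.1.le, hx.2⟩
  have h5 : δ / (M + 1) * M ≤ δ := by
    rw [div_mul_eq_mul_div, div_le_iff₀ (by positivity)]
    nlinarith
  have h6 := abs_add_le ((trFn h (A b) - trFn h (A a)) - ∫ x in a..b, g' x)
    ((∫ x in a..b, g' x) - ∫ x in a..b, g x)
  rw [sub_add_sub_cancel] at h6
  have e : δ / (M + 1) * M = δ / (M + 1) * (2 * n * (hi - lo)) + δ / (M + 1) * C * (b - a) := by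
    simp only [M]; ring
  rw [zero_add]
  linarith

end

end Vale.Agent.P371.Full
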