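import Vale.Agent.P371.Full.MatExp
import Vale.Agent.P371.Full.MatPath
import Mathlib.Analysis.Convex.Jensen

/-! # M1: trace inequalities (Golden–Thompson is in `MatExp`, the logarithm in `MatLog`, `MatPath`) -/

namespace Vale.Agent.P371.Full

open MeasureTheory Matrix

noncomputable section

variable {n m : ℕ}

/-- Gibbs / Klein. -/
theorem gibbs {K l : Mat n} (hK : K.PosDef) (hl : l.IsHermitian) :
    (K * l).trace - trFn (fun k => k * Real.log k - k) K ≤ (cfc Real.exp l).trace := by
  have hK' := hK.isHermitian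
  set W := (eU hK')ᵀ * eU hl with hW
  have hWc : Wᵀ * W = 1 := by
    rw [hW, transpose_mul, transpose_transpose, Matrix.mul_assoc, ← Matrix.mul_assoc (eU hK'),
      eU_orth' hK', Matrix.one_mul, eU_orth hl]
  have hWr : W * Wᵀ = 1 := mul_eq_one_comm.mp hWc
  have hcol : ∀ j, ∑ i, W i j ^ 2 = 1 := fun j => by
    have := congrFun (congrFun hWc j) j
    simpa [Matrix.mul_apply, Matrix.one_apply, sq] using this
  have hrow : ∀ i, ∑ j, W i j ^ 2 = 1 := fun i => by
    have := congrFun (congrFun hWr i) i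
    simpa [Matrix.mul_apply, Matrix.one_apply, sq] using this
  set d := hK'.eigenvalues with hd
  set e := hl.eigenvalues with he
  have hd0 : ∀ i, 0 < d i := fun i => hK.eigenvalues_pos i
  have h1 : (K * l).trace = ∑ i, ∑ j, W i j ^ 2 * (d i * e j) := by
    have hl' : l = cfc id l := (cfc_id ℝ l hl).symm
    rw [hl', trace_mul_cfc hl id, Finset.sum_comm]
    refine Finset.sum_congr rfl fun j _ => ?_
    have h : (eU hl)ᵀ * K * eU hl = Wᵀ * diagonal d * W := by
      refine (congrArg (fun X => (eU hl)ᵀ * X * eU hl) (spectral hK')).trans ?_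
      rw [hW, transpose_mul, transpose_transpose]
      simp only [Matrix.mul_assoc, hd]
    rw [h]
    rw [Matrix.mul_apply]
    simp only [mul_diagonal, transpose_apply, Finset.sum_mul, id, ← he]
    exact Finset.sum_congr rfl fun i _ => by ring
  have h2 : (cfc Real.exp l).trace = ∑ i, ∑ j, W i j ^ 2 * Real.exp (e j) := by
    rw [trace_cfc hl, trFn_eq hl, Finset.sum_comm]
    exact Finset.sum_congr rfl fun j _ => by rw [← Finset.sum_mul, hcol, one_mul, he]
  have h3 : trFn (fun k => k * Real.log k - k) K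
      = ∑ i, ∑ j, W i j ^ 2 * (d i * Real.log (d i) - d i) := by
    rw [trFn_eq hK']
    exact Finset.sum_congr rfl fun i _ => by rw [← Finset.sum_mul, hrow, one_mul, hd]
  rw [h1, h2, h3, ← Finset.sum_sub_distrib]
  refine Finset.sum_le_sum fun i _ => ?_
  rw [← Finset.sum_sub_distrib]
  refine Finset.sum_le_sum fun j _ => ?_
  rw [← mul_sub]
  refine mul_le_mul_of_nonneg_left ?_ (sq_nonneg _)
  have h := Real.add_one_le_exp (e j - Real.log (d i))
  rw [Real.exp_sub, Real.exp_log (hd0 i), le_div_iff₀ (hd0 i)] at h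
  linarith

/-- Jensen for a contraction `U : Fin m → Fin n`. -/
theorem trFn_contraction_le {f : ℝ → ℝ} (hf : ConvexOn ℝ (Set.Ici 0) f) (h0 : f 0 = 0)
    (hn : ∀ x, 0 ≤ x → 0 ≤ f x) {U : Matrix (Fin n) (Fin m) ℝ} (hU : (1 - Uᵀ * U).PosSemidef)
    {W : Mat m} (hW : W.PosSemidef) :
    trFn f (U * W * Uᵀ) ≤ trFn f W := by
  have hV : (U * W * Uᵀ).IsHermitian := by
    have := (hW.mul_mul_conjTranspose_same U).isHermitian
    rwa [conjTranspose_eq_transpose_of_trivial] at this
  have hW' := hW.isHermitian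
  set M : Matrix (Fin n) (Fin m) ℝ := (eU hV)ᵀ * U * eU hW' with hM
  set lam := hV.eigenvalues with hlam
  set w := hW'.eigenvalues with hw
  have hw0 : ∀ j, 0 ≤ w j := fun j => hW.eigenvalues_nonneg j
  have hlamM : ∀ i, lam i = ∑ j, M i j ^ 2 * w j := by
    intro i
    have h : (eU hV)ᵀ * (U * W * Uᵀ) * eU hV = M * diagonal w * Mᵀ := by
      refine (congrArg (fun X => (eU hV)ᵀ * (U * X * Uᵀ) * eU hV) (spectral hW')).trans ?_
      rw [hM, transpose_mul, transpose_mul, transpose_transpose]
      simp only [Matrix.mul_assoc, hw]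
    have h' : (eU hV)ᵀ * (U * W * Uᵀ) * eU hV = diagonal lam := by
      refine (congrArg (fun X => (eU hV)ᵀ * X * eU hV) (spectral hV)).trans ?_
      simp only [Matrix.mul_assoc]
      rw [eU_orth hV, Matrix.mul_one, ← Matrix.mul_assoc, eU_orth hV, Matrix.one_mul, hlam]
    have := congrFun (congrFun (h'.symm.trans h) i) i
    rw [diagonal_apply_eq, Matrix.mul_apply] at this
    rw [this]
    exact Finset.sum_congr rfl fun j _ => by rw [mul_diagonal, transpose_apply]; ring
  have hcontr : ∀ v : Fin m → ℝ, (U *ᵥ v) ⬝ᵥ (U *ᵥ v) ≤ v ⬝ᵥ v := by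
    intro v
    have := hU.dotProduct_mulVec_nonneg v
    rw [sub_mulVec, one_mulVec, dotProduct_sub, star_trivial, sub_nonneg, ← mulVec_mulVec,
      dotProduct_mulVec, ← mulVec_transpose, transpose_transpose] at this
    exact this
  have hcontr' : ∀ z : Fin n → ℝ, (Uᵀ *ᵥ z) ⬝ᵥ (Uᵀ *ᵥ z) ≤ z ⬝ᵥ z := by
    intro z
    set v := Uᵀ *ᵥ z with hv
    have h1 : v ⬝ᵥ v = z ⬝ᵥ (U *ᵥ v) := by
      conv_rhs => rw [dotProduct_mulVec, ← mulVec_transpose, ← hv]
    have h2 := hcontr v
    have h3 : 2 * (z ⬝ᵥ (U *ᵥ v)) ≤ z ⬝ᵥ z + (U *ᵥ v) ⬝ᵥ (U *ᵥ v) := by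
      simp only [dotProduct, Finset.mul_sum, ← Finset.sum_add_distrib]
      exact Finset.sum_le_sum fun k _ => by nlinarith [sq_nonneg (z k - (U *ᵥ v) k)]
    linarith
  have hrow : ∀ i, ∑ j, M i j ^ 2 ≤ 1 := by
    intro i
    have e : (fun j => M i j) = (eU hW')ᵀ *ᵥ (Uᵀ *ᵥ fun k => eU hV k i) := by
      funext j
      rw [mulVec_mulVec, hM]
      simp only [Matrix.mulVec, dotProduct, Matrix.mul_apply, transpose_apply, Finset.sum_mul]
      rw [Finset.sum_comm]
      exact Finset.sum_congr rfl fun k _ => Finset.sum_congr rfl fun l _ => by ring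
    have h := normSq_eU hW' (Uᵀ *ᵥ fun k => eU hV k i)
    rw [← e] at h
    have h2 := hcontr' fun k => eU hV k i
    rw [eigen_norm hV i] at h2
    simp only [dotProduct, ← sq] at h h2 ⊢
    linarith
  have hcolsum : ∀ j, ∑ i, M i j ^ 2 ≤ 1 := by
    intro j
    have e : (fun i => M i j) = (eU hV)ᵀ *ᵥ (U *ᵥ fun k => eU hW' k j) := by
      funext i
      rw [mulVec_mulVec]
      simp [hM, Matrix.mul_apply, Matrix.mulVec, dotProduct]
    have h := normSq_eU hV (U *ᵥ fun k => eU hW' k j)
    rw [← e] at h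
    have h2 := hcontr fun k => eU hW' k j
    rw [eigen_norm hW' j] at h2
    simp only [dotProduct, ← sq] at h h2 ⊢
    linarith
  rw [trFn_eq hV, trFn_eq hW']
  calc ∑ i, f (lam i) ≤ ∑ i, ∑ j, M i j ^ 2 * f (w j) := by
        refine Finset.sum_le_sum fun i _ => ?_
        rw [hlamM i]
        -- Jensen with the remaining weight at `0`
        have h := hf.map_sum_le (t := Finset.univ)
          (w := fun o : Option (Fin m) => o.elim (1 - ∑ j, M i j ^ 2) fun j => M i j ^ 2)
          (p := fun o => o.elim 0 w) (fun o _ => by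
            cases o with
            | none => simpa using hrow i
            | some j => exact sq_nonneg _)
          (by simp [Fintype.sum_option])
          (fun o _ => by
            cases o with
            | none => simp
            | some j => exact hw0 j)
        simpa [Fintype.sum_option, h0] using h
    _ = ∑ j, (∑ i, M i j ^ 2) * f (w j) := by
        rw [Finset.sum_comm]; simp only [Finset.sum_mul]
    _ ≤ ∑ j, f (w j) :=
        Finset.sum_le_sum fun j _ => mul_le_of_le_one_left (hn _ (hw0 j)) (hcolsum j)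

end

end Vale.Agent.P371.Full
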