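import Vale.Agent.P371.Full.CalibSpec
import Vale.Agent.P371.Full.MatTools
import Mathlib.MeasureTheory.Integral.IntegralEqImproper

/-! # M2: the algebraic core of the calibration -/

namespace Vale.Agent.P371.Full

open MeasureTheory Matrix Filter Topology

noncomputable section

variable {N : ℕ}

/-- `R = √(κ² + s)`. -/
def Rd (κ : Fin N → ℝ) (s : ℝ) : Mat N := diagonal fun i => Real.sqrt (κ i ^ 2 + s)

/-- `X = κ² - S²`. -/
def Xm (κ : Fin N → ℝ) (S : Mat N) : Mat N := diagonal (fun i => κ i ^ 2) - S * S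

/-- `φ u = (1 + u) log (1 + u) - u`. -/
def phi (u : ℝ) : ℝ := (1 + u) * Real.log (1 + u) - u

lemma inv_sq_deriv {l : ℝ} (hl : 0 < l) : ∀ u ∈ Set.Ici (0 : ℝ),
    HasDerivAt (fun u => -(l + u)⁻¹) (((l + u) ^ 2)⁻¹) u := fun u hu => by
  have h0 : 0 < l + u := by linarith [Set.mem_Ici.1 hu]
  exact ((((hasDerivAt_id u).const_add l).inv h0.ne').neg).congr_deriv (by simp [neg_div])

lemma inv_sq_tendsto (l : ℝ) : Tendsto (fun u : ℝ => -(l + u)⁻¹) atTop (𝓝 0) := by
  simpa using (tendsto_inv_atTop_zero.comp (tendsto_atTop_add_const_left atTop l tendsto_id)).neg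

lemma integrableOn_inv_sq {l : ℝ} (hl : 0 < l) :
    IntegrableOn (fun u : ℝ => ((l + u) ^ 2)⁻¹) (Set.Ioi 0) :=
  integrableOn_Ioi_deriv_of_nonneg' (inv_sq_deriv hl)
    (fun u _ => by positivity) (inv_sq_tendsto l)

lemma integral_inv_sq {l : ℝ} (hl : 0 < l) :
    ∫ u in Set.Ioi (0 : ℝ), ((l + u) ^ 2)⁻¹ = l⁻¹ := by
  rw [integral_Ioi_of_hasDerivAt_of_tendsto' (inv_sq_deriv hl) (integrableOn_inv_sq hl)
    (inv_sq_tendsto l)]
  simp

lemma inv_shift {A : Mat N} (hA : A.PosDef) {u : ℝ} (hu : 0 ≤ u) :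
    (A + u • 1)⁻¹ = cfc (fun x => (x + u)⁻¹) A := by
  rw [smul_one_add hA.1, inv_eq_cfc hA.1]
  intro k
  linarith [hA.eigenvalues_pos k]

lemma sandwich_integrable {A : Mat N} (hA : A.PosDef) (Q R : Mat N) :
    IntegrableOn (fun u : ℝ => (Q * ((A + u • 1)⁻¹ * R * (A + u • 1)⁻¹)).trace) (Set.Ioi 0) := by
  have e : Set.EqOn (fun u : ℝ => ∑ k, ∑ l, ((evU hA.1)ᵀ * Q * evU hA.1) k l *
      ((evU hA.1)ᵀ * R * evU hA.1) l k *
        ((hA.1.eigenvalues l + u)⁻¹ * (hA.1.eigenvalues k + u)⁻¹))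
      (fun u => (Q * ((A + u • 1)⁻¹ * R * (A + u • 1)⁻¹)).trace) (Set.Ioi 0) := fun u hu => by
    simp only
    rw [inv_shift hA (Set.mem_Ioi.1 hu).le, ← Matrix.mul_assoc, ← Matrix.mul_assoc,
      trace_two_cfc hA.1]
  refine IntegrableOn.congr_fun ?_ e measurableSet_Ioi
  refine integrable_finsetSum _ fun k _ => integrable_finsetSum _ fun l _ => Integrable.const_mul ?_ _
  have hk := hA.eigenvalues_pos k
  have hl := hA.eigenvalues_pos l
  refine Integrable.mono' ((integrableOn_inv_sq hk).add (integrableOn_inv_sq hl)) ?_ ?_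
  · exact (((measurable_const.add measurable_id).inv).mul
      ((measurable_const.add measurable_id).inv)).aestronglyMeasurable
  · refine (ae_restrict_mem measurableSet_Ioi).mono fun u hu => ?_
    have h1 : 0 < hA.1.eigenvalues k + u := by linarith [Set.mem_Ioi.1 hu]
    have h2 : 0 < hA.1.eigenvalues l + u := by linarith [Set.mem_Ioi.1 hu]
    rw [Real.norm_of_nonneg (by positivity), Pi.add_apply, ← inv_pow, ← inv_pow]
    nlinarith [sq_nonneg ((hA.1.eigenvalues k + u)⁻¹ - (hA.1.eigenvalues l + u)⁻¹),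
      sq_nonneg ((hA.1.eigenvalues k + u)⁻¹ + (hA.1.eigenvalues l + u)⁻¹)]

/-- The key trace inequality, before integration. -/
lemma sandwich_le {A : Mat N} (hA : A.PosDef) {r : Fin N → ℝ} (hr : ∀ i, 0 < r i) {u : ℝ}
    (hu : 0 ≤ u) :
    ((A * diagonal r + diagonal r * A - A * A) *
        ((A + u • 1)⁻¹ * diagonal (fun i => 1 / (2 * r i)) * (A + u • 1)⁻¹)).trace
      ≤ ∑ k, (hA.1.eigenvalues k - wgt hA.1 (diagonal (fun i => 1 / (2 * r i))) k *
          hA.1.eigenvalues k ^ 2) * ((hA.1.eigenvalues k + u) ^ 2)⁻¹ := by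
  set d : ℝ → ℝ := fun x => (x + u)⁻¹ with hd
  set D := cfc d A with hD
  set e : ℝ → ℝ := fun x => x * (x + u)⁻¹ with he
  set Z := cfc e A with hZ
  set R := diagonal r with hR
  set R' := diagonal (fun i => 1 / (2 * r i)) with hR'
  have hpos : ∀ k, 0 < hA.1.eigenvalues k + u := fun k => by linarith [hA.eigenvalues_pos k]
  have hAD : A * D = Z := by
    conv_lhs => arg 1; rw [← cfc_id_eq hA.1]
    rw [hD, cfc_mul_eig hA.1]
  have hDA : D * A = Z := by
    conv_lhs => arg 2; rw [← cfc_id_eq hA.1]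
    rw [hD, cfc_mul_eig hA.1]
    exact cfc_congr_eig hA.1 fun k => mul_comm _ _
  have hZD : Z = 1 - u • D := by
    rw [eq_sub_iff_add_eq, hD, cfc_smul_eig hA.1, hZ, cfc_add_eig hA.1,
      cfc_congr_eig hA.1 (g := fun _ => 1) (fun k => by
        simp only [he, hd]; have := (hpos k).ne'; field_simp),
      cfc_const_eig hA.1, one_smul]
  have hDt : Dᵀ = D := by
    rw [← conjTranspose_eq_transpose_of_trivial]; exact cfc_herm d A
  have hZt : Zᵀ = Z := by
    rw [← conjTranspose_eq_transpose_of_trivial]; exact cfc_herm e A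
  have hsym : (D * R * Z * R').trace = (Z * R * D * R').trace := by
    rw [← Matrix.trace_transpose (D * R * Z * R')]
    simp only [transpose_mul, hDt, hZt, hR, hR', diagonal_transpose]
    rw [Matrix.trace_mul_comm]
    simp only [Matrix.mul_assoc]
  have hRR : (R * D * R').trace = D.trace / 2 := by
    simp only [hR, hR', Matrix.trace, Matrix.diag, mul_diagonal, diagonal_mul]
    rw [Finset.sum_div]
    refine Finset.sum_congr rfl fun i _ => ?_
    have := (hr i).ne'
    field_simp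
  have hAM : (D * D).trace / 2 ≤ (D * R * D * R').trace := by
    have hent : ∀ i j, D j i = D i j := fun i j => congrFun (congrFun hDt i) j
    have e1 : (D * R * D * R').trace = ∑ i, ∑ j, D i j ^ 2 * (r j / (2 * r i)) := by
      simp only [hR, hR', Matrix.trace, Matrix.diag, mul_diagonal]
      refine Finset.sum_congr rfl fun i _ => ?_
      rw [mul_apply, Finset.sum_mul]
      refine Finset.sum_congr rfl fun j _ => ?_
      rw [mul_diagonal, hent i j]
      ring
    have e2 : (D * D).trace = ∑ i, ∑ j, D i j ^ 2 := by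
      simp only [Matrix.trace, Matrix.diag, mul_apply]
      exact Finset.sum_congr rfl fun i _ => Finset.sum_congr rfl fun j _ => by rw [hent, sq]
    have e3 : ∑ i, ∑ j, D i j ^ 2 * (r j / (2 * r i)) = ∑ i, ∑ j, D i j ^ 2 * (r i / (2 * r j)) := by
      rw [Finset.sum_comm]
      exact Finset.sum_congr rfl fun i _ => Finset.sum_congr rfl fun j _ => by rw [hent]
    have e4 : ∑ i, ∑ j, D i j ^ 2 ≤ ∑ i, ∑ j, D i j ^ 2 * (r j / (2 * r i)) +
        ∑ i, ∑ j, D i j ^ 2 * (r i / (2 * r j)) := by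
      rw [← Finset.sum_add_distrib]
      refine Finset.sum_le_sum fun i _ => ?_
      rw [← Finset.sum_add_distrib]
      refine Finset.sum_le_sum fun j _ => ?_
      rw [← mul_add]
      refine le_mul_of_one_le_right (sq_nonneg _) ?_
      rw [div_add_div _ _ (by linarith [hr i]) (by linarith [hr j]),
        le_div_iff₀ (by have := hr i; have := hr j; positivity)]
      nlinarith [sq_nonneg (r i - r j)]
    rw [e1, e2]
    linarith
  have hexp : ((A * R + R * A - A * A) * (D * R' * D)).trace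
      = 2 * (R * D * R').trace - 2 * u * (D * R * D * R').trace - (R' * (Z * Z)).trace := by
    have e1 : ((A * R + R * A - A * A) * (D * R' * D)).trace
        = (D * (A * R + R * A - A * A) * D * R').trace := by
      rw [← Matrix.mul_assoc, Matrix.trace_mul_comm]
      simp only [Matrix.mul_assoc]
    have e2 : D * (A * R + R * A - A * A) * D = Z * R * D + D * R * Z - Z * Z := by
      calc D * (A * R + R * A - A * A) * D
          = (D * A) * R * D + D * R * (A * D) - (D * A) * (A * D) := by noncomm_ring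
        _ = _ := by rw [hDA, hAD]
    rw [e1, e2, Matrix.sub_mul, Matrix.add_mul, Matrix.trace_sub, Matrix.trace_add, hsym,
      Matrix.trace_mul_comm (Z * Z) R']
    nth_rewrite 1 [hZD]
    nth_rewrite 1 [hZD]
    simp only [Matrix.sub_mul, Matrix.one_mul, Matrix.smul_mul, Matrix.trace_sub,
      Matrix.trace_smul, smul_eq_mul]
    ring
  rw [inv_shift hA hu, ← hD, hexp, hRR]
  have hbound : 2 * (D.trace / 2) - 2 * u * (D * R * D * R').trace - (R' * (Z * Z)).trace
      ≤ D.trace - u * (D * D).trace - (R' * (Z * Z)).trace := by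
    nlinarith [mul_le_mul_of_nonneg_left hAM hu]
  refine hbound.trans (le_of_eq ?_)
  have t1 : D.trace = ∑ k, (hA.1.eigenvalues k + u)⁻¹ := by
    rw [← Matrix.one_mul D, hD, trace_mul_wgt hA.1]
    exact Finset.sum_congr rfl fun k _ => by simp [wgt, mul_evU hA.1, hd]
  have t2 : (D * D).trace = ∑ k, ((hA.1.eigenvalues k + u)⁻¹) ^ 2 := by
    rw [hD, cfc_mul_eig hA.1, ← Matrix.one_mul (cfc _ A), trace_mul_wgt hA.1]
    exact Finset.sum_congr rfl fun k _ => by simp [wgt, mul_evU hA.1, hd, sq]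
  rw [t1, t2, hZ, cfc_mul_eig hA.1, trace_mul_wgt hA.1, Finset.mul_sum, ← Finset.sum_sub_distrib,
    ← Finset.sum_sub_distrib]
  refine Finset.sum_congr rfl fun k _ => ?_
  have := (hpos k).ne'
  simp only [he]
  field_simp
  ring

/-- The key trace inequality. -/
lemma sandwich_integral_le {A : Mat N} (hA : A.PosDef) {r : Fin N → ℝ} (hr : ∀ i, 0 < r i) :
    ∫ u in Set.Ioi (0 : ℝ), ((A * diagonal r + diagonal r * A - A * A) *
        ((A + u • 1)⁻¹ * diagonal (fun i => 1 / (2 * r i)) * (A + u • 1)⁻¹)).trace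
      ≤ (N : ℝ) - (diagonal (fun i => 1 / (2 * r i)) * A).trace := by
  have hint : ∀ k, IntegrableOn (fun u : ℝ => (hA.1.eigenvalues k -
      wgt hA.1 (diagonal (fun i => 1 / (2 * r i))) k * hA.1.eigenvalues k ^ 2) *
        ((hA.1.eigenvalues k + u) ^ 2)⁻¹) (Set.Ioi 0) := fun k =>
    Integrable.const_mul (integrableOn_inv_sq (hA.eigenvalues_pos k)) _
  refine (setIntegral_mono_on (sandwich_integrable hA _ _) (integrable_finsetSum _ fun k _ => hint k)
    measurableSet_Ioi fun u hu => sandwich_le hA hr (Set.mem_Ioi.1 hu).le).trans (le_of_eq ?_)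
  rw [integral_finsetSum _ fun k _ => hint k]
  conv_rhs => arg 2; arg 1; arg 2; rw [← cfc_id_eq hA.1]
  rw [trace_mul_wgt hA.1]
  have e : ∀ k, ∫ u in Set.Ioi (0 : ℝ), (hA.1.eigenvalues k -
      wgt hA.1 (diagonal (fun i => 1 / (2 * r i))) k * hA.1.eigenvalues k ^ 2) *
        ((hA.1.eigenvalues k + u) ^ 2)⁻¹ =
      1 - wgt hA.1 (diagonal (fun i => 1 / (2 * r i))) k * hA.1.eigenvalues k := fun k => by
    rw [integral_const_mul, integral_inv_sq (hA.eigenvalues_pos k)]
    have := (hA.eigenvalues_pos k).ne'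
    field_simp
  simp only [e, Finset.sum_sub_distrib]
  simp

variable {κ : Fin N → ℝ} (hκ : ∀ i, 0 < κ i) {S : Mat N}
  (hu : (diagonal κ - S).PosSemidef) (hl : (diagonal κ + S).PosSemidef)

include hκ

lemma gap_posDef {s : ℝ} (hs : 0 < s) : (Rd κ s - diagonal κ).PosDef := by
  rw [Rd, diagonal_sub, posDef_diagonal_iff]
  intro i
  have : κ i < Real.sqrt (κ i ^ 2 + s) := (Real.lt_sqrt (hκ i).le).2 (by linarith)
  linarith

include hl in
lemma posDef_add {s : ℝ} (hs : 0 < s) : (Rd κ s + S).PosDef := by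
  have h := (gap_posDef hκ hs).add_posSemidef hl
  rwa [show Rd κ s - diagonal κ + (diagonal κ + S) = Rd κ s + S by abel] at h

include hu in
lemma posDef_sub {s : ℝ} (hs : 0 < s) : (Rd κ s - S).PosDef := by
  have h := (gap_posDef hκ hs).add_posSemidef hu
  rwa [show Rd κ s - diagonal κ + (diagonal κ - S) = Rd κ s - S by abel] at h

lemma Rd_mul_Rd {s : ℝ} (hs : 0 ≤ s) :
    Rd κ s * Rd κ s = diagonal (fun i => κ i ^ 2) + s • 1 := by
  have := hκ
  rw [Rd, diagonal_mul_diagonal, smul_one_eq_diagonal, diagonal_add]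
  congr 1
  funext i
  exact Real.mul_self_sqrt (by positivity)

include hu hl in
/-- Golden-Thompson and Gibbs. -/
lemma klein {s : ℝ} (hs : 0 < s) {V : Mat N} (hV : V.PosSemidef) :
    s * (ell κ S s).trace + (ell κ S s * V).trace
      ≤ (Xm κ S).trace + ∑ i, s * phi (hV.1.eigenvalues i / s) := by
  set A := Rd κ s + S with hA'
  set B := Rd κ s - S with hB'
  have hA : A.PosDef := posDef_add hκ hl hs
  have hB : B.PosDef := posDef_sub hκ hu hs
  have hlB : cfc Real.log B - Real.log s • (1 : Mat N) =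
      cfc (fun x => Real.log x + -Real.log s) B := by
    rw [← cfc_add_eig hB.1, cfc_const_eig hB.1]
    simp [sub_eq_add_neg]
  have hl' : ell κ S s = cfc Real.log A + cfc (fun x => Real.log x + -Real.log s) B := by
    rw [← hlB, ell]; simp only [A, B, Rd]; abel
  have hlh : (ell κ S s).IsHermitian := hl' ▸ (cfc_herm _ A).add (cfc_herm _ B)
  have hgt := trace_exp_add_le (cfc_herm Real.log A) (cfc_herm (fun x => Real.log x + -Real.log s) B)
  rw [← hl', cfc_comp_eig hA.1, cfc_comp_eig hB.1,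
    cfc_congr_eig hA.1 (g := fun x => x) (fun k => Real.exp_log (hA.eigenvalues_pos k)),
    cfc_congr_eig hB.1 (g := fun x => s⁻¹ * x) (fun k => by
      rw [Real.exp_add, Real.exp_log (hB.eigenvalues_pos k), Real.exp_neg, Real.exp_log hs,
        mul_comm]),
    cfc_id_eq hA.1, ← cfc_smul_eig hB.1, cfc_id_eq hB.1, Matrix.mul_smul, Matrix.trace_smul,
    smul_eq_mul] at hgt
  have hAB : (A * B).trace = (Xm κ S).trace + s * N := by
    have e : A * B = Rd κ s * Rd κ s - Rd κ s * S + S * Rd κ s - S * S := by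
      simp only [A, B]; noncomm_ring
    rw [e, Rd_mul_Rd hκ hs.le, Xm]
    simp only [Matrix.trace_sub, Matrix.trace_add, Matrix.trace_smul, Matrix.trace_one,
      Fintype.card_fin, smul_eq_mul]
    rw [Matrix.trace_mul_comm S (Rd κ s)]
    ring
  set K := cfc (fun x => 1 + s⁻¹ * x) V with hK
  have hK1 : K = 1 + s⁻¹ • V := by
    rw [hK, ← cfc_add_eig hV.1, cfc_const_eig hV.1, ← cfc_smul_eig hV.1, cfc_id_eq hV.1, one_smul]
  have hKp : K.PosDef := by
    rw [hK1]
    exact PosDef.one.add_posSemidef (hV.smul (by positivity))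
  have hg := gibbs hKp hlh
  have hKl : (K * ell κ S s).trace = (ell κ S s).trace + s⁻¹ * (ell κ S s * V).trace := by
    rw [hK1, Matrix.add_mul, Matrix.one_mul, Matrix.smul_mul, Matrix.trace_add, Matrix.trace_smul,
      Matrix.trace_mul_comm V, smul_eq_mul]
  have hphi : trFn (fun k => k * Real.log k - k) K
      = ∑ i, (phi (hV.1.eigenvalues i / s) - 1) := by
    rw [trFn_eq_trace hKp.1, hK, cfc_comp_eig hV.1, ← trFn_eq_trace hV.1, trFn, dif_pos hV.1]
    refine Finset.sum_congr rfl fun i _ => ?_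
    rw [phi, div_eq_inv_mul]
    ring
  rw [hKl, hphi] at hg
  rw [hAB] at hgt
  have h := mul_le_mul_of_nonneg_left (hg.trans hgt) hs.le
  rw [mul_sub, mul_add, ← mul_assoc, mul_inv_cancel₀ hs.ne', one_mul, ← mul_assoc,
    mul_inv_cancel₀ hs.ne', one_mul, Finset.mul_sum] at h
  have e : ∑ i, s * (phi (hV.1.eigenvalues i / s) - 1)
      = (∑ i, s * phi (hV.1.eigenvalues i / s)) - s * N := by
    simp [mul_sub, Finset.sum_sub_distrib, mul_comm]
  linarith

end

end Vale.Agent.P371.Full
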