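import Vale.Agent.P371.Full.Calib
import Mathlib.MeasureTheory.Integral.Prod
import Mathlib.Analysis.SpecialFunctions.Log.NegMulLog

/-! # M2b: the inequality along a Riccati path -/

namespace Vale.Agent.P371.Full

open MeasureTheory Matrix Filter Topology

noncomputable section

variable {N : ℕ}

/-! ## The value of the endpoint term -/

lemma log_integral {a : ℝ} (ha : 0 < a) {w : ℝ} (hw : 0 ≤ w) :
    ∫ s in Set.Ioi (0 : ℝ), s ^ (a - 1) * Real.log (1 + w / s) = w ^ a * cNorm a := by
  rcases hw.eq_or_lt with rfl | hw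
  · rw [Real.zero_rpow ha.ne']
    simp
  · have e : ∀ s ∈ Set.Ioi (0 : ℝ), s ^ (a - 1) * Real.log (1 + w / s)
        = w ^ (a - 1) * ((w⁻¹ * s) ^ (a - 1) * Real.log (1 + 1 / (w⁻¹ * s))) := by
      intro s hs
      have hs' : 0 < s := hs
      rw [Real.mul_rpow (by positivity) hs'.le, Real.inv_rpow hw.le,
        show 1 / (w⁻¹ * s) = w / s by field_simp]
      have : w ^ (a - 1) ≠ 0 := (Real.rpow_pos_of_pos hw _).ne'
      field_simp
    rw [setIntegral_congr_fun measurableSet_Ioi e, integral_const_mul,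
      integral_comp_mul_left_Ioi (fun x => x ^ (a - 1) * Real.log (1 + 1 / x)) 0 (inv_pos.2 hw),
      mul_zero, smul_eq_mul, inv_inv, ← cNorm, ← mul_assoc, ← Real.rpow_add_one hw.ne',
      sub_add_cancel]

/-- `∫_{-k}^{k} log (1 + (k² - t²)/s) dt`. -/
def endVal (k s : ℝ) : ℝ := ∫ t in (-k)..k, Real.log (1 + (k ^ 2 - t ^ 2) / s)

/-- `h x = x log x - x`. -/
def hlog (x : ℝ) : ℝ := x * Real.log x - x

lemma endVal_eq {k s : ℝ} (hk : 0 < k) (hs : 0 < s) :
    endVal k s = 2 * (hlog (Real.sqrt (k ^ 2 + s) + k) - hlog (Real.sqrt (k ^ 2 + s) - k))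
      - 2 * k * Real.log s := by
  set R := Real.sqrt (k ^ 2 + s) with hR
  have hkR : k < R := (Real.lt_sqrt hk.le).2 (by linarith)
  have hRR : R * R = k ^ 2 + s := Real.mul_self_sqrt (by positivity)
  have hh : ∀ x : ℝ, x ≠ 0 → HasDerivAt hlog (Real.log x) x := fun x hx =>
    ((Real.hasDerivAt_mul_log hx).sub (hasDerivAt_id' x)).congr_deriv (by ring)
  have hd : ∀ t ∈ Set.uIcc (-k) k,
      HasDerivAt (fun y => hlog (R + y) - hlog (R - y) - Real.log s * y)
        (Real.log (1 + (k ^ 2 - t ^ 2) / s)) t := by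
    intro t ht
    rw [Set.uIcc_of_le (by linarith)] at ht
    have h1 : 0 < R + t := by linarith [ht.1]
    have h2 : 0 < R - t := by linarith [ht.2]
    have d1 := (hh _ h1.ne').comp t ((hasDerivAt_id' t).const_add R)
    have d2 := (hh _ h2.ne').comp t ((hasDerivAt_id' t).const_sub R)
    refine ((d1.sub d2).sub ((hasDerivAt_id' t).const_mul (Real.log s))).congr_deriv ?_
    have e : 1 + (k ^ 2 - t ^ 2) / s = (R + t) * (R - t) / s := by
      rw [show (R + t) * (R - t) = R * R - t ^ 2 by ring, hRR]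
      field_simp
      ring
    rw [e, Real.log_div (by positivity) hs.ne', Real.log_mul h1.ne' h2.ne']
    ring
  have hpos : ∀ t ∈ Set.uIcc (-k) k, 1 + (k ^ 2 - t ^ 2) / s ≠ 0 := fun t ht => by
    rw [Set.uIcc_of_le (by linarith)] at ht
    have : 0 ≤ k ^ 2 - t ^ 2 := by nlinarith [ht.1, ht.2]
    positivity
  rw [endVal, intervalIntegral.integral_eq_sub_of_hasDerivAt hd
    (ContinuousOn.intervalIntegrable ((by fun_prop : Continuous fun t : ℝ =>
      1 + (k ^ 2 - t ^ 2) / s).continuousOn.log hpos)), sub_neg_eq_add, ← sub_eq_add_neg]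
  ring

lemma endVal_integral {a : ℝ} (ha : 0 < a) (ha1 : a < 1) {k : ℝ} (hk : 0 < k) :
    IntegrableOn (fun s => s ^ (a - 1) * endVal k s) (Set.Ioi 0) ∧
    ∫ s in Set.Ioi (0 : ℝ), s ^ (a - 1) * endVal k s = cNorm a * (bInt a * k ^ (2 * a + 1)) := by
  set g : ℝ → ℝ → ℝ := fun t s => s ^ (a - 1) * Real.log (1 + (k ^ 2 - t ^ 2) / s) with hg
  have hkk : -k ≤ k := by linarith
  set U := Set.Icc (-k) k ×ˢ Set.Ioi (0 : ℝ)
  have hU : ∀ p ∈ U, 0 ≤ (k ^ 2 - p.1 ^ 2) / p.2 ∧ (k ^ 2 - p.1 ^ 2) / p.2 ≤ k ^ 2 / p.2 := by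
    rintro ⟨t, s⟩ ⟨ht, hs⟩
    have hs' : 0 < s := hs
    have : 0 ≤ k ^ 2 - t ^ 2 := by nlinarith [ht.1, ht.2]
    exact ⟨by positivity, div_le_div_of_nonneg_right (by nlinarith) hs'.le⟩
  have hc : ContinuousOn (Function.uncurry g) U := by
    have h1 : ContinuousOn (fun p : ℝ × ℝ => 1 + (k ^ 2 - p.1 ^ 2) / p.2) U :=
      continuousOn_const.add ((continuousOn_const.sub (continuousOn_fst.pow 2)).div continuousOn_snd
        fun p hp => ne_of_gt hp.2)
    exact (continuousOn_snd.rpow_const fun p hp => Or.inl (ne_of_gt hp.2)).mul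
      (h1.log fun p hp => ne_of_gt (by have := (hU p hp).1; linarith))
  have hi : Integrable (Function.uncurry g)
      ((volume.restrict (Set.Ioc (-k) k)).prod (volume.restrict (Set.Ioi 0))) := by
    refine Integrable.mono' ((integrable_const (1 : ℝ)).mul_prod
      ((tame_log (b := 1) one_pos (sq_nonneg k)).integrableOn ha ha1)) ?_ ?_
    · rw [Measure.prod_restrict]
      exact (hc.mono (Set.prod_mono Set.Ioc_subset_Icc_self le_rfl)).aestronglyMeasurable
        (measurableSet_Ioc.prod measurableSet_Ioi)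
    · rw [Measure.prod_restrict]
      refine (ae_restrict_mem (measurableSet_Ioc.prod measurableSet_Ioi)).mono fun p hp => ?_
      obtain ⟨h0, h1⟩ := hU p ⟨Set.Ioc_subset_Icc_self hp.1, hp.2⟩
      have hs : 0 < p.2 := hp.2
      simp only [Function.uncurry, g, one_mul]
      rw [Real.norm_of_nonneg (mul_nonneg (Real.rpow_nonneg hs.le _)
        (Real.log_nonneg (by linarith)))]
      exact mul_le_mul_of_nonneg_left (Real.log_le_log (by linarith) (by linarith))
        (Real.rpow_nonneg hs.le _)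
  have e : ∀ s, s ^ (a - 1) * endVal k s = ∫ t in Set.Ioc (-k) k, g t s := fun s => by
    rw [endVal, intervalIntegral.integral_of_le hkk, ← integral_const_mul]
  simp only [e]
  refine ⟨hi.integral_prod_right, ?_⟩
  rw [← integral_integral_swap hi]
  have e2 : ∀ t ∈ Set.Ioc (-k) k,
      (∫ s in Set.Ioi (0 : ℝ), g t s) = (k ^ 2 - t ^ 2) ^ a * cNorm a := fun t ht =>
    log_integral ha (by nlinarith [ht.1, ht.2])
  rw [setIntegral_congr_fun measurableSet_Ioc e2, integral_mul_const, ← intervalIntegral.integral_of_le hkk,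
    mul_comm]
  congr 1
  have h := intervalIntegral.integral_comp_mul_left (fun t => (k ^ 2 - t ^ 2) ^ a) hk.ne'
    (a := (-1 : ℝ)) (b := 1)
  rw [mul_neg_one, mul_one, smul_eq_mul] at h
  have e3 : ∫ u in (-1 : ℝ)..1, (k ^ 2 - (k * u) ^ 2) ^ a = (k ^ 2) ^ a * bInt a := by
    rw [bInt, ← intervalIntegral.integral_const_mul]
    refine intervalIntegral.integral_congr fun u hu => ?_
    rw [Set.uIcc_of_le (by norm_num)] at hu
    have h0 : 0 ≤ 1 - u ^ 2 := by nlinarith [hu.1, hu.2]
    change _ = (k ^ 2) ^ a * (1 - u ^ 2) ^ a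
    rw [← Real.mul_rpow (sq_nonneg k) h0]
    congr 1
    ring
  rw [e3, inv_mul_eq_div, eq_div_iff hk.ne'] at h
  rw [← h, Real.rpow_add_one hk.ne', Real.rpow_mul hk.le, Real.rpow_two]
  ring

/-! ## Matrices along the path -/

variable {κ : Fin N → ℝ} (hκ : ∀ i, 0 < κ i)

lemma psd_cfc {A : Mat N} (hA : A.IsHermitian) {f : ℝ → ℝ}
    (h : ∀ k, 0 ≤ f (hA.eigenvalues k)) : (cfc f A).PosSemidef := by
  rw [cfc_eq_conj hA]
  have h2 := (PosSemidef.diagonal h).mul_mul_conjTranspose_same (evU hA)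
  rwa [conjTranspose_eq_transpose_of_trivial] at h2

lemma eig_le_absSum {A : Mat N} (hA : A.IsHermitian) (k : Fin N) :
    hA.eigenvalues k ≤ absSum A := by
  rw [← conj_eig hA k]
  exact (le_abs_self _).trans (abs_conj_le hA A k k)

lemma trFn_diagonal (f : ℝ → ℝ) (d : Fin N → ℝ) : trFn f (diagonal d) = ∑ i, f (d i) := by
  rw [trFn_eq_trace (isHermitian_diagonal d), cfc_diagonal_eq, trace_diagonal]

include hκ in
lemma sqrt_gap {c d s : ℝ} (hc : 0 < c) (h1 : c ≤ s) (h2 : s ≤ d) (i : Fin N) :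
    c / (2 * Real.sqrt (bnd κ ^ 2 + d)) + κ i ≤ Real.sqrt (κ i ^ 2 + s) ∧
      Real.sqrt (κ i ^ 2 + s) + κ i ≤ 2 * Real.sqrt (bnd κ ^ 2 + d) := by
  have hs : 0 < s := hc.trans_le h1
  have hR : Real.sqrt (κ i ^ 2 + s) ≤ Real.sqrt (bnd κ ^ 2 + d) := Real.sqrt_le_sqrt
    (add_le_add (pow_le_pow_left₀ (hκ i).le (le_bnd hκ i) 2) h2)
  have hk : κ i ≤ Real.sqrt (κ i ^ 2 + s) := Real.le_sqrt_of_sq_le (by linarith)
  have hr := Real.mul_self_sqrt (show 0 ≤ κ i ^ 2 + s by positivity)
  have hpos : 0 < Real.sqrt (bnd κ ^ 2 + d) := by linarith [hκ i]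
  refine ⟨?_, by linarith⟩
  rw [← le_sub_iff_add_le, div_le_iff₀ (by positivity)]
  nlinarith [mul_le_mul_of_nonneg_left (add_le_add hR (hk.trans hR)) (sub_nonneg.2 hk)]

include hκ in
lemma continuousOn_trace_log {L : ℝ} {T G : ℝ → Mat N}
    (hu : ∀ x ∈ Set.Icc (-L) L, (diagonal κ - T x).PosSemidef)
    (hl : ∀ x ∈ Set.Icc (-L) L, (diagonal κ + T x).PosSemidef)
    (cT : ContinuousOn T (Set.Icc (-L) L)) (cG : ContinuousOn G (Set.Icc (-L) L)) :
    ContinuousOn (fun p : ℝ × ℝ => (G p.1 * cfc Real.log (Rd κ p.2 + T p.1)).trace)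
      (Set.Icc (-L) L ×ˢ Set.Ioi 0) := by
  rintro ⟨x, s⟩ ⟨hx, hs⟩
  have hs' : 0 < s := hs
  set c := s / 2
  set d := 2 * s
  have hc : 0 < c := by positivity
  have hlo : 0 < c / (2 * Real.sqrt (bnd κ ^ 2 + d)) := by positivity
  have cRd : Continuous fun p : ℝ × ℝ => Rd κ p.2 := by
    unfold Rd
    exact Continuous.matrix_diagonal (by fun_prop)
  have hsub : ∀ p : ℝ × ℝ, p ∈ Set.Icc (-L) L ×ˢ Set.Icc c d → p.1 ∈ Set.Icc (-L) L :=
    fun p hp => hp.1
  have h := continuousOn_trace_cfc (s := Set.Icc (-L) L ×ˢ Set.Icc c d)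
    (F := fun p : ℝ × ℝ => Rd κ p.2 + T p.1) (G := fun p => G p.1)
    (Real.continuousOn_log.mono fun y (hy : y ∈ Set.Icc (c / (2 * Real.sqrt (bnd κ ^ 2 + d)))
      (2 * Real.sqrt (bnd κ ^ 2 + d))) => ne_of_gt (hlo.trans_le hy.1))
    (fun p hp => herm_add hκ (hl _ hp.1) (hc.trans_le hp.2.1))
    (fun p hp => le_add hκ (hl _ hp.1) fun i => (sqrt_gap hκ hc hp.2.1 hp.2.2 i).1)
    (fun p hp => add_le' hκ (hu _ hp.1) fun i => (sqrt_gap hκ hc hp.2.1 hp.2.2 i).2)
    (cRd.continuousOn.add (cT.comp continuousOn_fst hsub)) (cG.comp continuousOn_fst hsub)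
  refine (h (x, s) ⟨hx, by simp only [c]; linarith, by simp only [d]; linarith⟩).mono_of_mem_nhdsWithin ?_
  rw [nhdsWithin_prod_eq, nhdsWithin_eq_nhds.2 (Ioi_mem_nhds hs')]
  exact prod_mem_prod self_mem_nhdsWithin
    (Icc_mem_nhds (by simp only [c]; linarith) (by simp only [d]; linarith))

/-! ## The inequality along the path -/

theorem calib_path {a : ℝ} (ha : 0 < a) (ha1 : a < 1) {N : ℕ} {κ : Fin N → ℝ} (hκ : ∀ i, 0 < κ i)
    {V S : ℝ → Mat N} {L : ℝ} (h : IsLift κ V S L) :
    bInt a * ∑ i, κ i ^ (2 * a + 1)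
      ≤ 1 / a * (a / (1 + a)) ^ (1 + a) * ∫ x in (-L)..L, trFn (fun v => v ^ (1 + a)) (V x) := by
  have hLL : -L ≤ L := by linarith [h.pos]
  set I := Set.Icc (-L) L with hI
  set M : ℝ → Mat N := fun x => diagonal (fun i => κ i ^ 2) - S x * S x - V x with hM
  have cS : ContinuousOn S I := continuousOn_pi.2 fun i => continuousOn_pi.2 fun j =>
    fun x hx => (h.ricc x hx i j).continuousWithinAt
  have cM : ContinuousOn M I := (continuousOn_const.sub (cS.mul cS)).sub h.contV.continuousOn
  have cMij : ∀ i j, ContinuousOn (fun x => M x i j) I := fun i j =>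
    (continuous_apply_apply i j).comp_continuousOn cM
  -- joint continuity and domination
  set f : ℝ → ℝ → ℝ := fun x s => s ^ (a - 1) * (ell κ (S x) s * M x).trace with hf
  have cA := continuousOn_trace_log hκ h.upper h.lower cS cM
  have cB := continuousOn_trace_log hκ (T := fun x => -S x) (fun x hx => neg_upper (h.lower x hx))
    (fun x hx => neg_lower (h.upper x hx)) cS.neg cM
  have ctr : ContinuousOn (fun x => (M x).trace) I := continuous_id.matrix_trace.comp_continuousOn cM
  have hfc : ContinuousOn (Function.uncurry f) (I ×ˢ Set.Ioi 0) := by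
    refine (continuousOn_snd.rpow_const fun p hp => Or.inl (ne_of_gt hp.2)).mul ?_
    simp only [trace_ell_mul]
    exact (cA.add cB).sub ((continuousOn_snd.log fun p hp => ne_of_gt hp.2).mul
      (ctr.comp continuousOn_fst fun p hp => hp.1))
  obtain ⟨C, hC, hb⟩ := trace_ell_bound hκ
  obtain ⟨B, hB⟩ := isCompact_Icc.exists_bound_of_continuousOn (f := fun x => absSum (M x))
    (show ContinuousOn (fun x => absSum (M x)) I by
      unfold absSum
      exact continuousOn_finsetSum _ fun i _ => continuousOn_finsetSum _ fun j _ => (cMij i j).abs)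
  have hB' : ∀ x ∈ I, absSum (M x) ≤ B := fun x hx => (le_abs_self _).trans (hB x hx)
  have hB0 : 0 ≤ B := (absSum_nonneg _).trans (hB' L (Set.right_mem_Icc.2 hLL))
  set g : ℝ → ℝ := fun s => if s ≤ thr κ then B * C * (|Real.log s| + 1) else B * C / s with hg
  have hfb : ∀ x ∈ I, ∀ s, 0 < s → |(ell κ (S x) s * M x).trace| ≤ g s := by
    intro x hx s hs
    obtain ⟨h1, h2⟩ := hb (S x) (M x) (h.upper x hx) (h.lower x hx)
    simp only [g]
    split_ifs with hst
    · exact (h1 s ⟨hs, hst⟩).trans (by gcongr; exact hB' x hx)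
    · exact (h2 s (le_of_not_ge hst)).trans (by gcongr; exact hB' x hx)
  have hgi : IntegrableOn (fun s => s ^ (a - 1) * g s) (Set.Ioi 0) := by
    have hb0 := thr_pos hκ
    rw [← Set.Ioc_union_Ioi_eq_Ioi hb0.le, integrableOn_union]
    constructor
    · refine IntegrableOn.congr_fun (f := fun s => B * C * (s ^ (a - 1) * (|Real.log s| + 1))) ?_
        (fun s hs => by simp only [g, if_pos hs.2]; ring) measurableSet_Ioc
      refine Integrable.const_mul (Integrable.mono' (((integrableOn_rpow_Ioc (r := a - 1 - a / 2)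
        (by linarith) hb0.le).const_mul (2 / a)).add ((integrableOn_rpow_Ioc (r := a - 1)
        (by linarith) hb0.le).const_mul (thr κ + 1))) ?_ ?_) _
      · exact (ContinuousOn.mul (continuousOn_id.rpow_const fun s hs => Or.inl (ne_of_gt hs.1))
          ((continuousOn_id.log fun s hs => ne_of_gt hs.1).abs.add continuousOn_const)).aestronglyMeasurable
          measurableSet_Ioc
      · refine (ae_restrict_mem measurableSet_Ioc).mono fun s hs => ?_
        rw [Real.norm_of_nonneg (mul_nonneg (Real.rpow_nonneg hs.1.le _) (by positivity))]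
        exact rpow_log_bound ha hs.1 hs.2 _
    · refine IntegrableOn.congr_fun (f := fun s => B * C * s ^ (a - 2)) ?_ (fun s hs => ?_)
        measurableSet_Ioi
      · exact (integrableOn_Ioi_rpow_of_lt (by linarith) hb0).const_mul _
      · have hs' : 0 < s := hb0.trans hs
        simp only [g, if_neg (not_le.2 (Set.mem_Ioi.1 hs))]
        rw [show a - 2 = a - 1 - 1 by ring, Real.rpow_sub_one hs'.ne']
        ring
  have hfi : Integrable (Function.uncurry f)
      ((volume.restrict (Set.Ioc (-L) L)).prod (volume.restrict (Set.Ioi 0))) := by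
    refine Integrable.mono' ((integrable_const (1 : ℝ)).mul_prod hgi) ?_ ?_
    · rw [Measure.prod_restrict]
      exact (hfc.mono (Set.prod_mono Set.Ioc_subset_Icc_self le_rfl)).aestronglyMeasurable
        (measurableSet_Ioc.prod measurableSet_Ioi)
    · rw [Measure.prod_restrict]
      refine (ae_restrict_mem (measurableSet_Ioc.prod measurableSet_Ioi)).mono fun p hp => ?_
      have hs : 0 < p.2 := hp.2
      simp only [Function.uncurry, f, one_mul, Real.norm_eq_abs, abs_mul,
        abs_of_nonneg (Real.rpow_nonneg hs.le _)]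
      exact mul_le_mul_of_nonneg_left (hfb _ (Set.Ioc_subset_Icc_self hp.1) _ hs)
        (Real.rpow_nonneg hs.le _)
  -- the inner integral over the path
  have hinner : ∀ s, 0 < s → ∫ x in (-L)..L, f x s = -∑ i, s ^ (a - 1) * endVal (κ i) s := by
    intro s hs
    rw [intervalIntegral.integral_const_mul, ← Finset.mul_sum, ← mul_neg]
    congr 1
    simp only [trace_ell_mul]
    have cut : ∀ {F : ℝ × ℝ → ℝ}, ContinuousOn F (I ×ˢ Set.Ioi 0) →
        ContinuousOn (fun x => F (x, s)) I := fun {F} hF =>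
      hF.comp (continuousOn_id.prodMk continuousOn_const) fun x hx => ⟨hx, hs⟩
    have iA := (cut cA).intervalIntegrable_of_Icc hLL (μ := volume)
    have iB := (cut cB).intervalIntegrable_of_Icc hLL (μ := volume)
    have iT := ctr.intervalIntegrable_of_Icc hLL (μ := volume)
    rw [intervalIntegral.integral_sub (iA.add iB) (iT.const_mul _),
      intervalIntegral.integral_add iA iB, intervalIntegral.integral_const_mul]
    have hA := trFn_hlog_sub hLL (A := fun x => Rd κ s + S x) (A' := M)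
      (fun x hx => posDef_add hκ (h.lower x hx) hs)
      (fun x hx i j => (h.ricc x hx i j).const_add _) cMij
    have hB2 := trFn_hlog_sub hLL (A := fun x => Rd κ s + -S x) (A' := fun x => -M x)
      (fun x hx => posDef_add hκ (neg_lower (h.upper x hx)) hs)
      (fun x hx i j => (h.ricc x hx i j).neg.const_add _) (fun i j => (cMij i j).neg)
    have hT : ∫ x in (-L)..L, (M x).trace = (S L).trace - (S (-L)).trace := by
      refine intervalIntegral.integral_eq_sub_of_hasDerivAt_of_le hLL (f := fun x => (S x).trace)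
        (continuous_id.matrix_trace.comp_continuousOn cS) (fun x hx => ?_) iT
      simp only [Matrix.trace, Matrix.diag, M]
      exact HasDerivAt.fun_sum fun i _ =>
        (h.ricc x (Set.Ioo_subset_Icc_self hx) i i).hasDerivAt (Icc_mem_nhds hx.1 hx.2)
    simp only [h.left, h.right, neg_neg, Rd, diagonal_neg, diagonal_add, trFn_diagonal] at hA hB2 hT
    simp only [Matrix.mul_neg, Matrix.trace_neg, intervalIntegral.integral_neg] at hB2
    rw [hT]
    simp only [trace_diagonal]
    have eA : ∫ x in (-L)..L, (M x * cfc Real.log (Rd κ s + S x)).trace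
        = ∫ x in (-L)..L, (cfc Real.log ((diagonal fun i => Real.sqrt (κ i ^ 2 + s)) + S x) * M x).trace :=
      intervalIntegral.integral_congr fun x _ => Matrix.trace_mul_comm _ _
    have eB : ∫ x in (-L)..L, (M x * cfc Real.log (Rd κ s + -S x)).trace
        = ∫ x in (-L)..L, (cfc Real.log ((diagonal fun i => Real.sqrt (κ i ^ 2 + s)) + -S x) * M x).trace :=
      intervalIntegral.integral_congr fun x _ => Matrix.trace_mul_comm _ _
    rw [eA, eB, ← hA]
    have hv : ∀ i, endVal (κ i) s = 2 * (hlog (Real.sqrt (κ i ^ 2 + s) + κ i)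
        - hlog (Real.sqrt (κ i ^ 2 + s) - κ i)) - 2 * κ i * Real.log s := fun i => endVal_eq (hκ i) hs
    simp only [hv, hlog, sub_eq_add_neg, Finset.sum_add_distrib, Finset.sum_neg_distrib,
      ← Finset.mul_sum, ← Finset.sum_mul] at *
    linarith
  -- assembly
  have hD : ∫ x in Set.Ioc (-L) L, ∫ s in Set.Ioi 0, f x s
      = -(cNorm a * (bInt a * ∑ i, κ i ^ (2 * a + 1))) := by
    rw [integral_integral_swap hfi]
    have e : ∀ s ∈ Set.Ioi (0 : ℝ), (∫ x in Set.Ioc (-L) L, f x s)
        = -∑ i, s ^ (a - 1) * endVal (κ i) s := fun s hs => by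
      rw [← intervalIntegral.integral_of_le hLL]; exact hinner s hs
    rw [setIntegral_congr_fun measurableSet_Ioi e, integral_neg,
      integral_finsetSum _ fun i _ => (endVal_integral ha ha1 (hκ i)).1, Finset.mul_sum,
      Finset.mul_sum]
    exact congrArg Neg.neg (Finset.sum_congr rfl fun i _ => (endVal_integral ha ha1 (hκ i)).2)
  have cV : ContinuousOn (fun x => trFn (fun v => v ^ (1 + a)) (V x)) I := by
    obtain ⟨W, hW⟩ := isCompact_Icc.exists_bound_of_continuousOn (f := fun x => absSum (V x))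
      (show ContinuousOn (fun x => absSum (V x)) I by
        unfold absSum
        exact continuousOn_finsetSum _ fun i _ => continuousOn_finsetSum _ fun j _ =>
          ((continuous_apply_apply i j).comp h.contV).continuousOn.abs)
    have hc := continuousOn_trace_cfc (s := I) (F := V) (G := fun _ => 1) (lo := 0) (hi := W)
      ((Real.continuous_rpow_const (q := 1 + a) (by linarith)).continuousOn)
      (fun x _ => (h.psdV x).1) (fun x _ => by rw [zero_smul, sub_zero]; exact h.psdV x)
      (fun x hx => by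
        have hH := (h.psdV x).1
        have e : W • 1 - V x = cfc (fun v => W + -1 * v) (V x) := by
          rw [← cfc_add_eig hH, cfc_const_eig hH, ← cfc_smul_eig hH, cfc_id_eq hH]
          module
        rw [e]
        refine psd_cfc hH fun k => ?_
        linarith [eig_le_absSum hH k, (le_abs_self _).trans (hW x hx)])
      h.contV.continuousOn continuousOn_const
    exact hc.congr fun x _ => by simp only [trFn_eq_trace (h.psdV x).1, Matrix.one_mul]
  have hmono : ∫ x in Set.Ioc (-L) L, -∫ s in Set.Ioi 0, f x s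
      ≤ ∫ x in Set.Ioc (-L) L, cNorm a * (1 / a * (a / (1 + a)) ^ (1 + a))
          * trFn (fun v => v ^ (1 + a)) (V x) :=
    setIntegral_mono_on hfi.integral_prod_left.neg
      (((cV.intervalIntegrable_of_Icc hLL (μ := volume)).1).const_mul _) measurableSet_Ioc
      fun x hx => calib_pointwise ha ha1 hκ (h.upper x (Set.Ioc_subset_Icc_self hx))
        (h.lower x (Set.Ioc_subset_Icc_self hx)) (h.psdV x)
  rw [integral_neg, hD, neg_neg, integral_const_mul, ← intervalIntegral.integral_of_le hLL,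
    mul_assoc (cNorm a)] at hmono
  exact le_of_mul_le_mul_left hmono (cNorm_pos ha ha1)

end

end Vale.Agent.P371.Full
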