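import Vale.Agent.P371.Full.Defs
import Mathlib.Topology.ContinuousMap.Weierstrass

/-! # M2: spectral tools for real symmetric matrices -/

namespace Vale.Agent.P371.Full

open Matrix

noncomputable section

variable {n : ℕ} {A M : Mat n}

/-- The orthogonal matrix of eigenvectors. -/
def evU (hA : A.IsHermitian) : Mat n := (hA.eigenvectorUnitary : Mat n)

lemma evU_mul (hA : A.IsHermitian) : evU hA * (evU hA)ᵀ = 1 := by
  have h := Unitary.coe_mul_star_self hA.eigenvectorUnitary
  rwa [Unitary.coe_star, star_eq_conjTranspose, conjTranspose_eq_transpose_of_trivial] at h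

lemma mul_evU (hA : A.IsHermitian) : (evU hA)ᵀ * evU hA = 1 := by
  have h := Unitary.coe_star_mul_self hA.eigenvectorUnitary
  rwa [star_eq_conjTranspose, conjTranspose_eq_transpose_of_trivial] at h

lemma cfc_eq_conj (hA : A.IsHermitian) (f : ℝ → ℝ) :
    cfc f A = evU hA * diagonal (fun k => f (hA.eigenvalues k)) * (evU hA)ᵀ := by
  rw [hA.cfc_eq f, IsHermitian.cfc, Unitary.conjStarAlgAut_apply, star_eq_conjTranspose,
    conjTranspose_eq_transpose_of_trivial]
  rfl

lemma self_eq_conj (hA : A.IsHermitian) :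
    A = evU hA * diagonal hA.eigenvalues * (evU hA)ᵀ := by
  conv_lhs => rw [hA.spectral_theorem, Unitary.conjStarAlgAut_apply, star_eq_conjTranspose,
    conjTranspose_eq_transpose_of_trivial]
  rfl

lemma cfc_id_eq (hA : A.IsHermitian) : cfc (fun x : ℝ => x) A = A := by
  conv_rhs => rw [self_eq_conj hA]
  exact cfc_eq_conj hA _

lemma cfc_congr_eig (hA : A.IsHermitian) {f g : ℝ → ℝ}
    (h : ∀ k, f (hA.eigenvalues k) = g (hA.eigenvalues k)) : cfc f A = cfc g A := by
  rw [cfc_eq_conj hA, cfc_eq_conj hA]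
  simp only [h]

lemma cfc_mul_eig (hA : A.IsHermitian) (f g : ℝ → ℝ) :
    cfc f A * cfc g A = cfc (fun x => f x * g x) A := by
  rw [cfc_eq_conj hA, cfc_eq_conj hA, cfc_eq_conj hA]
  calc evU hA * diagonal (fun k => f (hA.eigenvalues k)) * (evU hA)ᵀ *
        (evU hA * diagonal (fun k => g (hA.eigenvalues k)) * (evU hA)ᵀ)
      = evU hA * diagonal (fun k => f (hA.eigenvalues k)) * ((evU hA)ᵀ * evU hA) *
          diagonal (fun k => g (hA.eigenvalues k)) * (evU hA)ᵀ := by noncomm_ring
    _ = _ := by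
        rw [mul_evU hA, Matrix.mul_one, Matrix.mul_assoc (evU hA), diagonal_mul_diagonal]

lemma cfc_add_eig (hA : A.IsHermitian) (f g : ℝ → ℝ) :
    cfc f A + cfc g A = cfc (fun x => f x + g x) A := by
  rw [cfc_eq_conj hA, cfc_eq_conj hA, cfc_eq_conj hA, ← Matrix.add_mul, ← Matrix.mul_add,
    diagonal_add]

lemma cfc_const_eig (hA : A.IsHermitian) (c : ℝ) : cfc (fun _ : ℝ => c) A = c • (1 : Mat n) := by
  rw [cfc_eq_conj hA, show diagonal (fun _ : Fin n => c) = c • (1 : Mat n) from
    (smul_one_eq_diagonal c).symm, Matrix.mul_smul, Matrix.mul_one, Matrix.smul_mul, evU_mul hA]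

lemma cfc_smul_eig (hA : A.IsHermitian) (c : ℝ) (f : ℝ → ℝ) :
    c • cfc f A = cfc (fun x => c * f x) A := by
  rw [← cfc_mul_eig hA, cfc_const_eig hA, Matrix.smul_mul, Matrix.one_mul]

lemma cfc_herm (f : ℝ → ℝ) (A : Mat n) : (cfc f A).IsHermitian := cfc_predicate f A

lemma cfc_comp_eig (hA : A.IsHermitian) (f g : ℝ → ℝ) :
    cfc f (cfc g A) = cfc (fun x => f (g x)) A := by
  have hfin : (spectrum ℝ A).Finite := by
    rw [hA.spectrum_real_eq_range_eigenvalues]
    exact Set.finite_range _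
  exact (cfc_comp' f g A ((hfin.image g).continuousOn f) (hfin.continuousOn g) hA).symm

lemma smul_one_add (hA : A.IsHermitian) (c : ℝ) : A + c • 1 = cfc (fun x => x + c) A := by
  rw [← cfc_add_eig hA (fun x => x) (fun _ => c), cfc_id_eq hA, cfc_const_eig hA]

lemma inv_eq_cfc (hA : A.IsHermitian) (f : ℝ → ℝ) (h : ∀ k, f (hA.eigenvalues k) ≠ 0) :
    (cfc f A)⁻¹ = cfc (fun x => (f x)⁻¹) A := by
  refine Matrix.inv_eq_left_inv ?_
  rw [cfc_mul_eig hA, cfc_congr_eig hA (g := fun _ => 1) (fun k => inv_mul_cancel₀ (h k)),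
    cfc_const_eig hA, one_smul]

lemma cfc_diagonal_eq (d : Fin n → ℝ) (f : ℝ → ℝ) :
    cfc f (diagonal d) = diagonal (fun i => f (d i)) := by
  have hA : (diagonal d).IsHermitian := isHermitian_diagonal d
  have hcomm : evU hA * diagonal hA.eigenvalues = diagonal d * evU hA := by
    conv_rhs => arg 1; rw [self_eq_conj hA]
    rw [Matrix.mul_assoc, mul_evU hA, Matrix.mul_one]
  have h : evU hA * diagonal (fun k => f (hA.eigenvalues k))
      = diagonal (fun i => f (d i)) * evU hA := by
    ext i k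
    have hik := congrFun (congrFun hcomm i) k
    simp only [mul_diagonal, diagonal_mul] at hik ⊢
    by_cases h0 : evU hA i k = 0
    · simp [h0]
    · have : hA.eigenvalues k = d i := by
        apply mul_left_cancel₀ h0
        linarith [mul_comm (d i) (evU hA i k)]
      rw [this, mul_comm]
  rw [cfc_eq_conj hA, h, Matrix.mul_assoc, evU_mul hA, Matrix.mul_one]

/-- The diagonal of `Uᵀ M U`. -/
def wgt (hA : A.IsHermitian) (M : Mat n) (k : Fin n) : ℝ := ((evU hA)ᵀ * M * evU hA) k k

lemma trace_mul_wgt (hA : A.IsHermitian) (M : Mat n) (f : ℝ → ℝ) :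
    (M * cfc f A).trace = ∑ k, wgt hA M k * f (hA.eigenvalues k) := by
  rw [cfc_eq_conj hA, ← Matrix.mul_assoc, Matrix.trace_mul_comm, ← Matrix.mul_assoc,
    ← Matrix.mul_assoc]
  simp only [Matrix.trace, Matrix.diag, mul_diagonal, wgt]

lemma wgt_add (hA : A.IsHermitian) (M M' : Mat n) (k : Fin n) :
    wgt hA (M + M') k = wgt hA M k + wgt hA M' k := by
  simp [wgt, Matrix.mul_add, Matrix.add_mul]

lemma sum_wgt (hA : A.IsHermitian) (M : Mat n) : ∑ k, wgt hA M k = M.trace := by
  have h := trace_mul_wgt hA M (fun _ => 1)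
  simpa [cfc_const_eig hA] using h.symm

lemma trFn_eq_trace (hA : A.IsHermitian) (f : ℝ → ℝ) : trFn f A = (cfc f A).trace := by
  have h := trace_mul_wgt hA 1 f
  rw [Matrix.one_mul] at h
  rw [h, trFn, dif_pos hA]
  refine Finset.sum_congr rfl fun k _ => ?_
  rw [wgt, Matrix.mul_one, mul_evU hA, one_apply_eq, one_mul]

lemma abs_evU_le (hA : A.IsHermitian) (i k : Fin n) : |evU hA i k| ≤ 1 := by
  have h := congrFun (congrFun (mul_evU hA) k) k
  rw [mul_apply, one_apply_eq] at h
  simp only [transpose_apply] at h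
  have h1 : evU hA i k * evU hA i k ≤ 1 := h ▸ Finset.single_le_sum
    (f := fun j => evU hA j k * evU hA j k) (fun j _ => mul_self_nonneg _) (Finset.mem_univ i)
  exact abs_le_one_iff_mul_self_le_one.2 h1

/-- The sum of the absolute values of the entries. -/
def absSum (M : Mat n) : ℝ := ∑ i, ∑ j, |M i j|

lemma absSum_nonneg (M : Mat n) : 0 ≤ absSum M := by unfold absSum; positivity

lemma abs_conj_le (hA : A.IsHermitian) (M : Mat n) (k l : Fin n) :
    |((evU hA)ᵀ * M * evU hA) k l| ≤ absSum M := by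
  rw [mul_apply]
  refine (Finset.abs_sum_le_sum_abs _ _).trans ?_
  rw [absSum, Finset.sum_comm]
  refine Finset.sum_le_sum fun j _ => ?_
  rw [abs_mul, mul_apply]
  refine (mul_le_of_le_one_right (abs_nonneg _) (abs_evU_le hA j l)).trans ?_
  refine (Finset.abs_sum_le_sum_abs _ _).trans (Finset.sum_le_sum fun i _ => ?_)
  rw [abs_mul, transpose_apply]
  exact mul_le_of_le_one_left (abs_nonneg _) (abs_evU_le hA i k)

lemma abs_trace_cfc_le (hA : A.IsHermitian) (M : Mat n) {f : ℝ → ℝ} {C : ℝ}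
    (h : ∀ k, |f (hA.eigenvalues k)| ≤ C) :
    |(M * cfc f A).trace| ≤ absSum M * (n * C) := by
  rw [trace_mul_wgt hA]
  calc |∑ k, wgt hA M k * f (hA.eigenvalues k)|
      ≤ ∑ k : Fin n, absSum M * C := (Finset.abs_sum_le_sum_abs _ _).trans
        (Finset.sum_le_sum fun k _ => by
          rw [abs_mul]
          exact mul_le_mul (abs_conj_le hA M k k) (h k) (abs_nonneg _) (absSum_nonneg M))
    _ = _ := by simp; ring

lemma trace_two_cfc (hA : A.IsHermitian) (Q R : Mat n) (f g : ℝ → ℝ) :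
    (Q * cfc f A * R * cfc g A).trace = ∑ k, ∑ l, ((evU hA)ᵀ * Q * evU hA) k l *
      ((evU hA)ᵀ * R * evU hA) l k * (f (hA.eigenvalues l) * g (hA.eigenvalues k)) := by
  rw [trace_mul_wgt hA, ]
  refine Finset.sum_congr rfl fun k _ => ?_
  rw [wgt, cfc_eq_conj hA]
  have e : (evU hA)ᵀ * (Q * (evU hA * diagonal (fun k => f (hA.eigenvalues k)) * (evU hA)ᵀ) * R) *
      evU hA = ((evU hA)ᵀ * Q * evU hA) * diagonal (fun k => f (hA.eigenvalues k)) *
        ((evU hA)ᵀ * R * evU hA) := by
    simp only [Matrix.mul_assoc]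
  rw [e, mul_apply, Finset.sum_mul]
  refine Finset.sum_congr rfl fun l _ => ?_
  rw [mul_diagonal]
  ring

lemma conj_eig (hA : A.IsHermitian) (k : Fin n) :
    wgt hA A k = hA.eigenvalues k := by
  have e : (evU hA)ᵀ * A * evU hA = diagonal hA.eigenvalues := by
    conv_lhs => arg 1; arg 2; rw [self_eq_conj hA]
    simp only [Matrix.mul_assoc]
    rw [mul_evU hA, Matrix.mul_one, ← Matrix.mul_assoc, mul_evU hA, Matrix.one_mul]
  rw [wgt, e, diagonal_apply_eq]

lemma wgt_one (hA : A.IsHermitian) (c : ℝ) (k : Fin n) : wgt hA (c • 1) k = c := by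
  simp [wgt, mul_evU hA]

lemma wgt_nonneg (hA : A.IsHermitian) (hM : M.PosSemidef) (k : Fin n) : 0 ≤ wgt hA M k := by
  have h := hM.conjTranspose_mul_mul_same (evU hA)
  rw [conjTranspose_eq_transpose_of_trivial] at h
  exact h.diag_nonneg

lemma le_eig {c : ℝ} (hA : A.IsHermitian) (h : (A - c • 1).PosSemidef) (k : Fin n) :
    c ≤ hA.eigenvalues k := by
  have h1 := wgt_nonneg hA h k
  have h2 := wgt_add hA (A - c • 1) (c • 1) k
  rw [sub_add_cancel, conj_eig, wgt_one] at h2
  linarith

lemma eig_le {c : ℝ} (hA : A.IsHermitian) (h : (c • 1 - A).PosSemidef) (k : Fin n) :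
    hA.eigenvalues k ≤ c := by
  have h1 := wgt_nonneg hA h k
  have h2 := wgt_add hA (c • 1 - A) A k
  rw [sub_add_cancel, conj_eig, wgt_one] at h2
  linarith

/-- Continuity of `tr (M f(A))` along continuous matrix families with spectrum in a fixed interval. -/
lemma continuousOn_trace_cfc {α : Type*} [TopologicalSpace α] {s : Set α} {F G : α → Mat n}
    {f : ℝ → ℝ} {lo hi : ℝ} (hf : ContinuousOn f (Set.Icc lo hi))
    (hF : ∀ x ∈ s, (F x).IsHermitian) (hlo : ∀ x ∈ s, (F x - lo • 1).PosSemidef)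
    (hhi : ∀ x ∈ s, (hi • 1 - F x).PosSemidef)
    (cF : ContinuousOn F s) (cG : ContinuousOn G s) :
    ContinuousOn (fun x => (G x * cfc f (F x)).trace) s := by
  intro x0 hx0
  refine Metric.continuousWithinAt_iff'.2 fun ε hε => ?_
  have cS : ContinuousOn (fun x => absSum (G x)) s := by
    unfold absSum
    exact continuousOn_finsetSum _ fun i _ => continuousOn_finsetSum _ fun j _ =>
      ((continuous_apply_apply i j).comp_continuousOn cG).abs
  set B := absSum (G x0) + 1 with hB
  have hB0 : 0 < B := by have := absSum_nonneg (G x0); linarith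
  set δ := ε / (3 * (B * (n + 1))) with hδ
  have hδ0 : 0 < δ := by positivity
  obtain ⟨p, hp⟩ := exists_polynomial_near_of_continuousOn lo hi f hf δ hδ0
  have happ : ∀ x ∈ s, absSum (G x) < B →
      |(G x * cfc f (F x)).trace - (G x * Polynomial.aeval (F x) p).trace| ≤ ε / 3 := by
    intro x hx hxB
    rw [← cfc_polynomial p (F x) (hF x hx).isSelfAdjoint, trace_mul_wgt (hF x hx), trace_mul_wgt (hF x hx),
      ← Finset.sum_sub_distrib]
    calc |∑ k, (wgt (hF x hx) (G x) k * f ((hF x hx).eigenvalues k) -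
          wgt (hF x hx) (G x) k * p.eval ((hF x hx).eigenvalues k))|
        ≤ ∑ k : Fin n, B * δ := (Finset.abs_sum_le_sum_abs _ _).trans
          (Finset.sum_le_sum fun k _ => by
            rw [← mul_sub, abs_mul, abs_sub_comm]
            exact mul_le_mul ((abs_conj_le _ _ _ _).trans hxB.le)
              (hp _ ⟨le_eig _ (hlo x hx) k, eig_le _ (hhi x hx) k⟩).le (abs_nonneg _) hB0.le)
      _ ≤ (n + 1) * (B * δ) := by simp; nlinarith [mul_pos hB0 hδ0]
      _ = ε / 3 := by rw [hδ]; field_simp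
  have cP : ContinuousOn (fun x => (G x * Polynomial.aeval (F x) p).trace) s := by
    refine (continuous_id.matrix_trace).comp_continuousOn
      (cG.mul ((Polynomial.continuous_aeval p).comp_continuousOn cF))
  filter_upwards [(Metric.continuousWithinAt_iff'.1 (cP x0 hx0)) (ε / 3) (by positivity),
    (cS x0 hx0).eventually_lt continuousWithinAt_const (show absSum (G x0) < B by linarith),
    eventually_mem_nhdsWithin] with x h1 h2 h3
  have e1 := happ x h3 h2
  have e2 := happ x0 hx0 (by linarith)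
  rw [Real.dist_eq] at h1 ⊢
  rw [abs_le] at e1 e2
  rw [abs_lt] at h1 ⊢
  constructor <;> linarith

end

end Vale.Agent.P371.Full
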