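import Vale.Agent.P371.Lift
import Mathlib.Analysis.Matrix.HermitianFunctionalCalculus
import Mathlib.Analysis.Matrix.Order
import Mathlib.Analysis.Calculus.Deriv.Basic
import Mathlib.Analysis.SpecialFunctions.ContinuousFunctionalCalculus.ExpLog.Basic

/-! # The sharp constant for `1/2 < γ < 3/2`: common definitions

Real symmetric matrices throughout. `N` is the number of channels (= number of states), `κ` their
energies, `K = diagonal κ`.
-/

namespace Vale.Agent.P371.Full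

open MeasureTheory Matrix

noncomputable section

/-- Real square matrices. -/
abbrev Mat (n : ℕ) := Matrix (Fin n) (Fin n) ℝ

/-- `tr f (A)`. -/
def trFn {n : ℕ} (f : ℝ → ℝ) (A : Mat n) : ℝ :=
  if h : A.IsHermitian then ∑ i, f (h.eigenvalues i) else 0

/-- `∫_{-1}^{1} (1 - t²)^a`. -/
def bInt (a : ℝ) : ℝ := ∫ t in (-1 : ℝ)..1, (1 - t ^ 2) ^ a

/-- The one-bound-state constant. -/
def oneState (g : ℝ) : ℝ :=
  2 * ((g - 1 / 2) / (g + 1 / 2)) ^ (g - 1 / 2) *
    (Real.Gamma (g + 1) / (2 * Real.sqrt Real.pi * Real.Gamma (g + 3 / 2)))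

/-- A matrix Riccati path from `K` to `-K` inside `-K ≤ S ≤ K`, driven by a potential `V ≥ 0`. -/
structure IsLift {N : ℕ} (κ : Fin N → ℝ) (V S : ℝ → Mat N) (L : ℝ) : Prop where
  pos : 0 < L
  contV : Continuous V
  psdV : ∀ x, (V x).PosSemidef
  ricc : ∀ x ∈ Set.Icc (-L) L, ∀ i j, HasDerivWithinAt (fun y => S y i j)
    ((diagonal (fun i => κ i ^ 2) - S x * S x - V x) i j) (Set.Icc (-L) L) x
  left : S (-L) = diagonal κ
  right : S L = -diagonal κ
  upper : ∀ x ∈ Set.Icc (-L) L, (diagonal κ - S x).PosSemidef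
  lower : ∀ x ∈ Set.Icc (-L) L, (diagonal κ + S x).PosSemidef

/-- `log (R + S) + log (R - S) - log s`, with `R = √(κ² + s)`. -/
def ell {N : ℕ} (κ : Fin N → ℝ) (S : Mat N) (s : ℝ) : Mat N :=
  cfc Real.log (diagonal (fun i => Real.sqrt (κ i ^ 2 + s)) + S)
    + cfc Real.log (diagonal (fun i => Real.sqrt (κ i ^ 2 + s)) - S) - Real.log s • 1

/-- `∫_0^∞ s^(a-1) log (1 + 1/s)`, the normalisation of the calibration. -/
def cNorm (a : ℝ) : ℝ := ∫ s in Set.Ioi (0 : ℝ), s ^ (a - 1) * Real.log (1 + 1 / s)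

/-- Nonzero lower triangular coefficient arrays: row `j` is supported on `i ≤ j`. -/
def tri0 (N : ℕ) : Set (Fin N → Fin N → ℝ) :=
  {c | c ≠ 0 ∧ ∀ j i, j < i → c j i = 0}

/-- A vector of signs. -/
def IsSigns {N : ℕ} (e : Fin N → ℝ) : Prop := ∀ j, e j = 1 ∨ e j = -1

/-- `e A e` for a sign vector `e`. -/
def flipMat {N : ℕ} (e : Fin N → ℝ) (A : Mat N) : Mat N := Matrix.of fun i j => e i * A i j * e j

/-- The energy of a channel vector `f` in the potential `V`, with the shifts `κ²`. -/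
def energy {N : ℕ} (κ : Fin N → ℝ) (V : ℝ → Mat N) (L : ℝ) (f f' : ℝ → Fin N → ℝ) : ℝ :=
  ∫ x in (-L)..L, ((∑ i, f' x i ^ 2) + (∑ i, κ i ^ 2 * f x i ^ 2) - f x ⬝ᵥ (V x *ᵥ f x))

/-- A nonzero `C¹` channel vector vanishing at `±L`. -/
structure IsTest {N : ℕ} (L : ℝ) (f f' : ℝ → Fin N → ℝ) : Prop where
  deriv : ∀ x i, HasDerivAt (fun y => f y i) (f' x i) x
  cont : Continuous f'
  left : f (-L) = 0
  right : f L = 0
  ne : ∃ x ∈ Set.Icc (-L) L, f x ≠ 0

end

end Vale.Agent.P371.Full
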