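import Vale.Agent.P371.Full.Defs

/-! # Spectral form of the functional calculus of a real symmetric matrix -/

namespace Vale.Agent.P371.Full

open Matrix

noncomputable section

variable {n : ℕ} {A : Mat n}

/-- The orthogonal matrix of eigenvectors. -/
def eU (hA : A.IsHermitian) : Mat n := hA.eigenvectorUnitary

theorem eU_orth (hA : A.IsHermitian) : (eU hA)ᵀ * eU hA = 1 := by
  have := Unitary.star_mul_self_of_mem hA.eigenvectorUnitary.2
  rwa [star_eq_conjTranspose, conjTranspose_eq_transpose_of_trivial] at this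

theorem eU_orth' (hA : A.IsHermitian) : eU hA * (eU hA)ᵀ = 1 :=
  mul_eq_one_comm.mp (eU_orth hA)

theorem cfc_spectral (hA : A.IsHermitian) (f : ℝ → ℝ) :
    cfc f A = eU hA * diagonal (fun i => f (hA.eigenvalues i)) * (eU hA)ᵀ := by
  rw [hA.cfc_eq, Matrix.IsHermitian.cfc, Unitary.conjStarAlgAut_apply, star_eq_conjTranspose,
    conjTranspose_eq_transpose_of_trivial]
  rfl

theorem spectral (hA : A.IsHermitian) :
    A = eU hA * diagonal hA.eigenvalues * (eU hA)ᵀ := by
  conv_lhs => rw [hA.spectral_theorem, Unitary.conjStarAlgAut_apply, star_eq_conjTranspose,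
    conjTranspose_eq_transpose_of_trivial]
  rfl

theorem trace_mul_cfc (hA : A.IsHermitian) (f : ℝ → ℝ) (K : Mat n) :
    (K * cfc f A).trace = ∑ i, ((eU hA)ᵀ * K * eU hA) i i * f (hA.eigenvalues i) := by
  rw [cfc_spectral hA, ← Matrix.mul_assoc, trace_mul_comm, ← Matrix.mul_assoc, ← Matrix.mul_assoc]
  simp only [Matrix.trace, Matrix.diag, mul_diagonal]

theorem trace_cfc (hA : A.IsHermitian) (f : ℝ → ℝ) : (cfc f A).trace = trFn f A := by
  rw [cfc_spectral hA, trace_mul_comm, ← Matrix.mul_assoc, eU_orth hA, Matrix.one_mul,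
    trace_diagonal, trFn, dif_pos hA]

theorem trFn_eq (hA : A.IsHermitian) (f : ℝ → ℝ) : trFn f A = ∑ i, f (hA.eigenvalues i) := by
  rw [trFn, dif_pos hA]

theorem cfc_isHermitian (hA : A.IsHermitian) (f : ℝ → ℝ) : (cfc f A).IsHermitian :=
  (cfc_predicate f A : IsSelfAdjoint (cfc f A))

theorem qform_eq (hA : A.IsHermitian) (v : Fin n → ℝ) :
    v ⬝ᵥ (A *ᵥ v) = ∑ i, hA.eigenvalues i * ((eU hA)ᵀ *ᵥ v) i ^ 2 := by
  conv_lhs => rw [spectral hA]
  rw [← mulVec_mulVec, ← mulVec_mulVec, dotProduct_mulVec, ← mulVec_transpose, dotProduct]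
  refine Finset.sum_congr rfl fun i _ => ?_
  rw [mulVec_diagonal]
  ring

theorem normSq_eU (hA : A.IsHermitian) (v : Fin n → ℝ) :
    ((eU hA)ᵀ *ᵥ v) ⬝ᵥ ((eU hA)ᵀ *ᵥ v) = v ⬝ᵥ v := by
  rw [dotProduct_mulVec, ← mulVec_transpose, transpose_transpose, mulVec_mulVec, eU_orth' hA,
    one_mulVec]

theorem eigen_qform (hA : A.IsHermitian) (i : Fin n) :
    (fun k => eU hA k i) ⬝ᵥ (A *ᵥ fun k => eU hA k i) = hA.eigenvalues i := by
  have h : ((eU hA)ᵀ *ᵥ fun k => eU hA k i) = fun j => if j = i then (1 : ℝ) else 0 := by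
    funext j
    have := congrFun (congrFun (eU_orth hA) j) i
    simpa [Matrix.mulVec, dotProduct, Matrix.mul_apply, Matrix.one_apply] using this
  rw [qform_eq hA, h]
  simp

theorem eigen_norm (hA : A.IsHermitian) (i : Fin n) :
    (fun k => eU hA k i) ⬝ᵥ (fun k => eU hA k i) = 1 := by
  have := congrFun (congrFun (eU_orth hA) i) i
  simpa [dotProduct, Matrix.mul_apply, Matrix.one_apply] using this

theorem abs_eU_le (hA : A.IsHermitian) (k i : Fin n) : |eU hA k i| ≤ 1 := by
  have h := eigen_norm hA i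
  have h2 : eU hA k i * eU hA k i ≤ 1 := by
    rw [← h]
    exact Finset.single_le_sum (f := fun k => eU hA k i * eU hA k i)
      (fun k _ => mul_self_nonneg _) (Finset.mem_univ k)
  exact abs_le_one_iff_mul_self_le_one.mpr h2

end

end Vale.Agent.P371.Full
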