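import Vale.Agent.P371.Full.EndpointOde
import Vale.Agent.P371.Full.MatBasic
import Mathlib.MeasureTheory.Integral.IntervalIntegral.FundThmCalculus
import Mathlib.MeasureTheory.Integral.DivergenceTheorem
import Mathlib.Analysis.SpecialFunctions.ExpDeriv

/-! # M3b: the variational bounds along a Riccati path

`wForm` is the form on the whole line of a vector continued by `exp (-K |x|)` outside `[-L, L]`.
Completing the square with a Riccati solution turns it into a boundary term plus `∫ |f' - S f|²`.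
-/

namespace Vale.Agent.P371.Full

open MeasureTheory Matrix

noncomputable section

variable {N : ℕ}

/-- Continuous on `[-L, L]`, differentiable off one point, with square integrable derivative. -/
structure IsWTest (L : ℝ) (f f' : ℝ → Fin N → ℝ) : Prop where
  cont : ∀ i, ContinuousOn (fun y => f y i) (Set.Icc (-L) L)
  deriv : ∃ b : ℝ, ∀ i, ∀ x ∈ Set.Ioo (-L) L \ {b}, HasDerivAt (fun y => f y i) (f' x i) x
  int : ∀ i, IntervalIntegrable (fun y => f' y i) volume (-L) L
  int2 : ∀ i, IntervalIntegrable (fun y => f' y i ^ 2) volume (-L) L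

/-- `∫ (|f'|² + |κ f|²)` over `[a, b]`. -/
def kinInt (κ : Fin N → ℝ) (a b : ℝ) (f f' : ℝ → Fin N → ℝ) : ℝ :=
  ∫ x in a..b, ((∑ i, f' x i ^ 2) + ∑ i, κ i ^ 2 * f x i ^ 2)

/-- `∫ f W f` over `[a, b]`. -/
def potInt (W : ℝ → Mat N) (a b : ℝ) (f : ℝ → Fin N → ℝ) : ℝ :=
  ∫ x in a..b, f x ⬝ᵥ (W x *ᵥ f x)

/-- The kinetic form on the line. -/
def wKin (κ : Fin N → ℝ) (L : ℝ) (f f' : ℝ → Fin N → ℝ) : ℝ :=
  (∑ i, κ i * f (-L) i ^ 2) + kinInt κ (-L) L f f' + ∑ i, κ i * f L i ^ 2

/-- A solution of the Riccati equation. -/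
def IsRicc (κ : Fin N → ℝ) (W : ℝ → Mat N) (a b : ℝ) (S : ℝ → Mat N) : Prop :=
  ∀ x ∈ Set.Icc a b, ∀ i j, HasDerivWithinAt (fun y => S y i j)
    ((diagonal (fun i => κ i ^ 2) - S x * S x - W x) i j) (Set.Icc a b) x

theorem IsRicc.cont {κ : Fin N → ℝ} {W : ℝ → Mat N} {a b : ℝ} {S : ℝ → Mat N}
    (h : IsRicc κ W a b S) (i j : Fin N) : ContinuousOn (fun y => S y i j) (Set.Icc a b) :=
  fun x hx => (h x hx i j).continuousWithinAt

theorem contOn_qf {s : Set ℝ} {W : ℝ → Mat N} {f : ℝ → Fin N → ℝ}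
    (hW : ∀ i j, ContinuousOn (fun y => W y i j) s) (hf : ∀ i, ContinuousOn (fun y => f y i) s) :
    ContinuousOn (fun x => f x ⬝ᵥ (W x *ᵥ f x)) s := by
  simp only [dotProduct, Matrix.mulVec]
  fun_prop

theorem contOn_mulVec {s : Set ℝ} {W : ℝ → Mat N} {f : ℝ → Fin N → ℝ}
    (hW : ∀ i j, ContinuousOn (fun y => W y i j) s) (hf : ∀ i, ContinuousOn (fun y => f y i) s)
    (i : Fin N) : ContinuousOn (fun x => (W x *ᵥ f x) i) s := by
  simp only [dotProduct, Matrix.mulVec]
  fun_prop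

theorem square_completion {κ : Fin N → ℝ} {W : ℝ → Mat N} {a b p : ℝ} (hab : a ≤ b) {S : ℝ → Mat N}
    (hS : IsRicc κ W a b S) (hsym : ∀ x ∈ Set.Icc a b, (S x)ᵀ = S x)
    (hW : ∀ i j, ContinuousOn (fun y => W y i j) (Set.Icc a b))
    {f f' : ℝ → Fin N → ℝ} (hf : ∀ i, ContinuousOn (fun y => f y i) (Set.Icc a b))
    (hd : ∀ i, ∀ x ∈ Set.Ioo a b \ {p}, HasDerivAt (fun y => f y i) (f' x i) x)
    (h1 : ∀ i, IntervalIntegrable (fun y => f' y i) volume a b)
    (h2 : ∀ i, IntervalIntegrable (fun y => f' y i ^ 2) volume a b) :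
    IntervalIntegrable (fun x => ∑ i, (f' x i - (S x *ᵥ f x) i) ^ 2) volume a b ∧
      kinInt κ a b f f' - potInt W a b f = f b ⬝ᵥ (S b *ᵥ f b) - f a ⬝ᵥ (S a *ᵥ f a)
        + ∫ x in a..b, ∑ i, (f' x i - (S x *ᵥ f x) i) ^ 2 := by
  have hu : Set.uIcc a b = Set.Icc a b := Set.uIcc_of_le hab
  have hSc := hS.cont
  have iV : IntervalIntegrable (fun x => f x ⬝ᵥ (W x *ᵥ f x)) volume a b :=
    (hu ▸ contOn_qf hW hf).intervalIntegrable
  have iK : IntervalIntegrable (fun x => (∑ i, f' x i ^ 2) + ∑ i, κ i ^ 2 * f x i ^ 2) volume a b := by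
    refine IntervalIntegrable.add ?_ ?_
    · exact IntervalIntegrable.sum Finset.univ (fun i _ => h2 i) |>.congr
        (fun x _ => by simp [Finset.sum_apply])
    · refine ContinuousOn.intervalIntegrable ?_
      rw [hu]; fun_prop
  have iQ : IntervalIntegrable (fun x => ∑ i, (f' x i - (S x *ᵥ f x) i) ^ 2) volume a b := by
    refine (IntervalIntegrable.sum Finset.univ (f := fun i x => (f' x i - (S x *ᵥ f x) i) ^ 2)
      fun i _ => ?_).congr (fun x _ => by simp [Finset.sum_apply])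
    have hc : ContinuousOn (fun x => (S x *ᵥ f x) i) (Set.uIcc a b) := hu ▸ contOn_mulVec hSc hf i
    have := ((h2 i).sub (((h1 i).mul_continuousOn hc).const_mul 2)).add (hc.pow 2).intervalIntegrable
    exact this.congr (fun x _ => by simp only [Pi.pow_apply]; ring)
  refine ⟨iQ, ?_⟩
  have key : (∫ x in a..b, (((∑ i, f' x i ^ 2) + ∑ i, κ i ^ 2 * f x i ^ 2) - f x ⬝ᵥ (W x *ᵥ f x)
      - ∑ i, (f' x i - (S x *ᵥ f x) i) ^ 2))
      = f b ⬝ᵥ (S b *ᵥ f b) - f a ⬝ᵥ (S a *ᵥ f a) := by
    refine MeasureTheory.integral_eq_of_hasDerivAt_off_countable_of_le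
      (fun x => f x ⬝ᵥ (S x *ᵥ f x)) _ hab (Set.countable_singleton p) (contOn_qf hSc hf) ?_
      ((iK.sub iV).sub iQ)
    intro x hx
    have hxI : x ∈ Set.Icc a b := Set.Ioo_subset_Icc_self hx.1
    have hSd : ∀ i j, HasDerivAt (fun y => S y i j)
        ((diagonal (fun i => κ i ^ 2) - S x * S x - W x) i j) x := fun i j =>
      (hS x hxI i j).hasDerivAt (Icc_mem_nhds hx.1.1 hx.1.2)
    have hD : HasDerivAt (fun y => ∑ i, f y i * ∑ j, S y i j * f y j)
        (∑ i, (f' x i * (∑ j, S x i j * f x j) + f x i * ∑ j,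
          ((diagonal (fun i => κ i ^ 2) - S x * S x - W x) i j * f x j + S x i j * f' x j))) x :=
      HasDerivAt.fun_sum fun i _ => (hd i x hx).fun_mul
        (HasDerivAt.fun_sum fun j _ => (hSd i j).fun_mul (hd j x hx))
    refine hD.congr_deriv ?_
    have e1 : ∑ i, f x i * ∑ j, S x i j * f' x j = ∑ i, f' x i * (S x *ᵥ f x) i := by
      have h : f x ⬝ᵥ (S x *ᵥ f' x) = f' x ⬝ᵥ (S x *ᵥ f x) := by
        rw [dotProduct_mulVec, ← mulVec_transpose, hsym x hxI, dotProduct_comm]
      simpa only [dotProduct, Matrix.mulVec] using h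
    have e2 : ∑ i, f x i * ∑ j, (S x * S x) i j * f x j = ∑ i, (S x *ᵥ f x) i ^ 2 := by
      have h : f x ⬝ᵥ ((S x * S x) *ᵥ f x) = (S x *ᵥ f x) ⬝ᵥ (S x *ᵥ f x) := by
        rw [← mulVec_mulVec, dotProduct_mulVec, ← mulVec_transpose, hsym x hxI]
      simpa only [dotProduct, Matrix.mulVec, sq] using h
    have e3 : ∑ i, f x i * ∑ j, (diagonal (fun i => κ i ^ 2) : Mat N) i j * f x j
        = ∑ i, κ i ^ 2 * f x i ^ 2 := by
      refine Finset.sum_congr rfl fun i _ => ?_
      rw [Finset.sum_eq_single i (fun j _ hj => by simp [diagonal_apply_ne' _ hj]) (by simp),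
        diagonal_apply_eq]
      ring
    have e4 : ∑ i, (f' x i - (S x *ᵥ f x) i) ^ 2
        = (∑ i, f' x i ^ 2) + ∑ i, (S x *ᵥ f x) i ^ 2 - 2 * ∑ i, f' x i * (S x *ᵥ f x) i := by
      rw [Finset.mul_sum, ← Finset.sum_add_distrib, ← Finset.sum_sub_distrib]
      exact Finset.sum_congr rfl fun i _ => by ring
    have e0 : ∑ i, f' x i * (∑ j, S x i j * f x j) = ∑ i, f' x i * (S x *ᵥ f x) i := rfl
    have e5 : ∑ i, f x i * (∑ j, W x i j * f x j) = f x ⬝ᵥ (W x *ᵥ f x) := rfl
    simp only [Matrix.sub_apply, sub_mul, Finset.sum_add_distrib, Finset.sum_sub_distrib, mul_add,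
      mul_sub]
    rw [e0, e1, e2, e3, e5, e4]
    ring
  rw [intervalIntegral.integral_sub (iK.sub iV) iQ, intervalIntegral.integral_sub iK iV] at key
  unfold kinInt potInt
  linarith

/-- The exponentials that minimise the free form. -/
theorem kinInt_exp (κ : Fin N → ℝ) {r : ℝ} (hr : r ^ 2 = 1) (a b c : ℝ) (z : Fin N → ℝ) :
    kinInt κ a b (fun y i => z i * Real.exp (r * κ i * (y - c)))
        (fun y i => r * κ i * (z i * Real.exp (r * κ i * (y - c))))
      = r * ((∑ i, κ i * (z i * Real.exp (r * κ i * (b - c))) ^ 2)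
          - ∑ i, κ i * (z i * Real.exp (r * κ i * (a - c))) ^ 2) := by
  rw [mul_sub]
  refine intervalIntegral.integral_eq_sub_of_hasDerivAt
    (f := fun y => r * ∑ i, κ i * (z i * Real.exp (r * κ i * (y - c))) ^ 2) (fun y _ => ?_) ?_
  · have h : HasDerivAt (fun y => r * ∑ i, κ i * (z i * Real.exp (r * κ i * (y - c))) ^ 2)
        (r * ∑ i, κ i * (2 * (z i * Real.exp (r * κ i * (y - c))) ^ 1
          * (z i * (Real.exp (r * κ i * (y - c)) * (r * κ i * 1))))) y :=
      (HasDerivAt.fun_sum fun i _ =>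
        ((((((hasDerivAt_id y).sub_const c).const_mul (r * κ i)).exp).const_mul (z i)).pow 2).const_mul
          (κ i)).const_mul r
    refine h.congr_deriv ?_
    rw [Finset.mul_sum, ← Finset.sum_add_distrib]
    refine Finset.sum_congr rfl fun i _ => ?_
    linear_combination ((κ i * (z i * Real.exp (r * κ i * (y - c)))) ^ 2) * hr
  · exact Continuous.intervalIntegrable (by fun_prop) _ _

theorem potInt_nonneg {W : ℝ → Mat N} (hW : ∀ x, (W x).PosSemidef) {a b : ℝ} (hab : a ≤ b)
    (f : ℝ → Fin N → ℝ) : 0 ≤ potInt W a b f :=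
  intervalIntegral.integral_nonneg hab fun x _ => by
    simpa using (hW x).dotProduct_mulVec_nonneg (f x)

theorem qf_diag (κ z : Fin N → ℝ) : z ⬝ᵥ (diagonal κ *ᵥ z) = ∑ i, κ i * z i ^ 2 := by
  simp only [dotProduct, mulVec_diagonal]
  exact Finset.sum_congr rfl fun i _ => by ring

/-- The two bounds at the end of a Riccati path from `K`. -/
theorem ricc_bounds {κ : Fin N → ℝ} {W : ℝ → Mat N} (hWc : ∀ i j, Continuous fun y => W y i j)
    (hWp : ∀ x, (W x).PosSemidef) {L : ℝ}
    (hform : ∀ f f', IsWTest L f f' → potInt W (-L) L f ≤ wKin κ L f f')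
    {b : ℝ} (hb : b ∈ Set.Icc (-L) L) {S : ℝ → Mat N} (hS : IsRicc κ W (-L) b S)
    (hsym : ∀ x ∈ Set.Icc (-L) b, (S x)ᵀ = S x) (h0 : S (-L) = diagonal κ) (z : Fin N → ℝ) :
    z ⬝ᵥ (S b *ᵥ z) ≤ (∑ i, κ i * z i ^ 2) ∧ -(∑ i, κ i * z i ^ 2) ≤ z ⬝ᵥ (S b *ᵥ z) := by
  have hWo : ∀ i j, ContinuousOn (fun y => W y i j) (Set.Icc (-L) b) := fun i j => (hWc i j).continuousOn
  have hq : ∀ f f' : ℝ → Fin N → ℝ,
      0 ≤ ∫ x in (-L)..b, ∑ i, (f' x i - (S x *ᵥ f x) i) ^ 2 := fun f f' =>
    intervalIntegral.integral_nonneg hb.1 fun x _ => Finset.sum_nonneg fun i _ => sq_nonneg _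
  constructor
  · set e : ℝ → Fin N → ℝ := fun y i => z i * Real.exp (1 * κ i * (y - b)) with he
    set e' : ℝ → Fin N → ℝ := fun y i => 1 * κ i * (z i * Real.exp (1 * κ i * (y - b)))
    have hd : ∀ i x, HasDerivAt (fun y => e y i) (e' x i) x := fun i x =>
      (((((hasDerivAt_id x).sub_const b).const_mul (1 * κ i)).exp).const_mul (z i)).congr_deriv
        (by simp only [e', id_eq]; ring)
    have hec : ∀ i, Continuous fun y => e' y i := fun i => by fun_prop
    obtain ⟨-, h⟩ := square_completion (p := b) hb.1 hS hsym hWo (f := e) (f' := e')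
      (fun i => (continuous_iff_continuousAt.mpr fun x => (hd i x).continuousAt).continuousOn)
      (fun i x _ => hd i x) (fun i => (hec i).intervalIntegrable _ _)
      (fun i => ((hec i).pow 2).intervalIntegrable _ _)
    rw [kinInt_exp κ (one_pow 2), h0, qf_diag] at h
    have hz : e b = z := by funext i; simp [he]
    have hz' : ∑ i, κ i * (z i * Real.exp (1 * κ i * (b - b))) ^ 2 = ∑ i, κ i * z i ^ 2 := by simp
    rw [hz, hz'] at h
    simp only [he, one_mul] at h
    have := potInt_nonneg hWp hb.1 e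
    have := hq e e'
    simp only [he, one_mul] at *
    linarith
  · obtain ⟨f, hfz, hf⟩ := exists_linear_back (a := -L) (b := b) hb.1 (A := S) hS.cont z
    have hfc : ∀ i, ContinuousOn (fun y => f y i) (Set.Icc (-L) b) := fun i x hx =>
      (hf x hx i).continuousWithinAt
    set f' : ℝ → Fin N → ℝ := fun y => S y *ᵥ f y with hf'
    set e : ℝ → Fin N → ℝ := fun y i => z i * Real.exp (-1 * κ i * (y - b)) with he
    set e' : ℝ → Fin N → ℝ := fun y i => -1 * κ i * (z i * Real.exp (-1 * κ i * (y - b)))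
    have hde : ∀ i x, HasDerivAt (fun y => e y i) (e' x i) x := fun i x =>
      (((((hasDerivAt_id x).sub_const b).const_mul (-1 * κ i)).exp).const_mul (z i)).congr_deriv
        (by simp only [e', id_eq]; ring)
    have hez : e b = z := by funext i; simp [he]
    set h : ℝ → Fin N → ℝ := fun y => if y ≤ b then f y else e y with hh
    set h' : ℝ → Fin N → ℝ := fun y => if y ≤ b then f' y else e' y with hh'
    have hl : ∀ y, y ≤ b → h y = f y := fun y hy => if_pos hy
    have hl' : ∀ y, y ≤ b → h' y = f' y := fun y hy => if_pos hy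
    have hr : ∀ y, b ≤ y → h y = e y := by
      intro y hy
      rcases hy.eq_or_lt with rfl | hy
      · rw [hl b le_rfl, hfz, hez]
      · exact if_neg (not_le.2 hy)
    have hr' : ∀ y, b < y → h' y = e' y := fun y hy => if_neg (not_le.2 hy)
    have hcl : ∀ i, ContinuousOn (fun y => h y i) (Set.Icc (-L) b) := fun i =>
      (hfc i).congr fun y hy => by rw [hl y hy.2]
    have hcr : ∀ i, ContinuousOn (fun y => h y i) (Set.Icc b L) := fun i =>
      (continuous_iff_continuousAt.mpr fun x => (hde i x).continuousAt).continuousOn.congr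
        fun y hy => by rw [hr y hy.1]
    have hc'l : ∀ i, ContinuousOn (fun y => f' y i) (Set.Icc (-L) b) := fun i =>
      contOn_mulVec hS.cont hfc i
    have hc'r : ∀ i, Continuous fun y => e' y i := fun i => by fun_prop
    have hrr : ∀ᵐ y : ℝ, y ∈ Set.uIoc b L → b < y := Filter.Eventually.of_forall fun y hy => by
      rw [Set.uIoc_of_le hb.2] at hy; exact hy.1
    have hw : IsWTest L h h' := by
      refine ⟨fun i => ?_, ⟨b, fun i x hx => ?_⟩, fun i => ?_, fun i => ?_⟩
      · rw [← Set.Icc_union_Icc_eq_Icc hb.1 hb.2]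
        exact (hcl i).union_of_isClosed (hcr i) isClosed_Icc isClosed_Icc
      · rcases lt_or_gt_of_ne hx.2 with hxb | hxb
        · rw [hl' x hxb.le]
          refine ((hf x ⟨hx.1.1.le, hxb.le⟩ i).hasDerivAt (Icc_mem_nhds hx.1.1 hxb)).congr_of_eventuallyEq ?_
          filter_upwards [Iio_mem_nhds hxb] with y hy
          rw [hl y (le_of_lt hy)]
        · rw [hr' x hxb]
          refine (hde i x).congr_of_eventuallyEq ?_
          filter_upwards [Ioi_mem_nhds hxb] with y hy
          rw [hr y (le_of_lt hy)]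
      · refine IntervalIntegrable.trans
          (((hc'l i).intervalIntegrable_of_Icc hb.1).congr ?_) (((hc'r i).intervalIntegrable b L).congr ?_)
        · intro y hy; rw [Set.uIoc_of_le hb.1] at hy; simp only; rw [hl' y hy.2]
        · intro y hy; rw [Set.uIoc_of_le hb.2] at hy; simp only; rw [hr' y hy.1]
      · refine IntervalIntegrable.trans
          ((((hc'l i).pow 2).intervalIntegrable_of_Icc hb.1).congr ?_)
          ((((hc'r i).pow 2).intervalIntegrable b L).congr ?_)
        · intro y hy; rw [Set.uIoc_of_le hb.1] at hy; simp only [Pi.pow_apply]; rw [hl' y hy.2]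
        · intro y hy; rw [Set.uIoc_of_le hb.2] at hy; simp only [Pi.pow_apply]; rw [hr' y hy.1]
    have hF := hform h h' hw
    obtain ⟨-, hsq⟩ := square_completion (p := b) hb.1 hS hsym hWo hfc
      (fun i x hx => (hf x ⟨hx.1.1.le, hx.1.2.le⟩ i).hasDerivAt (Icc_mem_nhds hx.1.1 hx.1.2))
      (fun i => (hc'l i).intervalIntegrable_of_Icc hb.1)
      (fun i => ((hc'l i).pow 2).intervalIntegrable_of_Icc hb.1)
    have hq0 : ∫ x in (-L)..b, ∑ i, (f' x i - (S x *ᵥ f x) i) ^ 2 = 0 := by simp [hf']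
    have hWl : potInt W (-L) b h = potInt W (-L) b f := by
      refine intervalIntegral.integral_congr fun y hy => ?_
      rw [Set.uIcc_of_le hb.1] at hy
      rw [hl y hy.2]
    have hKl : kinInt κ (-L) b h h' = kinInt κ (-L) b f f' := by
      refine intervalIntegral.integral_congr fun y hy => ?_
      rw [Set.uIcc_of_le hb.1] at hy
      rw [hl y hy.2, hl' y hy.2]
    have hKr : kinInt κ b L h h' = kinInt κ b L e e' := by
      refine intervalIntegral.integral_congr_ae ?_
      filter_upwards [hrr] with y hy hy'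
      rw [hr y (hy hy').le, hr' y (hy hy')]
    have hWr := potInt_nonneg hWp hb.2 h
    have iKl : IntervalIntegrable (fun x => (∑ i, h' x i ^ 2) + ∑ i, κ i ^ 2 * h x i ^ 2) volume (-L) b := by
      refine (ContinuousOn.intervalIntegrable_of_Icc hb.1
        (u := fun x => (∑ i, f' x i ^ 2) + ∑ i, κ i ^ 2 * f x i ^ 2) (by fun_prop)).congr ?_
      intro y hy; rw [Set.uIoc_of_le hb.1] at hy; simp only; rw [hl y hy.2, hl' y hy.2]
    have iKr : IntervalIntegrable (fun x => (∑ i, h' x i ^ 2) + ∑ i, κ i ^ 2 * h x i ^ 2) volume b L := by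
      refine (Continuous.intervalIntegrable
        (u := fun x => (∑ i, e' x i ^ 2) + ∑ i, κ i ^ 2 * e x i ^ 2) (by fun_prop) b L).congr ?_
      intro y hy; rw [Set.uIoc_of_le hb.2] at hy; simp only; rw [hr y hy.1.le, hr' y hy.1]
    have iVl : IntervalIntegrable (fun x => h x ⬝ᵥ (W x *ᵥ h x)) volume (-L) b :=
      (contOn_qf hWo hcl).intervalIntegrable_of_Icc hb.1
    have iVr : IntervalIntegrable (fun x => h x ⬝ᵥ (W x *ᵥ h x)) volume b L :=
      (contOn_qf (fun i j => (hWc i j).continuousOn) hcr).intervalIntegrable_of_Icc hb.2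
    have sK : kinInt κ (-L) L h h' = kinInt κ (-L) b h h' + kinInt κ b L h h' :=
      (intervalIntegral.integral_add_adjacent_intervals iKl iKr).symm
    have sW : potInt W (-L) L h = potInt W (-L) b h + potInt W b L h :=
      (intervalIntegral.integral_add_adjacent_intervals iVl iVr).symm
    rw [wKin, sK, sW, hKl, hKr, hWl, hl (-L) hb.1, hr L hb.2, kinInt_exp κ (neg_one_sq)] at hF
    rw [hq0, hfz, h0, qf_diag] at hsq
    simp only [he, sub_self, mul_zero, Real.exp_zero, mul_one] at hF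
    linarith

/-- On a nonnegative form the clipping is inactive. -/
theorem flow_ricc {κ : Fin N → ℝ} (hκ : ∀ i, 0 < κ i) {W : ℝ → Mat N}
    (hWc : ∀ i j, Continuous fun y => W y i j) (hWp : ∀ x, (W x).PosSemidef) {L : ℝ} (hL : 0 < L)
    (hform : ∀ f f', IsWTest L f f' → potInt W (-L) L f ≤ wKin κ L f f')
    {S : ℝ → Mat N} (hS : IsFlow κ ((∑ i, κ i) + 1) W L S) :
    IsRicc κ W (-L) L S ∧ (∀ x ∈ Set.Icc (-L) L, (S x)ᵀ = S x) ∧
      ∀ x ∈ Set.Icc (-L) L, (diagonal κ - S x).PosSemidef ∧ (diagonal κ + S x).PosSemidef := by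
  set M := (∑ i, κ i) + 1 with hMdef
  have hM : 0 ≤ M := by have := Finset.sum_nonneg (fun i (_ : i ∈ Finset.univ) => (hκ i).le); linarith
  have hκM : ∀ i, κ i + 1 ≤ M := fun i => by
    have := Finset.single_le_sum (fun j _ => (hκ j).le) (Finset.mem_univ i); linarith
  have hWs : ∀ x, (W x)ᵀ = W x := fun x => by
    have := (hWp x).isHermitian
    rwa [IsHermitian, conjTranspose_eq_transpose_of_trivial] at this
  have hsym : ∀ x ∈ Set.Icc (-L) L, (S x)ᵀ = S x := by
    have hT : IsFlow κ M W L fun x => (S x)ᵀ := by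
      refine ⟨by simp only [hS.1, diagonal_transpose], fun x hx i j => ?_⟩
      have e : clip M ((S x)ᵀ) = (clip M (S x))ᵀ := rfl
      have e2 : (diagonal (fun i => κ i ^ 2) - clip M ((S x)ᵀ) * clip M ((S x)ᵀ) - W x) i j
          = (diagonal (fun i => κ i ^ 2) - clip M (S x) * clip M (S x) - W x) j i := by
        rw [e, ← transpose_mul, Matrix.sub_apply, Matrix.sub_apply, Matrix.sub_apply, Matrix.sub_apply,
          transpose_apply, ← transpose_apply (W x) i j, hWs x,
          ← transpose_apply (diagonal fun i => κ i ^ 2 : Mat N) i j, diagonal_transpose]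
      rw [e2]
      exact hS.2 x hx j i
    exact fun x hx => flow_unique hM hL hT hS x hx
  have hSc : ∀ i j, ContinuousOn (fun y => S y i j) (Set.Icc (-L) L) := fun i j x hx =>
    (hS.2 x hx i j).continuousWithinAt
  -- the true equation holds as long as the entries stay below `M`
  have hric : ∀ b ∈ Set.Icc (-L) L, (∀ x ∈ Set.Icc (-L) b, ∀ i j, |S x i j| ≤ M) →
      IsRicc κ W (-L) b S := by
    intro b hb hle x hx i j
    have e : clip M (S x) = S x := by
      ext i j
      have := abs_le.1 (hle x hx i j)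
      simp [clip, this.1, this.2]
    have := (hS.2 x ⟨hx.1, hx.2.trans hb.2⟩ i j).mono (Set.Icc_subset_Icc le_rfl hb.2)
    rwa [e] at this
  have hent : ∀ b ∈ Set.Icc (-L) L, IsRicc κ W (-L) b S → ∀ i j, |S b i j| < M := by
    intro b hb hR i j
    have hsym' : ∀ x ∈ Set.Icc (-L) b, (S x)ᵀ = S x := fun x hx => hsym x ⟨hx.1, hx.2.trans hb.2⟩
    have B := ricc_bounds hWc hWp hform hb hR hsym' hS.1
    have hs : S b j i = S b i j := by
      rw [← transpose_apply (S b) i j, hsym b hb]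
    have hp : ∀ t : ℝ, (Pi.single i 1 + Pi.single j t : Fin N → ℝ) ⬝ᵥ
        (S b *ᵥ (Pi.single i 1 + Pi.single j t)) = S b i i + 2 * t * S b i j + t ^ 2 * S b j j := by
      intro t
      simp only [add_dotProduct, mulVec_add, dotProduct_add, single_dotProduct, mulVec_single,
        Pi.smul_apply, Matrix.col_apply, MulOpposite.smul_eq_mul_unop, MulOpposite.unop_op, hs]
      ring
    have hk : (∑ l, κ l * (Pi.single i 1 + Pi.single j 1 : Fin N → ℝ) l ^ 2)
        + ∑ l, κ l * (Pi.single i 1 + Pi.single j (-1) : Fin N → ℝ) l ^ 2 = 2 * (κ i + κ j) := by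
      rw [← Finset.sum_add_distrib, Finset.sum_congr rfl fun l _ => show
        κ l * (Pi.single i 1 + Pi.single j 1 : Fin N → ℝ) l ^ 2
          + κ l * (Pi.single i 1 + Pi.single j (-1) : Fin N → ℝ) l ^ 2
        = 2 * (if l = i then κ l else 0) + 2 * (if l = j then κ l else 0) by
          simp only [Pi.add_apply, Pi.single_apply]; split_ifs <;> ring]
      simp [Finset.sum_add_distrib, ← Finset.mul_sum]
      ring
    have a1 := B (Pi.single i 1 + Pi.single j 1)
    have a2 := B (Pi.single i 1 + Pi.single j (-1))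
    rw [hp] at a1 a2
    have := hκM i
    have := hκM j
    rw [abs_lt]
    constructor <;> linarith [a1.1, a1.2, a2.1, a2.2]
  have hall : ∀ x ∈ Set.Icc (-L) L, ∀ i j, |S x i j| ≤ M := by
    by_contra! hbad
    set T := ⋃ i : Fin N, ⋃ j : Fin N, Set.Icc (-L) L ∩ (fun y => |S y i j|) ⁻¹' Set.Ici M with hT
    have hTc : IsClosed T := isClosed_iUnion_of_finite fun i => isClosed_iUnion_of_finite fun j =>
      (hSc i j).abs.preimage_isClosed_of_isClosed isClosed_Icc isClosed_Ici
    have hTs : T ⊆ Set.Icc (-L) L := fun y hy => by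
      simp only [hT, Set.mem_iUnion] at hy
      obtain ⟨_, _, h, -⟩ := hy; exact h
    obtain ⟨x, hx, i, j, hij⟩ := hbad
    have hne : T.Nonempty := ⟨x, by simp only [hT, Set.mem_iUnion]; exact ⟨i, j, hx, le_of_lt hij⟩⟩
    obtain ⟨x0, h0, hmin⟩ := (isCompact_Icc.of_isClosed_subset hTc hTs).exists_isLeast hne
    have hbe : ∀ y ∈ Set.Ico (-L) x0, ∀ i j, |S y i j| ≤ M := by
      intro y hy i j
      by_contra! hc
      refine (not_le.2 hy.2) (hmin ?_)
      simp only [hT, Set.mem_iUnion]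
      exact ⟨i, j, ⟨hy.1, hy.2.le.trans (hTs h0).2⟩, hc.le⟩
    simp only [hT, Set.mem_iUnion] at h0
    obtain ⟨i0, j0, hx0, hbig⟩ := h0
    have hstart : -L < x0 := by
      refine lt_of_le_of_ne hx0.1 fun h => ?_
      simp only [Set.mem_preimage, Set.mem_Ici, ← h, hS.1, diagonal_apply] at hbig
      split_ifs at hbig with hd
      · rw [abs_of_pos (hκ i0)] at hbig; linarith [hκM i0]
      · simp at hbig; linarith [hκM i0, hκ i0]
    have hle : ∀ y ∈ Set.Icc (-L) x0, ∀ i j, |S y i j| ≤ M := by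
      intro y hy i j
      rcases hy.2.eq_or_lt with h | h
      · subst h
        refine le_on_closure (s := Set.Ico (-L) y) (f := fun z => |S z i j|) (g := fun _ => M)
          (fun z hz => hbe z hz i j) ?_ continuousOn_const (by rw [closure_Ico hstart.ne]; exact hy)
        rw [closure_Ico hstart.ne]
        exact ((hSc i j).mono (Set.Icc_subset_Icc le_rfl hx0.2)).abs
      · exact hbe y ⟨hy.1, h⟩ i j
    exact (not_le.2 (hent x0 hx0 (hric x0 hx0 hle) i0 j0)) hbig
  have hR := hric L (Set.right_mem_Icc.2 (by linarith)) hall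
  refine ⟨hR, hsym, fun x hx => ?_⟩
  have B := fun z => ricc_bounds hWc hWp hform hx
    (fun y hy i j => (hR y ⟨hy.1, hy.2.trans hx.2⟩ i j).mono (Set.Icc_subset_Icc le_rfl hx.2))
    (fun y hy => hsym y ⟨hy.1, hy.2.trans hx.2⟩) hS.1 z
  have hH : (S x).IsHermitian := by
    rw [IsHermitian, conjTranspose_eq_transpose_of_trivial, hsym x hx]
  refine ⟨PosSemidef.of_dotProduct_mulVec_nonneg ((isHermitian_diagonal κ).sub hH) fun z => ?_,
    PosSemidef.of_dotProduct_mulVec_nonneg ((isHermitian_diagonal κ).add hH) fun z => ?_⟩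
  · rw [star_trivial, sub_mulVec, dotProduct_sub, qf_diag]; linarith [(B z).1]
  · rw [star_trivial, add_mulVec, dotProduct_add, qf_diag]; linarith [(B z).2]

/-- If the endpoint matrix is definite, the form is coercive. -/
theorem coercive {κ : Fin N → ℝ} {W : ℝ → Mat N} (hWc : ∀ i j, Continuous fun y => W y i j) {L : ℝ}
    (hL : 0 < L) {S : ℝ → Mat N} (hS : IsRicc κ W (-L) L S)
    (hsym : ∀ x ∈ Set.Icc (-L) L, (S x)ᵀ = S x) (h0 : S (-L) = diagonal κ)
    (hR : (S L + diagonal κ).PosDef) :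
    ∃ δ, 0 < δ ∧ ∀ f f', IsWTest L f f' →
      potInt W (-L) L f + δ * (∫ x in (-L)..L, ∑ i, f x i ^ 2) ≤ wKin κ L f f' := by
  obtain ⟨B, hB⟩ : ∃ B, ∀ x ∈ Set.Icc (-L) L, ∀ v : Fin N → ℝ,
      |v ⬝ᵥ (S x *ᵥ v)| ≤ B * ∑ i, v i ^ 2 := by
    have hc : ∀ i j, ∃ C, ∀ x ∈ Set.Icc (-L) L, |S x i j| ≤ C := fun i j => by
      obtain ⟨C, hC⟩ := isCompact_Icc.exists_bound_of_continuousOn (hS.cont i j)
      exact ⟨C, fun x hx => (Real.norm_eq_abs _).symm.trans_le (hC x hx)⟩
    choose C hC using hc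
    refine ⟨∑ i, ∑ j, |C i j|, fun x hx v => ?_⟩
    calc |v ⬝ᵥ (S x *ᵥ v)| = |∑ i, ∑ j, v i * (S x i j * v j)| := by
          simp [dotProduct, Matrix.mulVec, Finset.mul_sum]
      _ ≤ ∑ i, |∑ j, v i * (S x i j * v j)| := Finset.abs_sum_le_sum_abs _ _
      _ ≤ ∑ i, ∑ j, |C i j| * ∑ l, v l ^ 2 := by
          refine Finset.sum_le_sum fun i _ => (Finset.abs_sum_le_sum_abs _ _).trans
            (Finset.sum_le_sum fun j _ => ?_)
          have hl : ∀ l, v l ^ 2 ≤ ∑ l, v l ^ 2 := fun l =>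
            Finset.single_le_sum (fun l _ => sq_nonneg (v l)) (Finset.mem_univ l)
          have h1 : |v i| * |v j| ≤ ∑ l, v l ^ 2 := by
            nlinarith [sq_nonneg (|v i| - |v j|), sq_abs (v i), sq_abs (v j), hl i, hl j]
          calc |v i * (S x i j * v j)| = |S x i j| * (|v i| * |v j|) := by
                rw [abs_mul, abs_mul]; ring
            _ ≤ |C i j| * ∑ l, v l ^ 2 :=
                mul_le_mul ((hC i j x hx).trans (le_abs_self _)) h1 (by positivity) (abs_nonneg _)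
      _ = _ := by simp [Finset.sum_mul]
  obtain ⟨r, hr, hRr⟩ : ∃ r, 0 < r ∧ r ≤ 1 ∧
      ∀ v : Fin N → ℝ, r * ∑ i, v i ^ 2 ≤ v ⬝ᵥ ((S L + diagonal κ) *ᵥ v) := by
    have hpos := hR.eigenvalues_pos
    refine ⟨(1 + ∑ i, (hR.isHermitian.eigenvalues i)⁻¹)⁻¹, ?_, ?_, fun v => ?_⟩
    · have := Finset.sum_nonneg (fun i (_ : i ∈ Finset.univ) => (inv_pos.2 (hpos i)).le)
      positivity
    · have := Finset.sum_nonneg (fun i (_ : i ∈ Finset.univ) => (inv_pos.2 (hpos i)).le)
      exact inv_le_one_of_one_le₀ (by linarith)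
    · rw [qform_eq hR.isHermitian, show ∑ i, v i ^ 2 = v ⬝ᵥ v by simp [dotProduct, sq],
        ← normSq_eU hR.isHermitian v, dotProduct, Finset.mul_sum]
      refine Finset.sum_le_sum fun i _ => ?_
      rw [sq]
      refine mul_le_mul_of_nonneg_right ?_ (mul_self_nonneg _)
      have h2 := Finset.single_le_sum (fun j _ => (inv_pos.2 (hpos j)).le) (Finset.mem_univ i)
      refine inv_le_of_inv_le₀ (hpos i) ?_
      linarith
  set c := |2 * B + 1| with hc
  refine ⟨r / (2 * L * Real.exp (2 * c * L)), by positivity, fun f f' hf => ?_⟩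
  obtain ⟨p, hp⟩ := hf.deriv
  have hLL : -L ≤ L := by linarith
  obtain ⟨iQ, hsq⟩ := square_completion (p := p) hLL hS hsym (fun i j => (hWc i j).continuousOn)
    hf.cont hp hf.int hf.int2
  set Q := ∫ x in (-L)..L, ∑ i, (f' x i - (S x *ᵥ f x) i) ^ 2 with hQ
  have hQ0 : 0 ≤ Q := intervalIntegral.integral_nonneg hLL fun x _ =>
    Finset.sum_nonneg fun i _ => sq_nonneg _
  have hpt : ∀ y ∈ Set.Icc (-L) L,
      ∑ i, f y i ^ 2 ≤ Real.exp (2 * c * L) * ((∑ i, f L i ^ 2) + Q) := by
    intro y hy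
    have hsub : Set.Icc y L ⊆ Set.Icc (-L) L := Set.Icc_subset_Icc hy.1 le_rfl
    have hu : Set.uIcc y L ⊆ Set.uIcc (-L) L := by
      rw [Set.uIcc_of_le hy.2, Set.uIcc_of_le hLL]; exact hsub
    have hfy : ∀ i, ContinuousOn (fun z => f z i) (Set.Icc y L) := fun i => (hf.cont i).mono hsub
    have iD : IntervalIntegrable
        (fun z => ∑ i, (2 * f z i * f' z i + c * f z i ^ 2) * Real.exp (c * z)) volume y L := by
      refine (IntervalIntegrable.sum Finset.univ
        (f := fun i z => (2 * f z i * f' z i + c * f z i ^ 2) * Real.exp (c * z))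
        fun i _ => ?_).congr (fun z _ => by simp [Finset.sum_apply])
      refine (IntervalIntegrable.add ?_ ?_).mul_continuousOn (by fun_prop)
      · refine ((hf.int i).mono_set hu).continuousOn_mul ?_
        rw [Set.uIcc_of_le hy.2]; fun_prop
      · refine ContinuousOn.intervalIntegrable ?_
        rw [Set.uIcc_of_le hy.2]; fun_prop
    have key : (∫ z in y..L, ∑ i, (2 * f z i * f' z i + c * f z i ^ 2) * Real.exp (c * z))
        = (∑ i, f L i ^ 2 * Real.exp (c * L)) - ∑ i, f y i ^ 2 * Real.exp (c * y) := by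
      refine MeasureTheory.integral_eq_of_hasDerivAt_off_countable_of_le
        (fun z => ∑ i, f z i ^ 2 * Real.exp (c * z)) _ hy.2 (Set.countable_singleton p)
        (by fun_prop) (fun z hz => ?_) iD
      refine HasDerivAt.fun_sum fun i _ => ?_
      refine (((hp i z ⟨⟨hy.1.trans_lt hz.1.1, hz.1.2⟩, hz.2⟩).pow 2).mul
        (((hasDerivAt_id z).const_mul c).exp)).congr_deriv ?_
      simp only [id_eq, Pi.pow_apply]; push_cast; ring
    have hlow : ∫ z in y..L, -(Real.exp (c * L) * ∑ i, (f' z i - (S z *ᵥ f z) i) ^ 2)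
        ≤ ∫ z in y..L, ∑ i, (2 * f z i * f' z i + c * f z i ^ 2) * Real.exp (c * z) := by
      refine intervalIntegral.integral_mono_on hy.2 (((iQ.mono_set hu).const_mul _).neg) iD
        fun z hz => ?_
      rw [← Finset.sum_mul]
      have hS2 := neg_abs_le (f z ⬝ᵥ (S z *ᵥ f z))
      have hB2 := hB z (hsub hz) (f z)
      have e : ∑ i, (2 * f z i * f' z i + c * f z i ^ 2) = 2 * (f z ⬝ᵥ (S z *ᵥ f z))
          + 2 * (∑ i, f z i * (f' z i - (S z *ᵥ f z) i)) + c * ∑ i, f z i ^ 2 := by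
        simp only [dotProduct, Finset.mul_sum, ← Finset.sum_add_distrib]
        exact Finset.sum_congr rfl fun i _ => by ring
      have e2 : -((∑ i, f z i ^ 2) + ∑ i, (f' z i - (S z *ᵥ f z) i) ^ 2)
          ≤ 2 * (∑ i, f z i * (f' z i - (S z *ᵥ f z) i)) := by
        simp only [Finset.mul_sum, ← Finset.sum_add_distrib, ← Finset.sum_neg_distrib]
        exact Finset.sum_le_sum fun i _ => by nlinarith [sq_nonneg (f z i + (f' z i - (S z *ᵥ f z) i))]
      have hF : 0 ≤ ∑ i, f z i ^ 2 := Finset.sum_nonneg fun i _ => sq_nonneg _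
      have hc2 : (2 * B + 1) * ∑ i, f z i ^ 2 ≤ c * ∑ i, f z i ^ 2 :=
        mul_le_mul_of_nonneg_right (le_abs_self _) hF
      have hX : -(∑ i, (f' z i - (S z *ᵥ f z) i) ^ 2)
          ≤ ∑ i, (2 * f z i * f' z i + c * f z i ^ 2) := by rw [e]; linarith
      have hex : Real.exp (c * z) ≤ Real.exp (c * L) :=
        Real.exp_le_exp.2 (mul_le_mul_of_nonneg_left hz.2 (abs_nonneg _))
      have hq : 0 ≤ ∑ i, (f' z i - (S z *ᵥ f z) i) ^ 2 := Finset.sum_nonneg fun i _ => sq_nonneg _
      nlinarith [mul_le_mul_of_nonneg_right hX (Real.exp_pos (c * z)).le,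
        mul_le_mul_of_nonneg_left hex hq]
    rw [intervalIntegral.integral_neg, intervalIntegral.integral_const_mul, key, ← Finset.sum_mul,
      ← Finset.sum_mul] at hlow
    have hQy : ∫ z in y..L, ∑ i, (f' z i - (S z *ᵥ f z) i) ^ 2 ≤ Q :=
      intervalIntegral.integral_mono_interval hy.1 hy.2 le_rfl
        (Filter.Eventually.of_forall fun z => Finset.sum_nonneg fun i _ => sq_nonneg _) iQ
    have hey : Real.exp (c * L) ≤ Real.exp (2 * c * L) * Real.exp (c * y) := by
      rw [← Real.exp_add]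
      refine Real.exp_le_exp.2 ?_
      nlinarith [hy.1, abs_nonneg (2 * B + 1)]
    refine le_of_mul_le_mul_right ?_ (Real.exp_pos (c * y))
    nlinarith [mul_le_mul_of_nonneg_left hQy (Real.exp_pos (c * L)).le,
      mul_le_mul_of_nonneg_right hey (add_nonneg (Finset.sum_nonneg fun i (_ : i ∈ Finset.univ) =>
        sq_nonneg (f L i)) hQ0)]
  have hint : ∫ x in (-L)..L, ∑ i, f x i ^ 2
      ≤ 2 * L * (Real.exp (2 * c * L) * ((∑ i, f L i ^ 2) + Q)) := by
    have hc0 : ∫ _ in (-L)..L, Real.exp (2 * c * L) * ((∑ i, f L i ^ 2) + Q)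
        = 2 * L * (Real.exp (2 * c * L) * ((∑ i, f L i ^ 2) + Q)) := by
      rw [intervalIntegral.integral_const, smul_eq_mul]; ring
    rw [← hc0]
    refine intervalIntegral.integral_mono_on hLL (ContinuousOn.intervalIntegrable_of_Icc hLL ?_)
      intervalIntegrable_const hpt
    have := hf.cont
    fun_prop
  have hend := hRr.2 (f L)
  rw [add_mulVec, dotProduct_add, qf_diag] at hend
  rw [h0, qf_diag] at hsq
  rw [wKin]
  have h3 : r / (2 * L * Real.exp (2 * c * L)) * (∫ x in (-L)..L, ∑ i, f x i ^ 2)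
      ≤ r * ((∑ i, f L i ^ 2) + Q) :=
    (mul_le_mul_of_nonneg_left hint (by positivity)).trans (le_of_eq (by field_simp))
  nlinarith [mul_le_mul_of_nonneg_right hRr.1 hQ0]

end

end Vale.Agent.P371.Full
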