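import Vale.Agent.P371.Full.Defs
import Mathlib.Analysis.ODE.PicardLindelof
import Mathlib.Analysis.ODE.Gronwall
import Mathlib.Analysis.ODE.ExistUnique

/-! # M3a: the clipped Riccati flow

Clipping the entries at `M` makes the field globally Lipschitz; the bounds `-K ≤ S ≤ K` proved in the
variational layer remove the clipping afterwards.
-/

namespace Vale.Agent.P371.Full

open MeasureTheory Matrix Filter Topology
open scoped NNReal

noncomputable section

/-- Clip every entry to `[-M, M]`. -/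
def clip {N : ℕ} (M : ℝ) (S : Mat N) : Mat N := Matrix.of fun i j => max (-M) (min M (S i j))

/-- A solution on `[-L, L]`, started at `K`, of the clipped Riccati equation with potential `V`. -/
def IsFlow {N : ℕ} (κ : Fin N → ℝ) (M : ℝ) (V : ℝ → Mat N) (L : ℝ) (S : ℝ → Mat N) : Prop :=
  S (-L) = diagonal κ ∧ ∀ x ∈ Set.Icc (-L) L, ∀ i j, HasDerivWithinAt (fun y => S y i j)
    ((diagonal (fun i => κ i ^ 2) - clip M (S x) * clip M (S x) - V x) i j) (Set.Icc (-L) L) x

/-- Global existence for a bounded Lipschitz field on an interval. -/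
theorem exists_global {E : Type} [NormedAddCommGroup E] [NormedSpace ℝ E] [CompleteSpace E]
    {f : ℝ → E → E} {a b : ℝ} (hab : a ≤ b) {K C : ℝ≥0}
    (hlip : ∀ t ∈ Set.Icc a b, LipschitzWith K (f t))
    (hcont : ∀ x, ContinuousOn (fun t => f t x) (Set.Icc a b))
    (hbd : ∀ t ∈ Set.Icc a b, ∀ x, ‖f t x‖ ≤ C) (x₀ : E) :
    ∃ u : ℝ → E, u a = x₀ ∧ ∀ t ∈ Set.Icc a b, HasDerivWithinAt u (f t (u t)) (Set.Icc a b) t := by
  have h : IsPicardLindelof f (⟨a, le_rfl, hab⟩ : Set.Icc a b) x₀ (C * Real.toNNReal (b - a)) 0 C K :=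
    { lipschitzOnWith := fun t ht => (hlip t ht).lipschitzOnWith
      continuousOn := fun x _ => hcont x
      norm_le := fun t ht x _ => hbd t ht x
      mul_max_le := by
        simp only [NNReal.coe_mul, Real.coe_toNNReal _ (sub_nonneg.mpr hab), NNReal.coe_zero, sub_zero,
          sub_self, max_eq_left (sub_nonneg.mpr hab), le_refl] }
  exact h.exists_eq_forall_mem_Icc_hasDerivWithinAt₀

theorem deriv_right {E : Type} [NormedAddCommGroup E] [NormedSpace ℝ E] {u : ℝ → E} {u' : E} {a b t : ℝ}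
    (h : HasDerivWithinAt u u' (Set.Icc a b) t) (ht : t ∈ Set.Ico a b) :
    HasDerivWithinAt u u' (Set.Ici t) t :=
  h.mono_of_mem_nhdsWithin (Icc_mem_nhdsGE_of_mem ht)

theorem clip_abs_le {M : ℝ} (hM : 0 ≤ M) (x : ℝ) : |max (-M) (min M x)| ≤ M :=
  abs_le.mpr ⟨le_max_left _ _, max_le (by linarith) (min_le_left _ _)⟩

theorem clip_sub_le (M x y : ℝ) : |max (-M) (min M x) - max (-M) (min M y)| ≤ |x - y| :=
  (abs_max_sub_max_le_max (-M) (min M x) (-M) (min M y)).trans (by
    rw [sub_self, abs_zero, max_eq_right (abs_nonneg _)]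
    exact (abs_min_sub_min_le_max M x M y).trans (le_of_eq (by
      rw [sub_self, abs_zero, max_eq_right (abs_nonneg _)])))

/-- The clipped Riccati field on arrays. -/
def field {N : ℕ} (κ : Fin N → ℝ) (M : ℝ) (V : ℝ → Mat N) (t : ℝ) (y : Fin N → Fin N → ℝ) :
    Fin N → Fin N → ℝ :=
  fun i j => (diagonal (fun i => κ i ^ 2) - clip M (Matrix.of y) * clip M (Matrix.of y) - V t) i j

theorem field_lipschitz {N : ℕ} (κ : Fin N → ℝ) {M : ℝ} (hM : 0 ≤ M) (V : ℝ → Mat N) (t : ℝ) :
    LipschitzWith (Real.toNNReal (N * (2 * M))) (field κ M V t) := by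
  refine LipschitzWith.of_dist_le_mul fun y z => ?_
  rw [Real.coe_toNNReal _ (by positivity)]
  refine (dist_pi_le_iff (by positivity)).mpr fun i => (dist_pi_le_iff (by positivity)).mpr fun j => ?_
  simp only [field, Matrix.sub_apply, Real.dist_eq, Matrix.mul_apply, clip, Matrix.of_apply]
  rw [show ∀ p q r w : ℝ, (p - q - r) - (p - w - r) = w - q by intros; ring,
    ← Finset.sum_sub_distrib, mul_assoc]
  refine (Finset.abs_sum_le_sum_abs _ _).trans ((Finset.sum_le_card_nsmul _ _ (2 * M * dist y z)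
    fun k _ => ?_).trans (by simp))
  have hd : ∀ a b, |y a b - z a b| ≤ dist y z := fun a b => by
    rw [← Real.dist_eq]
    exact (dist_le_pi_dist (y a) (z a) b).trans (dist_le_pi_dist y z a)
  set c : ℝ → ℝ := fun x => max (-M) (min M x)
  show |c (z i k) * c (z k j) - c (y i k) * c (y k j)| ≤ _
  have e : c (z i k) * c (z k j) - c (y i k) * c (y k j)
      = c (z i k) * (c (z k j) - c (y k j)) + (c (z i k) - c (y i k)) * c (y k j) := by ring
  rw [e]
  have h1 : ∀ a b, |c (z a b) - c (y a b)| ≤ dist y z := fun a b =>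
    (clip_sub_le M _ _).trans (by rw [abs_sub_comm]; exact hd a b)
  calc _ ≤ |c (z i k)| * |c (z k j) - c (y k j)| + |c (z i k) - c (y i k)| * |c (y k j)| := by
        rw [← abs_mul, ← abs_mul]; exact abs_add_le _ _
    _ ≤ M * dist y z + dist y z * M :=
        add_le_add (mul_le_mul (clip_abs_le hM _) (h1 k j) (abs_nonneg _) hM)
          (mul_le_mul (h1 i k) (clip_abs_le hM _) (abs_nonneg _) dist_nonneg)
    _ = 2 * M * dist y z := by ring

theorem flow_hasDeriv {N : ℕ} {κ : Fin N → ℝ} {M L : ℝ} {V S : ℝ → Mat N} (hS : IsFlow κ M V L S) :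
    ∀ x ∈ Set.Icc (-L) L, HasDerivWithinAt (fun y => (fun i j => S y i j : Fin N → Fin N → ℝ))
      (field κ M V x (fun i j => S x i j)) (Set.Icc (-L) L) x := fun x hx =>
  hasDerivWithinAt_pi.mpr fun i => hasDerivWithinAt_pi.mpr fun j => hS.2 x hx i j

theorem flow_continuous {N : ℕ} {κ : Fin N → ℝ} {M L : ℝ} {V S : ℝ → Mat N} (hS : IsFlow κ M V L S) :
    ContinuousOn (fun y => (fun i j => S y i j : Fin N → Fin N → ℝ)) (Set.Icc (-L) L) :=
  fun x hx => (flow_hasDeriv hS x hx).continuousWithinAt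

/-- Two flows with nearby potentials stay near. -/
theorem flow_dist {N : ℕ} {κ : Fin N → ℝ} {M L : ℝ} (hM : 0 ≤ M) {V V' S T : ℝ → Mat N}
    (hS : IsFlow κ M V L S) (hT : IsFlow κ M V' L T) {ε : ℝ} (hε : 0 ≤ ε)
    (hV : ∀ x ∈ Set.Icc (-L) L, ∀ i j, |V' x i j - V x i j| ≤ ε) :
    ∀ x ∈ Set.Icc (-L) L, ∀ i j, |S x i j - T x i j|
      ≤ gronwallBound 0 (Real.toNNReal (N * (2 * M))) ε (x - -L) := by
  intro x hx i j
  have h := dist_le_of_approx_trajectories_ODE_of_mem (v := field κ M V) (s := fun _ => Set.univ)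
    (εf := 0) (εg := ε) (δ := 0) (fun t _ => (field_lipschitz κ hM V t).lipschitzOnWith)
    (flow_continuous hS) (fun t ht => deriv_right (flow_hasDeriv hS t (Set.Ico_subset_Icc_self ht)) ht)
    (fun t _ => (dist_self _).le) (fun _ _ => trivial) (flow_continuous hT)
    (fun t ht => deriv_right (flow_hasDeriv hT t (Set.Ico_subset_Icc_self ht)) ht)
    (fun t ht => ?_) (fun _ _ => trivial) (le_of_eq (by rw [hS.1, hT.1, dist_self])) x hx
  · rw [zero_add] at h
    refine le_trans ?_ h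
    rw [← Real.dist_eq]
    exact (dist_le_pi_dist (fun j => S x i j) (fun j => T x i j) j).trans
      (dist_le_pi_dist (fun i j => S x i j) (fun i j => T x i j) i)
  · refine (dist_pi_le_iff hε).mpr fun a => (dist_pi_le_iff hε).mpr fun b => ?_
    simp only [field, Matrix.sub_apply, Real.dist_eq]
    rw [show ∀ p q r : ℝ, (p - q) - (p - r) = -(q - r) by intros; ring, abs_neg]
    exact hV t (Set.Ico_subset_Icc_self ht) a b

/-- Continuous dependence on the parameter. -/
theorem exists_flow {N : ℕ} (κ : Fin N → ℝ) {M L : ℝ} (hM : 0 ≤ M) (hL : 0 < L)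
    {α : Type} [MetricSpace α] {Ω : Set α} {V : α → ℝ → Mat N}
    (hc : ∀ i j, ContinuousOn (fun p : α × ℝ => V p.1 p.2 i j) (Ω ×ˢ Set.univ)) :
    ∃ S : α → ℝ → Mat N, (∀ c ∈ Ω, IsFlow κ M (V c) L (S c)) ∧
      ∀ i j, ContinuousOn (fun c => S c L i j) Ω := by
  classical
  have hx : ∀ c ∈ Ω, ∀ i j, Continuous fun t => V c t i j := fun c hcΩ i j =>
    ((hc i j).comp_continuous (continuous_const.prodMk continuous_id)
      fun t => ⟨hcΩ, Set.mem_univ t⟩)
  have hex : ∀ c ∈ Ω, ∃ S, IsFlow κ M (V c) L S := by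
    intro c hcΩ
    have hcont : ∀ y, Continuous fun t => field κ M (V c) t y := fun y =>
      continuous_pi fun i => continuous_pi fun j => by
        simp only [field, Matrix.sub_apply]
        exact continuous_const.sub (hx c hcΩ i j)
    obtain ⟨B, hB⟩ := (isCompact_Icc (a := -L) (b := L)).exists_bound_of_continuousOn
      ((hcont 0).continuousOn)
    have hbd : ∀ t ∈ Set.Icc (-L) L, ∀ y,
        ‖field κ M (V c) t y‖ ≤ ((Real.toNNReal (B + N * (M * M)) : ℝ≥0) : ℝ) := by
      intro t ht y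
      refine le_trans ?_ (Real.le_coe_toNNReal _)
      have h0 : field κ M (V c) t y
          = field κ M (V c) t 0 - fun i j => (clip M (Matrix.of y) * clip M (Matrix.of y)) i j := by
        funext i j
        simp only [field, Pi.sub_apply, Matrix.sub_apply]
        have : (clip M (Matrix.of (0 : Fin N → Fin N → ℝ))) = 0 := by
          ext a b; simp [clip, hM]
        rw [this, Matrix.zero_mul, Matrix.zero_apply]; ring
      rw [h0]
      refine (norm_sub_le _ _).trans (add_le_add (hB t ht) ?_)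
      refine (pi_norm_le_iff_of_nonneg (by positivity)).mpr fun i =>
        (pi_norm_le_iff_of_nonneg (by positivity)).mpr fun j => ?_
      simp only [Real.norm_eq_abs, Matrix.mul_apply, clip, Matrix.of_apply]
      refine (Finset.abs_sum_le_sum_abs _ _).trans ((Finset.sum_le_card_nsmul _ _ (M * M)
        fun k _ => ?_).trans (by simp))
      rw [abs_mul]
      exact mul_le_mul (clip_abs_le hM _) (clip_abs_le hM _) (abs_nonneg _) hM
    obtain ⟨u, hu0, hu⟩ := exists_global (by linarith)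
      (fun t _ => field_lipschitz κ hM (V c) t) (fun y => (hcont y).continuousOn) hbd
      (fun i j => diagonal κ i j)
    refine ⟨fun x => Matrix.of (u x), ?_, fun x hx' i j => ?_⟩
    · show Matrix.of (u (-L)) = _
      rw [hu0]; rfl
    · exact hasDerivWithinAt_pi.mp (hasDerivWithinAt_pi.mp (hu x hx') i) j
  choose! S hS using hex
  refine ⟨S, hS, fun i j c₀ h₀ => ?_⟩
  rw [ContinuousWithinAt, Metric.tendsto_nhds]
  intro ε hε
  set K : ℝ≥0 := Real.toNNReal (N * (2 * M))
  have hlim : Tendsto (fun η => gronwallBound 0 K η (L - -L)) (𝓝 0) (𝓝 0) := by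
    have := (gronwallBound_continuous_ε 0 (K : ℝ) (L - -L)).tendsto 0
    rwa [gronwallBound_ε0_δ0] at this
  obtain ⟨η, hη, hηε⟩ : ∃ η : ℝ, 0 < η ∧ gronwallBound 0 K η (L - -L) < ε := by
    obtain ⟨r, hr, hh⟩ := Metric.eventually_nhds_iff.mp (hlim.eventually_lt_const hε)
    exact ⟨r / 2, half_pos hr, hh (by rw [Real.dist_eq, sub_zero, abs_of_pos (half_pos hr)]; linarith)⟩
  have hev : ∀ᶠ c in 𝓝 c₀, ∀ x ∈ Set.Icc (-L) L, c ∈ Ω → ∀ a b, |V c₀ x a b - V c x a b| ≤ η := by
    refine (isCompact_Icc).eventually_forall_of_forall_eventually fun x _ => ?_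
    suffices h : ∀ a b, ∀ᶠ z : α × ℝ in 𝓝 (c₀, x), z.1 ∈ Ω → |V c₀ z.2 a b - V z.1 z.2 a b| ≤ η by
      filter_upwards [eventually_all.mpr fun a => eventually_all.mpr fun b => h a b] with z hz hzΩ a b
      exact hz a b hzΩ
    intro a b
    have h1 := (hc a b (c₀, x) ⟨h₀, Set.mem_univ x⟩).tendsto
    have h2 : ∀ᶠ z : α × ℝ in 𝓝 (c₀, x), z ∈ Ω ×ˢ Set.univ → |V z.1 z.2 a b - V c₀ x a b| < η / 2 :=
      eventually_nhdsWithin_iff.mp (h1.eventually (Metric.ball_mem_nhds _ (half_pos hη)))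
    have h3 : ∀ᶠ z : α × ℝ in 𝓝 (c₀, x), |V c₀ z.2 a b - V c₀ x a b| < η / 2 :=
      (((hx c₀ h₀ a b).comp continuous_snd).tendsto (c₀, x)).eventually
        (Metric.ball_mem_nhds _ (half_pos hη))
    filter_upwards [h2, h3] with z hz2 hz3 hzΩ
    have := abs_sub_lt_iff.mp (hz2 ⟨hzΩ, Set.mem_univ _⟩)
    have := abs_sub_lt_iff.mp hz3
    exact abs_sub_le_iff.mpr ⟨by linarith, by linarith⟩
  filter_upwards [nhdsWithin_le_nhds hev, self_mem_nhdsWithin] with c hc' hcΩ
  rw [Real.dist_eq]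
  exact lt_of_le_of_lt (flow_dist hM (hS c hcΩ) (hS c₀ h₀) hη.le (fun x hx' a b => hc' x hx' hcΩ a b)
    L ⟨by linarith, le_rfl⟩ i j) hηε

theorem flow_unique {N : ℕ} {κ : Fin N → ℝ} {M L : ℝ} (hM : 0 ≤ M) (hL : 0 < L) {V S T : ℝ → Mat N}
    (hS : IsFlow κ M V L S) (hT : IsFlow κ M V L T) : ∀ x ∈ Set.Icc (-L) L, S x = T x := by
  intro x hx
  ext i j
  have h := flow_dist hM hS hT le_rfl (fun x _ i j => by simp) x hx i j
  rw [gronwallBound_ε0_δ0] at h
  exact sub_eq_zero.mp (abs_nonpos_iff.mp h)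

/-- Forward solution of `g' = A g`. -/
theorem exists_linear {N : ℕ} {a b : ℝ} (hab : a ≤ b) {A : ℝ → Mat N}
    (hA : ∀ i j, ContinuousOn (fun x => A x i j) (Set.Icc a b)) (z : Fin N → ℝ) :
    ∃ g : ℝ → Fin N → ℝ, g a = z ∧
      ∀ x ∈ Set.Icc a b, HasDerivWithinAt g (A x *ᵥ g x) (Set.Icc a b) x := by
  have hbd : ∀ i j, ∃ C, ∀ x ∈ Set.Icc a b, |A x i j| ≤ C := fun i j => by
    obtain ⟨C, hC⟩ := isCompact_Icc.exists_bound_of_continuousOn (hA i j)
    exact ⟨C, fun x hx => (Real.norm_eq_abs _).symm.le.trans (hC x hx)⟩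
  choose C hC using hbd
  set K := ∑ i, ∑ j, |C i j|
  have hK0 : 0 ≤ K := Finset.sum_nonneg fun i _ => Finset.sum_nonneg fun j _ => abs_nonneg _
  set R := ‖z‖ * Real.exp (K * (b - a))
  have hR : 0 ≤ R := by positivity
  set c : ℝ → ℝ := fun x => max (-R) (min R x)
  set f : ℝ → (Fin N → ℝ) → Fin N → ℝ := fun t y => A t *ᵥ fun j => c (y j)
  have hsum : ∀ t ∈ Set.Icc a b, ∀ i, ∑ j, |A t i j| ≤ K := fun t ht i =>
    (Finset.sum_le_sum fun j _ => (hC i j t ht).trans (le_abs_self _)).trans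
      (Finset.single_le_sum (f := fun i => ∑ j, |C i j|)
        (fun i _ => Finset.sum_nonneg fun j _ => abs_nonneg _) (Finset.mem_univ i))
  have hmv : ∀ t ∈ Set.Icc a b, ∀ (w : Fin N → ℝ) r, (∀ j, |w j| ≤ r) → ∀ i, |(A t *ᵥ w) i| ≤ K * r := by
    intro t ht w r hw i
    have hr : 0 ≤ r := (abs_nonneg _).trans (hw i)
    refine le_trans ?_ (mul_le_mul_of_nonneg_right (hsum t ht i) hr)
    rw [Finset.sum_mul]
    simp only [Matrix.mulVec, dotProduct]
    refine (Finset.abs_sum_le_sum_abs _ _).trans (Finset.sum_le_sum fun j _ => ?_)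
    rw [abs_mul]
    exact mul_le_mul_of_nonneg_left (hw j) (abs_nonneg _)
  have hlip : ∀ t ∈ Set.Icc a b, LipschitzWith (Real.toNNReal K) (f t) := fun t ht =>
    LipschitzWith.of_dist_le_mul fun y w => by
      rw [Real.coe_toNNReal _ hK0]
      refine (dist_pi_le_iff (mul_nonneg hK0 dist_nonneg)).mpr fun i => ?_
      simp only [f]
      rw [Real.dist_eq, ← Pi.sub_apply, ← Matrix.mulVec_sub]
      refine hmv t ht _ _ (fun j => ?_) i
      refine (clip_sub_le R _ _).trans ?_
      rw [← Real.dist_eq]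
      exact dist_le_pi_dist y w j
  have hbnd : ∀ t ∈ Set.Icc a b, ∀ y, ‖f t y‖ ≤ ((Real.toNNReal (K * R) : ℝ≥0) : ℝ) := fun t ht y => by
    rw [Real.coe_toNNReal _ (by positivity)]
    refine (pi_norm_le_iff_of_nonneg (by positivity)).mpr fun i => ?_
    rw [Real.norm_eq_abs]
    exact hmv t ht _ R (fun j => clip_abs_le hR _) i
  have hcont : ∀ y, ContinuousOn (fun t => f t y) (Set.Icc a b) := fun y =>
    continuousOn_pi.mpr fun i => by
      simp only [f, Matrix.mulVec, dotProduct]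
      exact continuousOn_finsetSum _ fun j _ => (hA i j).mul continuousOn_const
  obtain ⟨g, hg0, hg⟩ := exists_global hab hlip hcont hbnd z
  have happ : ∀ x ∈ Set.Icc a b, ‖g x‖ ≤ R := fun x hx => by
    have h := norm_le_gronwallBound_of_norm_deriv_right_le (δ := ‖z‖) (K := K) (ε := 0)
      (fun t ht => (hg t ht).continuousWithinAt)
      (fun t ht => deriv_right (hg t (Set.Ico_subset_Icc_self ht)) ht) (by rw [hg0])
      (fun t ht => by
        rw [add_zero]
        refine (pi_norm_le_iff_of_nonneg (by positivity)).mpr fun i => ?_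
        rw [Real.norm_eq_abs]
        refine hmv t (Set.Ico_subset_Icc_self ht) _ _ (fun j => ?_) i
        refine le_trans ?_ (norm_le_pi_norm (g t) j)
        rw [Real.norm_eq_abs]
        have := clip_sub_le R (g t j) 0
        simpa [c, hR] using this) x hx
    rw [gronwallBound_ε0] at h
    refine h.trans (mul_le_mul_of_nonneg_left (Real.exp_le_exp.mpr ?_) (norm_nonneg _))
    exact mul_le_mul_of_nonneg_left (by linarith [hx.2]) hK0
  refine ⟨g, hg0, fun x hx => ?_⟩
  have e : (fun j => c (g x j)) = g x := funext fun j => by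
    have := abs_le.mp ((Real.norm_eq_abs _).symm.le.trans ((norm_le_pi_norm (g x) j).trans (happ x hx)))
    simp only [c, min_eq_right this.2, max_eq_right this.1]
  have h := hg x hx
  simp only [f, e] at h
  exact h

/-- Backward solution of `f' = A f`. -/
theorem exists_linear_back {N : ℕ} {a b : ℝ} (hab : a ≤ b) {A : ℝ → Mat N}
    (hA : ∀ i j, ContinuousOn (fun x => A x i j) (Set.Icc a b)) (z : Fin N → ℝ) :
    ∃ f : ℝ → Fin N → ℝ, f b = z ∧ ∀ x ∈ Set.Icc a b, ∀ i,
      HasDerivWithinAt (fun y => f y i) ((A x *ᵥ f x) i) (Set.Icc a b) x := by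
  have hmap : Set.MapsTo (fun x => a + b - x) (Set.Icc a b) (Set.Icc a b) := fun x hx =>
    ⟨by linarith [hx.2], by linarith [hx.1]⟩
  obtain ⟨g, hg0, hg⟩ := exists_linear hab (A := fun x => -A (a + b - x))
    (fun i j => ((hA i j).comp (continuousOn_const.sub continuousOn_id) hmap).neg) z
  refine ⟨fun x => g (a + b - x), by simp [hg0], fun x hx i => ?_⟩
  have hd : HasDerivWithinAt (fun y => a + b - y) (-1) (Set.Icc a b) x :=
    ((hasDerivAt_id x).const_sub (a + b)).hasDerivWithinAt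
  have h := (hasDerivWithinAt_pi.mp (hg (a + b - x) (hmap hx)) i).scomp x hd hmap
  refine h.congr_deriv ?_
  rw [show a + b - (a + b - x) = x by ring]
  simp [Matrix.neg_mulVec]

end

end Vale.Agent.P371.Full
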