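import Vale.Agent.P371.Full.MatBasic
import Mathlib.Analysis.Complex.Exponential
import Mathlib.Analysis.Matrix.Normed

namespace Vale.Agent.P371.Full

open Matrix Filter Topology

noncomputable section

variable {n : ℕ}

theorem trace_mul_le_half (P Q : Mat n) :
    (P * Q).trace ≤ ((Pᵀ * P).trace + (Qᵀ * Q).trace) / 2 := by
  simp only [Matrix.trace, Matrix.diag, Matrix.mul_apply, transpose_apply]
  have h : ∑ i, ∑ j, (P i j * P i j + Q j i * Q j i) / 2
      = ((∑ i, ∑ j, P j i * P j i) + ∑ i, ∑ j, Q j i * Q j i) / 2 := by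
    rw [Finset.sum_comm (f := fun i j => P j i * P j i), ← Finset.sum_add_distrib, Finset.sum_div]
    refine Finset.sum_congr rfl fun i _ => ?_
    rw [← Finset.sum_add_distrib, Finset.sum_div]
  rw [← h]
  exact Finset.sum_le_sum fun i _ => Finset.sum_le_sum fun j _ => by
    nlinarith [sq_nonneg (P i j - Q j i)]

theorem abs_trace_sq_le (M : Mat n) : |(M * M).trace| ≤ (Mᵀ * M).trace := by
  rw [abs_le]
  constructor
  · have h := trace_mul_le_half (-M) M
    simp only [neg_mul, trace_neg, transpose_neg, mul_neg, neg_neg] at h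
    linarith
  · linarith [trace_mul_le_half M M]

theorem trace_pow_cycle (P Q : Mat n) (k : ℕ) : ((P * Q) ^ k).trace = ((Q * P) ^ k).trace := by
  have h : ∀ j : ℕ, (P * Q) ^ (j + 1) = P * ((Q * P) ^ j * Q) := by
    intro j
    induction j with
    | zero => simp
    | succ j ih =>
      calc (P * Q) ^ (j + 1 + 1) = (P * Q) ^ (j + 1) * (P * Q) := pow_succ _ _
        _ = P * ((Q * P) ^ j * (Q * P) * Q) := by rw [ih]; simp only [Matrix.mul_assoc]
        _ = _ := by rw [← pow_succ]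
  cases k with
  | zero => simp
  | succ j => rw [h, trace_mul_comm, Matrix.mul_assoc, ← pow_succ]

theorem power_ineq (k : ℕ) :
    (∀ M : Mat n, |(M ^ 2 ^ (k + 1)).trace| ≤ ((Mᵀ * M) ^ 2 ^ k).trace) ∧
      ∀ P Q : Mat n, Pᵀ = P → Qᵀ = Q →
        ((P * Q) ^ 2 ^ k).trace ≤ (P ^ 2 ^ k * Q ^ 2 ^ k).trace := by
  induction k with
  | zero =>
    refine ⟨fun M => ?_, fun P Q _ _ => by simp⟩
    simpa [pow_succ] using abs_trace_sq_le M
  | succ k ih =>
    obtain ⟨key, chain⟩ := ih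
    refine ⟨fun M => ?_, fun P Q hP hQ => ?_⟩
    · have e : M ^ 2 ^ (k + 1 + 1) = (M * M) ^ 2 ^ (k + 1) := by
        rw [← pow_two, ← pow_mul]; ring_nf
      rw [e]
      refine (key (M * M)).trans ?_
      have e2 : (M * M)ᵀ * (M * M) = Mᵀ * (Mᵀ * M * M) := by
        rw [transpose_mul]; simp only [Matrix.mul_assoc]
      have e3 : Mᵀ * M * M * Mᵀ = (Mᵀ * M) * (M * Mᵀ) := by simp only [Matrix.mul_assoc]
      rw [e2, trace_pow_cycle, e3]
      have hP : (Mᵀ * M)ᵀ = Mᵀ * M := by simp [transpose_mul]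
      have hQ : (M * Mᵀ)ᵀ = M * Mᵀ := by simp [transpose_mul]
      refine (chain _ _ hP hQ).trans ((trace_mul_le_half _ _).trans (le_of_eq ?_))
      rw [transpose_pow, transpose_pow, hP, hQ, ← pow_add, ← pow_add,
        show 2 ^ k + 2 ^ k = 2 ^ (k + 1) by ring, trace_pow_cycle M Mᵀ]
      ring
    · refine (le_abs_self _).trans ((key (P * Q)).trans ?_)
      have e : (P * Q)ᵀ * (P * Q) = Q * (P * P * Q) := by
        rw [transpose_mul, hP, hQ]; simp only [Matrix.mul_assoc]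
      have e2 : P * P * Q * Q = (P * P) * (Q * Q) := by simp only [Matrix.mul_assoc]
      rw [e, trace_pow_cycle, e2]
      refine (chain (P * P) (Q * Q) (by simp [transpose_mul, hP]) (by simp [transpose_mul, hQ])).trans
        (le_of_eq ?_)
      rw [← pow_two, ← pow_two, ← pow_mul, ← pow_mul, ← pow_succ']

attribute [local instance] Matrix.linftyOpNormedRing Matrix.linftyOpNormedAlgebra

theorem norm_diag_one : ‖(1 : Mat n)‖ ≤ 1 := by
  rw [← diagonal_one, linfty_opNorm_diagonal, pi_norm_le_iff_of_nonneg zero_le_one]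
  simp

theorem norm_conj_diag_le (U : Mat n) (d : Fin n → ℝ) {C : ℝ} (hC : 0 ≤ C) (hd : ∀ i, |d i| ≤ C) :
    ‖U * diagonal d * Uᵀ‖ ≤ ‖U‖ * ‖Uᵀ‖ * C := by
  refine (norm_mul_le _ _).trans ?_
  refine (mul_le_mul_of_nonneg_right (norm_mul_le _ _) (norm_nonneg _)).trans ?_
  have h : ‖diagonal d‖ ≤ C := by
    rw [linfty_opNorm_diagonal, pi_norm_le_iff_of_nonneg hC]
    simpa using hd
  calc ‖U‖ * ‖diagonal d‖ * ‖Uᵀ‖ ≤ ‖U‖ * C * ‖Uᵀ‖ := by gcongr
    _ = _ := by ring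

/-- `exp (t A)` by the functional calculus. -/
def eT (A : Mat n) (t : ℝ) : Mat n := cfc (fun x => Real.exp (t * x)) A

theorem eT_pow {A : Mat n} (hA : A.IsHermitian) (t : ℝ) (k : ℕ) : eT A t ^ k = eT A (k * t) := by
  induction k with
  | zero =>
    simp only [pow_zero, Nat.cast_zero, zero_mul, eT, cfc_spectral hA, Real.exp_zero]
    rw [show diagonal (fun _ : Fin n => (1 : ℝ)) = 1 from diagonal_one, Matrix.mul_one,
      eU_orth' hA]
  | succ j ih =>
    rw [pow_succ, ih]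
    simp only [eT, cfc_spectral hA]
    have e : ∀ D E : Mat n, eU hA * D * (eU hA)ᵀ * (eU hA * E * (eU hA)ᵀ)
        = eU hA * (D * E) * (eU hA)ᵀ := by
      intro D E
      simp only [Matrix.mul_assoc]
      rw [← Matrix.mul_assoc (eU hA)ᵀ (eU hA), eU_orth hA, Matrix.one_mul]
    rw [e, diagonal_mul_diagonal]
    simp only [← Real.exp_add]
    congr 3
    funext i
    push_cast
    ring_nf

theorem eT_near {A : Mat n} (hA : A.IsHermitian) :
    ∃ C, 0 ≤ C ∧ ∃ t0 > 0, ∀ t, 0 ≤ t → t ≤ t0 → ‖eT A t - 1 - t • A‖ ≤ C * t ^ 2 := by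
  set Λ := 1 + ∑ i, |hA.eigenvalues i| with hΛ
  have hΛ1 : 1 ≤ Λ := le_add_of_nonneg_right (Finset.sum_nonneg fun i _ => abs_nonneg _)
  refine ⟨‖eU hA‖ * ‖(eU hA)ᵀ‖ * Λ ^ 2, by positivity, Λ⁻¹, by positivity, fun t ht ht' => ?_⟩
  have e : eT A t - 1 - t • A = eU hA
      * diagonal (fun i => Real.exp (t * hA.eigenvalues i) - 1 - t * hA.eigenvalues i)
      * (eU hA)ᵀ := by
    have h1 : t • A = eU hA * diagonal (fun i => t * hA.eigenvalues i) * (eU hA)ᵀ := by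
      conv_lhs => rw [spectral hA]
      rw [← Matrix.smul_mul, ← Matrix.mul_smul, ← diagonal_smul]
      rfl
    have h2 : (1 : Mat n) = eU hA * diagonal (fun _ => (1 : ℝ)) * (eU hA)ᵀ := by
      rw [show diagonal (fun _ : Fin n => (1 : ℝ)) = 1 from diagonal_one, Matrix.mul_one,
        eU_orth' hA]
    rw [eT, cfc_spectral hA, h1]
    conv_lhs => arg 1; arg 2; rw [h2]
    rw [← Matrix.sub_mul, ← Matrix.mul_sub, diagonal_sub, ← Matrix.sub_mul, ← Matrix.mul_sub,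
      diagonal_sub]
  rw [e, mul_assoc (‖eU hA‖ * ‖(eU hA)ᵀ‖)]
  refine norm_conj_diag_le _ _ (by positivity) fun i => ?_
  have hi : |hA.eigenvalues i| ≤ Λ := by
    have := Finset.single_le_sum (f := fun i => |hA.eigenvalues i|) (fun i _ => abs_nonneg _)
      (Finset.mem_univ i)
    linarith
  have h1 : |t * hA.eigenvalues i| ≤ t * Λ := by
    rw [abs_mul, abs_of_nonneg ht]
    exact mul_le_mul_of_nonneg_left hi ht
  have h2 : t * Λ ≤ 1 := by
    calc t * Λ ≤ Λ⁻¹ * Λ := by gcongr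
      _ = 1 := inv_mul_cancel₀ (by positivity)
  refine (Real.abs_exp_sub_one_sub_id_le (h1.trans h2)).trans ?_
  rw [← sq_abs, ← mul_pow, mul_comm Λ t]
  exact pow_le_pow_left₀ (abs_nonneg _) h1 2

theorem pow_sub_pow_le (X Y : Mat n) {b : ℝ} (hX : ‖X‖ ≤ b) (hY : ‖Y‖ ≤ b) (hb : 1 ≤ b) :
    ∀ k : ℕ, ‖X ^ k - Y ^ k‖ ≤ k * b ^ k * ‖X - Y‖ := by
  have hpow : ∀ (Z : Mat n), ‖Z‖ ≤ b → ∀ k : ℕ, ‖Z ^ k‖ ≤ b ^ k := by
    intro Z hZ k
    induction k with
    | zero => simpa using norm_diag_one (n := n)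
    | succ j ih =>
      rw [pow_succ, pow_succ]
      exact (norm_mul_le _ _).trans (mul_le_mul ih hZ (norm_nonneg _) (by positivity))
  intro k
  induction k with
  | zero => simp
  | succ j ih =>
    have e : X ^ (j + 1) - Y ^ (j + 1) = (X ^ j - Y ^ j) * X + Y ^ j * (X - Y) := by
      rw [pow_succ, pow_succ, sub_mul, mul_sub]; abel
    rw [e]
    refine (norm_add_le _ _).trans ?_
    have h1 : ‖(X ^ j - Y ^ j) * X‖ ≤ j * b ^ (j + 1) * ‖X - Y‖ :=
      calc ‖(X ^ j - Y ^ j) * X‖ ≤ ‖X ^ j - Y ^ j‖ * ‖X‖ := norm_mul_le _ _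
        _ ≤ (j * b ^ j * ‖X - Y‖) * b := mul_le_mul ih hX (norm_nonneg _) (by positivity)
        _ = _ := by ring
    have h2 : ‖Y ^ j * (X - Y)‖ ≤ b ^ (j + 1) * ‖X - Y‖ := by
      refine (norm_mul_le _ _).trans (mul_le_mul_of_nonneg_right ((hpow Y hY j).trans ?_) (norm_nonneg _))
      exact pow_le_pow_right₀ hb (Nat.le_succ j)
    push_cast
    linarith

theorem trace_abs_le (M : Mat n) : |M.trace| ≤ n * ‖M‖ := by
  refine (Finset.abs_sum_le_sum_abs _ _).trans ((Finset.sum_le_sum (g := fun _ => ‖M‖) fun i _ => ?_).trans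
    (le_of_eq (by simp)))
  have h := linfty_opNorm_mulVec M (Pi.single i (1 : ℝ))
  have h1 : ‖(Pi.single i (1 : ℝ) : Fin n → ℝ)‖ ≤ 1 := by
    rw [pi_norm_le_iff_of_nonneg zero_le_one]
    intro j
    by_cases hj : j = i
    · subst hj; simp
    · simp [hj]
  have h2 : |(M *ᵥ Pi.single i (1 : ℝ)) i| ≤ ‖M *ᵥ Pi.single i (1 : ℝ)‖ := by
    rw [← Real.norm_eq_abs]
    exact norm_le_pi_norm _ i
  rw [mulVec_single_one] at h2 h
  refine le_trans ?_ ((h2.trans h).trans (mul_le_of_le_one_right (norm_nonneg _) h1))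
  exact le_rfl

/-- One step of the product formula: the first-order parts cancel. -/
theorem product_step {A B : Mat n} {EA EB ES : Mat n} {τ CA CB CS : ℝ} (hτ : 0 ≤ τ) (hτ1 : τ ≤ 1)
    (hA : ‖EA‖ ≤ CA * τ ^ 2) (hB : ‖EB‖ ≤ CB * τ ^ 2) (hS : ‖ES‖ ≤ CS * τ ^ 2)
    (hCA : 0 ≤ CA) (hCB : 0 ≤ CB) (hCS : 0 ≤ CS) :
    ‖(1 + (τ • (A + B) + ES)) - (1 + (τ • A + EA)) * (1 + (τ • B + EB))‖
        ≤ (CS + CA + CB + (‖A‖ + CA) * (‖B‖ + CB)) * τ ^ 2 ∧
      ‖(1 + (τ • A + EA)) * (1 + (τ • B + EB))‖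
        ≤ 1 + τ * (‖A‖ + CA + (‖B‖ + CB) + (‖A‖ + CA) * (‖B‖ + CB)) ∧
      ‖1 + (τ • (A + B) + ES)‖ ≤ 1 + τ * (‖A + B‖ + CS) := by
  have hsq : τ ^ 2 ≤ τ := by
    rw [sq]
    exact mul_le_of_le_one_right hτ hτ1
  have bound : ∀ (M E : Mat n) (C : ℝ), 0 ≤ C → ‖E‖ ≤ C * τ ^ 2 → ‖τ • M + E‖ ≤ τ * (‖M‖ + C) := by
    intro M E C hC hE
    refine (norm_add_le _ _).trans ?_
    rw [norm_smul, Real.norm_eq_abs, abs_of_nonneg hτ, mul_add]
    refine add_le_add le_rfl (hE.trans ?_)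
    rw [mul_comm τ C]
    exact mul_le_mul_of_nonneg_left hsq hC
  have ha := bound A EA CA hCA hA
  have hb := bound B EB CB hCB hB
  have hab := mul_le_mul ha hb (norm_nonneg _) ((norm_nonneg _).trans ha)
  have hp : τ * (‖A‖ + CA) * (τ * (‖B‖ + CB)) = (‖A‖ + CA) * (‖B‖ + CB) * τ ^ 2 := by ring
  rw [hp] at hab
  have n1 := norm_diag_one (n := n)
  refine ⟨?_, ?_, ?_⟩
  · have e : (1 + (τ • (A + B) + ES)) - (1 + (τ • A + EA)) * (1 + (τ • B + EB))
        = ES - EA - EB - (τ • A + EA) * (τ • B + EB) := by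
      rw [smul_add]
      generalize τ • A = a
      generalize τ • B = b
      noncomm_ring
    rw [e]
    refine ((norm_sub_le _ _).trans (add_le_add
      ((norm_sub_le _ _).trans (add_le_add ((norm_sub_le _ _).trans (add_le_add hS hA)) hB))
      ((norm_mul_le _ _).trans hab))).trans (le_of_eq ?_)
    ring
  · have e : ∀ a b : Mat n, (1 + a) * (1 + b) = 1 + (a + b + a * b) := by intros; noncomm_ring
    rw [e]
    have hab' : ‖(τ • A + EA) * (τ • B + EB)‖ ≤ τ * ((‖A‖ + CA) * (‖B‖ + CB)) := by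
      refine ((norm_mul_le _ _).trans hab).trans ?_
      rw [mul_comm τ]
      exact mul_le_mul_of_nonneg_left hsq (by positivity)
    refine (norm_add_le _ _).trans (add_le_add n1 ?_)
    refine ((norm_add_le _ _).trans (add_le_add ((norm_add_le _ _).trans (add_le_add ha hb)) hab')).trans
      (le_of_eq ?_)
    ring
  · exact (norm_add_le _ _).trans (add_le_add n1 (bound _ _ _ hCS hS))

theorem eT_one (C : Mat n) : eT C 1 = cfc Real.exp C := by simp [eT]

theorem eT_symm {C : Mat n} (hC : C.IsHermitian) (t : ℝ) : (eT C t)ᵀ = eT C t := by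
  have := cfc_isHermitian hC (fun x => Real.exp (t * x))
  simpa [Matrix.IsHermitian, eT, conjTranspose_eq_transpose_of_trivial] using this

theorem product_formula {A B : Mat n} (hA : A.IsHermitian) (hB : B.IsHermitian) :
    ∃ K : ℝ, ∀ᶠ k : ℕ in atTop, (cfc Real.exp (A + B)).trace
      ≤ ((eT A (1 / (2 : ℝ) ^ k) * eT B (1 / (2 : ℝ) ^ k)) ^ 2 ^ k).trace + K * (1 / (2 : ℝ) ^ k) := by
  obtain ⟨CA, hCA, tA, htA, hA'⟩ := eT_near hA
  obtain ⟨CB, hCB, tB, htB, hB'⟩ := eT_near hB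
  obtain ⟨CS, hCS, tS, htS, hS'⟩ := eT_near (hA.add hB)
  set c := max (‖A‖ + CA + (‖B‖ + CB) + (‖A‖ + CA) * (‖B‖ + CB)) (‖A + B‖ + CS) with hc
  have hc0 : 0 ≤ c := le_trans (by positivity) (le_max_left _ _)
  set D := CS + CA + CB + (‖A‖ + CA) * (‖B‖ + CB) with hD
  have hD0 : 0 ≤ D := by positivity
  refine ⟨n * (D * Real.exp c), ?_⟩
  have hev : ∀ᶠ k : ℕ in atTop, 1 / (2 : ℝ) ^ k ≤ min 1 (min tA (min tB tS)) := by
    have : Tendsto (fun k : ℕ => 1 / (2 : ℝ) ^ k) atTop (𝓝 0) := by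
      simp only [one_div, ← inv_pow]
      exact tendsto_pow_atTop_nhds_zero_of_lt_one (by norm_num) (by norm_num)
    exact this.eventually (eventually_le_nhds (by positivity))
  filter_upwards [hev] with k hk
  simp only [le_min_iff] at hk
  obtain ⟨h1, h2, h3, h4⟩ := hk
  have hcancel : ((2 ^ k : ℕ) : ℝ) * (1 / (2 : ℝ) ^ k) = 1 := by push_cast; field_simp
  generalize 1 / (2 : ℝ) ^ k = τ at h1 h2 h3 h4 hcancel ⊢
  have hτ0 : 0 ≤ τ := by
    by_contra h
    have : ((2 ^ k : ℕ) : ℝ) * τ ≤ 0 := mul_nonpos_of_nonneg_of_nonpos (Nat.cast_nonneg _) (le_of_not_ge h)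
    linarith
  obtain ⟨hXY, hX, hY⟩ := product_step (A := A) (B := B) hτ0 h1 (hA' τ hτ0 h2) (hB' τ hτ0 h3)
    (hS' τ hτ0 h4) hCA hCB hCS
  have eq1 : ∀ (M : Mat n), 1 + (τ • M + (eT M τ - 1 - τ • M)) = eT M τ := fun M => by abel
  rw [eq1, eq1, eq1] at hXY
  rw [eq1, eq1] at hX
  rw [eq1] at hY
  have hb1 : 1 ≤ 1 + τ * c := le_add_of_nonneg_right (by positivity)
  have hbY : ‖eT (A + B) τ‖ ≤ 1 + τ * c :=
    hY.trans (add_le_add le_rfl (mul_le_mul_of_nonneg_left (le_max_right _ _) hτ0))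
  have hbX : ‖eT A τ * eT B τ‖ ≤ 1 + τ * c :=
    hX.trans (add_le_add le_rfl (mul_le_mul_of_nonneg_left (le_max_left _ _) hτ0))
  have hpow : eT (A + B) τ ^ 2 ^ k = cfc Real.exp (A + B) := by
    rw [eT_pow (hA.add hB), hcancel, eT_one]
  rw [← hpow, ← sub_le_iff_le_add', ← trace_sub]
  refine (le_abs_self _).trans ((trace_abs_le _).trans ?_)
  have hpw := pow_sub_pow_le _ _ hbY hbX hb1 (2 ^ k)
  have hexp : (1 + τ * c) ^ 2 ^ k ≤ Real.exp c := by
    have h0 : 1 + τ * c ≤ Real.exp (τ * c) := by linarith [Real.add_one_le_exp (τ * c)]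
    refine (pow_le_pow_left₀ (by positivity) h0 _).trans (le_of_eq ?_)
    rw [← Real.exp_nat_mul, ← mul_assoc, hcancel, one_mul]
  calc (n : ℝ) * ‖eT (A + B) τ ^ 2 ^ k - (eT A τ * eT B τ) ^ 2 ^ k‖
      ≤ n * (((2 ^ k : ℕ) : ℝ) * (1 + τ * c) ^ 2 ^ k * (D * τ ^ 2)) :=
        mul_le_mul_of_nonneg_left (hpw.trans (mul_le_mul_of_nonneg_left hXY (by positivity)))
          (Nat.cast_nonneg n)
    _ = n * (D * (1 + τ * c) ^ 2 ^ k) * ((((2 ^ k : ℕ) : ℝ) * τ) * τ) := by ring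
    _ ≤ n * (D * Real.exp c) * τ := by
        rw [hcancel, one_mul]
        gcongr

/-- Golden–Thompson. -/
theorem trace_exp_add_le {A B : Mat n} (hA : A.IsHermitian) (hB : B.IsHermitian) :
    (cfc Real.exp (A + B)).trace ≤ (cfc Real.exp A * cfc Real.exp B).trace := by
  obtain ⟨K, hK⟩ := product_formula hA hB
  have hlim : Tendsto (fun k : ℕ => (cfc Real.exp A * cfc Real.exp B).trace + K * (1 / (2 : ℝ) ^ k))
      atTop (𝓝 (cfc Real.exp A * cfc Real.exp B).trace) := by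
    have : Tendsto (fun k : ℕ => 1 / (2 : ℝ) ^ k) atTop (𝓝 0) := by
      simp only [one_div, ← inv_pow]
      exact tendsto_pow_atTop_nhds_zero_of_lt_one (by norm_num) (by norm_num)
    simpa using (this.const_mul K).const_add _
  refine ge_of_tendsto hlim ?_
  filter_upwards [hK] with k hk
  refine hk.trans (add_le_add ((power_ineq k).2 _ _ (eT_symm hA _) (eT_symm hB _)) le_rfl |>.trans
    (le_of_eq ?_))
  have : ((2 ^ k : ℕ) : ℝ) * (1 / (2 : ℝ) ^ k) = 1 := by push_cast; field_simp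
  rw [eT_pow hA, eT_pow hB, this, eT_one, eT_one]

end

end Vale.Agent.P371.Full
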