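import Vale.Agent.P371.Full.MatBasic
import Mathlib.Analysis.Matrix.Normed
import Mathlib.Analysis.SpecialFunctions.Log.Deriv
import Mathlib.MeasureTheory.Integral.IntegralEqImproper
import Mathlib.MeasureTheory.Integral.DominatedConvergence
import Mathlib.Topology.ContinuousMap.Weierstrass
import Mathlib.Analysis.Calculus.MeanValue

/-! # The matrix logarithm along paths -/

namespace Vale.Agent.P371.Full

open MeasureTheory Matrix Filter Topology Set

noncomputable section

variable {n : ℕ}

theorem abs_qform_le (M : Mat n) (v : Fin n → ℝ) :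
    |v ⬝ᵥ (M *ᵥ v)| ≤ (∑ i, ∑ j, |M i j|) * (v ⬝ᵥ v) := by
  have hv : ∀ i, v i * v i ≤ v ⬝ᵥ v := fun i =>
    Finset.single_le_sum (f := fun k => v k * v k) (fun k _ => mul_self_nonneg _) (Finset.mem_univ i)
  have hp : ∀ i j, |v i * v j| ≤ v ⬝ᵥ v := fun i j => by
    rw [abs_le]
    constructor <;> nlinarith [hv i, hv j, sq_nonneg (v i - v j), sq_nonneg (v i + v j)]
  generalize v ⬝ᵥ v = c at hp ⊢
  simp only [dotProduct, Matrix.mulVec, Finset.mul_sum, Finset.sum_mul]
  refine (Finset.abs_sum_le_sum_abs _ _).trans (Finset.sum_le_sum fun i _ => ?_)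
  refine (Finset.abs_sum_le_sum_abs _ _).trans (Finset.sum_le_sum fun j _ => ?_)
  rw [show v i * (M i j * v j) = M i j * (v i * v j) by ring, abs_mul]
  exact mul_le_mul_of_nonneg_left (hp i j) (abs_nonneg _)

theorem log_integrable {a : ℝ} (ha : 0 < a) :
    IntegrableOn (fun u => 1 / (1 + u) - 1 / (a + u)) (Ioi 0) ∧
      ∫ u in Ioi (0 : ℝ), (1 / (1 + u) - 1 / (a + u)) = Real.log a := by
  have hd : ∀ u ∈ Ici (0 : ℝ), HasDerivAt (fun u => Real.log ((1 + u) / (a + u)))
      (1 / (1 + u) - 1 / (a + u)) u := by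
    intro u hu
    have h1 : 0 < 1 + u := by linarith [mem_Ici.mp hu]
    have h2 : 0 < a + u := by linarith [mem_Ici.mp hu]
    have := ((((hasDerivAt_id' u).const_add 1).div ((hasDerivAt_id' u).const_add a) h2.ne').log
      (div_pos h1 h2).ne')
    refine this.congr_deriv ?_
    simp only [Pi.div_apply]
    field_simp
    try ring
  have hlim : Tendsto (fun u => Real.log ((1 + u) / (a + u))) atTop (𝓝 0) := by
    have h : Tendsto (fun u => 1 + (1 - a) * (a + u)⁻¹) atTop (𝓝 1) := by
      simpa using ((tendsto_atTop_add_const_left atTop a tendsto_id).inv_tendsto_atTop.const_mul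
        (1 - a)).const_add 1
    have h' : Tendsto (fun u => (1 + u) / (a + u)) atTop (𝓝 1) := by
      refine h.congr' ?_
      filter_upwards [eventually_gt_atTop 0] with u hu
      have h3 : a + u ≠ 0 := by positivity
      field_simp
      ring
    simpa using h'.log one_ne_zero
  have hint : IntegrableOn (fun u => 1 / (1 + u) - 1 / (a + u)) (Ioi 0) := by
    have hb : IntegrableOn (fun u : ℝ => ((1 + u) ^ 2)⁻¹) (Ioi 0) := by
      refine integrableOn_Ioi_deriv_of_nonneg' (g := fun u : ℝ => -(1 + u)⁻¹) (l := 0) ?_ ?_ ?_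
      · intro u hu
        have h1 : 0 < 1 + u := by linarith [mem_Ici.mp hu]
        refine ((((hasDerivAt_id' u).const_add 1).inv h1.ne').neg).congr_deriv ?_
        rw [div_eq_mul_inv]
        ring
      · intro u hu; positivity
      · simpa using (tendsto_atTop_add_const_left atTop (1 : ℝ) tendsto_id).inv_tendsto_atTop.neg
    refine Integrable.mono' (hb.const_mul (|a - 1| / min a 1)) ?_ ?_
    · refine ContinuousOn.aestronglyMeasurable ?_ measurableSet_Ioi
      intro u hu
      have h1 : 0 < 1 + u := by linarith [mem_Ioi.mp hu]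
      have h2 : 0 < a + u := by linarith [mem_Ioi.mp hu]
      exact (ContinuousAt.sub (continuousAt_const.div (continuousAt_const.add continuousAt_id) h1.ne')
        (continuousAt_const.div (continuousAt_const.add continuousAt_id) h2.ne')).continuousWithinAt
    · filter_upwards [ae_restrict_mem measurableSet_Ioi] with u hu
      have hu' : 0 < u := mem_Ioi.mp hu
      have h1 : 0 < 1 + u := by linarith
      have h2 : 0 < a + u := by linarith
      have hm : 0 < min a 1 := lt_min ha one_pos
      have h3 : min a 1 * (1 + u) ≤ a + u := by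
        nlinarith [min_le_left a 1, min_le_right a 1]
      rw [Real.norm_eq_abs, show 1 / (1 + u) - 1 / (a + u) = (a - 1) / ((1 + u) * (a + u)) by
        field_simp; ring, abs_div, abs_of_pos (mul_pos h1 h2)]
      rw [show |a - 1| / min a 1 * ((1 + u) ^ 2)⁻¹ = |a - 1| / (min a 1 * (1 + u) ^ 2) by
        field_simp]
      exact div_le_div_of_nonneg_left (abs_nonneg _) (by positivity) (by nlinarith)
  refine ⟨hint, ?_⟩
  rw [integral_Ioi_of_hasDerivAt_of_tendsto' hd hint hlim]
  simp only [add_zero, one_div, Real.log_inv, sub_neg_eq_add, zero_add]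

/-- The resolvent `(A + u)⁻¹` in spectral form. -/
theorem res_spectral {A : Mat n} (hA : A.IsHermitian) {u : ℝ}
    (h : ∀ i, 0 < hA.eigenvalues i + u) :
    (A + u • 1)⁻¹ = eU hA * diagonal (fun i => (hA.eigenvalues i + u)⁻¹) * (eU hA)ᵀ := by
  refine inv_eq_left_inv ?_
  have e : A + u • (1 : Mat n)
      = eU hA * diagonal (fun i => hA.eigenvalues i + u) * (eU hA)ᵀ := by
    conv_lhs => rw [spectral hA]
    rw [← diagonal_add, Matrix.mul_add, Matrix.add_mul]
    congr 1
    rw [← smul_one_eq_diagonal, Matrix.mul_smul, Matrix.smul_mul, Matrix.mul_one, eU_orth' hA]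
  rw [e]
  simp only [Matrix.mul_assoc]
  rw [← Matrix.mul_assoc (eU hA)ᵀ (eU hA), eU_orth hA, Matrix.one_mul,
    ← Matrix.mul_assoc (diagonal fun i => (hA.eigenvalues i + u)⁻¹), diagonal_mul_diagonal]
  rw [show (fun i => (hA.eigenvalues i + u)⁻¹ * (hA.eigenvalues i + u)) = fun _ => (1 : ℝ) from
    funext fun i => inv_mul_cancel₀ (h i).ne', diagonal_one, Matrix.one_mul, eU_orth' hA]

theorem res_entry {A : Mat n} (hA : A.IsHermitian) {u : ℝ}
    (h : ∀ i, 0 < hA.eigenvalues i + u) (i j : Fin n) :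
    (A + u • (1 : Mat n))⁻¹ i j
      = ∑ k, eU hA i k * (hA.eigenvalues k + u)⁻¹ * eU hA j k := by
  rw [res_spectral hA h, Matrix.mul_apply]
  simp only [mul_diagonal, transpose_apply]

theorem res_abs_le {A : Mat n} (hA : A.IsHermitian) {δ u : ℝ} (hδ : 0 < δ) (hu : 0 ≤ u)
    (h : ∀ i, δ ≤ hA.eigenvalues i) (i j : Fin n) :
    |(A + u • (1 : Mat n))⁻¹ i j| ≤ n * (δ + u)⁻¹ := by
  rw [res_entry hA fun k => by linarith [h k]]
  refine (Finset.abs_sum_le_sum_abs _ _).trans ((Finset.sum_le_sum (g := fun _ => (δ + u)⁻¹)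
    fun k _ => ?_).trans (le_of_eq (by simp)))
  have hp : 0 < hA.eigenvalues k + u := by linarith [h k]
  rw [abs_mul, abs_mul, abs_of_pos (inv_pos.mpr hp)]
  have h1 : (hA.eigenvalues k + u)⁻¹ ≤ (δ + u)⁻¹ := inv_anti₀ (by linarith) (by linarith [h k])
  calc |eU hA i k| * (hA.eigenvalues k + u)⁻¹ * |eU hA j k| ≤ 1 * (δ + u)⁻¹ * 1 := by
        gcongr
        exacts [abs_eU_le hA i k, abs_eU_le hA j k]
    _ = _ := by ring

theorem res_continuousOn {A : Mat n} (hA : A.PosDef) (i j : Fin n) :
    ContinuousOn (fun u : ℝ => (A + u • (1 : Mat n))⁻¹ i j) (Ioi 0) := by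
  have hpos : ∀ u ∈ Ioi (0 : ℝ), ∀ k, 0 < hA.isHermitian.eigenvalues k + u := fun u hu k =>
    add_pos (hA.eigenvalues_pos k) (mem_Ioi.mp hu)
  refine ContinuousOn.congr ?_ fun u hu => res_entry hA.isHermitian (hpos u hu) i j
  exact continuousOn_finsetSum _ fun k _ => (continuousOn_const.mul
    ((continuousOn_const.add continuousOn_id).inv₀ fun u hu => (hpos u hu k).ne')).mul continuousOn_const

theorem trace_log_integral {A : Mat n} (hA : A.PosDef) (K : Mat n) :
    IntegrableOn (fun u => K.trace / (1 + u) - (K * (A + u • (1 : Mat n))⁻¹).trace) (Ioi 0) ∧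
      ∫ u in Ioi (0 : ℝ), (K.trace / (1 + u) - (K * (A + u • (1 : Mat n))⁻¹).trace)
        = (K * cfc Real.log A).trace := by
  have hH := hA.isHermitian
  set k := fun i => ((eU hH)ᵀ * K * eU hH) i i
  have hk : K.trace = ∑ i, k i := by
    show _ = ((eU hH)ᵀ * K * eU hH).trace
    rw [trace_mul_comm, ← Matrix.mul_assoc, eU_orth' hH, Matrix.one_mul]
  have e : ∀ u ∈ Ioi (0 : ℝ), K.trace / (1 + u) - (K * (A + u • (1 : Mat n))⁻¹).trace
      = ∑ i, k i * (1 / (1 + u) - 1 / (hH.eigenvalues i + u)) := by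
    intro u hu
    have hp : ∀ i, 0 < hH.eigenvalues i + u := fun i =>
      add_pos (hA.eigenvalues_pos i) (mem_Ioi.mp hu)
    have h2 : (K * (A + u • (1 : Mat n))⁻¹).trace
        = ∑ i, k i * (1 / (hH.eigenvalues i + u)) := by
      rw [res_spectral hH hp, ← Matrix.mul_assoc, trace_mul_comm, ← Matrix.mul_assoc,
        ← Matrix.mul_assoc]
      simp only [Matrix.trace, Matrix.diag, mul_diagonal, one_div, k]
    rw [hk, h2, Finset.sum_div, ← Finset.sum_sub_distrib]
    exact Finset.sum_congr rfl fun i _ => by ring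
  have hI : ∀ i, IntegrableOn (fun u => k i * (1 / (1 + u) - 1 / (hH.eigenvalues i + u))) (Ioi 0) :=
    fun i => (log_integrable (hA.eigenvalues_pos i)).1.const_mul _
  refine ⟨IntegrableOn.congr_fun (integrable_finsetSum _ fun i _ => hI i) (fun u hu => (e u hu).symm)
    measurableSet_Ioi, ?_⟩
  rw [setIntegral_congr_fun measurableSet_Ioi e, integral_finsetSum _ fun i _ => hI i,
    trace_mul_cfc hH]
  exact Finset.sum_congr rfl fun i _ => by
    rw [integral_const_mul, (log_integrable (hA.eigenvalues_pos i)).2]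

/-- The derivative of `tr (K log A(s))`. -/
theorem hasDerivAt_trace_log {K : Mat n} {A : ℝ → Mat n} {A' : Mat n} {s : ℝ}
    (hA : ∀ᶠ t in nhds s, (A t).PosDef) (hd : ∀ i j, HasDerivAt (fun t => A t i j) (A' i j) s) :
    HasDerivAt (fun t => (K * cfc Real.log (A t)).trace)
      (∫ u in Set.Ioi (0 : ℝ), (K * ((A s + u • 1)⁻¹ * A' * (A s + u • 1)⁻¹)).trace) s := by
  have hs : (A s).PosDef := hA.self_of_nhds
  obtain ⟨δ, hδ, hev⟩ : ∃ δ > 0, ∀ᶠ t in 𝓝 s, ∃ h : (A t).IsHermitian, ∀ i, δ ≤ h.eigenvalues i := by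
    set μ := Finset.univ.inf' ⟨none, Finset.mem_univ _⟩
      (fun o : Option (Fin n) => o.elim 1 hs.isHermitian.eigenvalues) with hμ
    have hμ0 : 0 < μ := (Finset.lt_inf'_iff _).mpr fun o _ => by
      cases o with
      | none => exact one_pos
      | some i => exact hs.eigenvalues_pos i
    have hμle : ∀ i, μ ≤ hs.isHermitian.eigenvalues i := fun i =>
      Finset.inf'_le (fun o : Option (Fin n) => o.elim 1 hs.isHermitian.eigenvalues)
        (Finset.mem_univ (some i))
    refine ⟨μ / 2, by positivity, ?_⟩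
    have hc : Tendsto (fun t => ∑ i, ∑ j, |(A t - A s) i j|) (𝓝 s) (𝓝 0) := by
      have := tendsto_finsetSum Finset.univ fun i _ => tendsto_finsetSum Finset.univ fun j _ =>
        (((hd i j).continuousAt.tendsto).sub_const (A s i j)).abs
      simpa [Matrix.sub_apply] using this
    filter_upwards [hA, hc.eventually (eventually_le_nhds (half_pos hμ0))] with t ht ht'
    refine ⟨ht.isHermitian, fun i => ?_⟩
    set v := fun k => eU ht.isHermitian k i
    have h1 : v ⬝ᵥ (A t *ᵥ v) = ht.isHermitian.eigenvalues i := eigen_qform _ i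
    have hv : v ⬝ᵥ v = 1 := eigen_norm _ i
    have h2 : μ ≤ v ⬝ᵥ (A s *ᵥ v) := by
      rw [qform_eq hs.isHermitian]
      have h := normSq_eU hs.isHermitian v
      rw [hv] at h
      calc μ = μ * ∑ k, ((eU hs.isHermitian)ᵀ *ᵥ v) k ^ 2 := by
            simp only [dotProduct, ← sq] at h; rw [h, mul_one]
        _ ≤ _ := by
            rw [Finset.mul_sum]
            exact Finset.sum_le_sum fun k _ => mul_le_mul_of_nonneg_right (hμle k) (sq_nonneg _)
    have h3 := abs_qform_le (A t - A s) v
    rw [sub_mulVec, dotProduct_sub, hv, mul_one, abs_le] at h3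
    linarith [h3.1]
  obtain ⟨hsh, hsδ⟩ := hev.self_of_nhds
  rw [hasDerivAt_iff_tendsto_slope]
  set R := fun (t u : ℝ) => (A t + u • (1 : Mat n))⁻¹
  set D := fun t => (t - s)⁻¹ • (A t - A s)
  have hDlim : ∀ i j, Tendsto (fun t => D t i j) (𝓝[≠] s) (𝓝 (A' i j)) := by
    intro i j
    have := hasDerivAt_iff_tendsto_slope.mp (hd i j)
    refine this.congr fun t => ?_
    simp [slope_def_field, D, div_eq_inv_mul]
  set Φ := fun t u => (K * (R t u * D t * R s u)).trace with hΦ
  -- the resolvent identity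
  have hid : ∀ t, (∃ h : (A t).IsHermitian, ∀ i, δ ≤ h.eigenvalues i) → ∀ u, 0 < u →
      R t u - R s u = -(R t u * (A t - A s) * R s u) := by
    intro t ⟨ht, htδ⟩ u hu
    have u1 : IsUnit (A t + u • (1 : Mat n)).det := by
      refine (Matrix.isUnit_det_of_left_inverse (B := R t u) ?_)
      show (A t + u • (1 : Mat n))⁻¹ * (A t + u • (1 : Mat n)) = 1
      have hp : ∀ i, 0 < ht.eigenvalues i + u := fun i => by linarith [htδ i]
      have e : A t + u • (1 : Mat n)
          = eU ht * diagonal (fun i => ht.eigenvalues i + u) * (eU ht)ᵀ := by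
        conv_lhs => rw [spectral ht]
        rw [← diagonal_add, Matrix.mul_add, Matrix.add_mul]
        congr 1
        rw [← smul_one_eq_diagonal, Matrix.mul_smul, Matrix.smul_mul, Matrix.mul_one, eU_orth' ht]
      rw [res_spectral ht hp, e]
      simp only [Matrix.mul_assoc]
      rw [← Matrix.mul_assoc (eU ht)ᵀ (eU ht), eU_orth ht, Matrix.one_mul,
        ← Matrix.mul_assoc (diagonal fun i => (ht.eigenvalues i + u)⁻¹), diagonal_mul_diagonal]
      rw [show (fun i => (ht.eigenvalues i + u)⁻¹ * (ht.eigenvalues i + u)) = fun _ => (1 : ℝ) from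
        funext fun i => inv_mul_cancel₀ (hp i).ne', diagonal_one, Matrix.one_mul, eU_orth' ht]
    have u2 : IsUnit (A s + u • (1 : Mat n)).det := by
      rw [← Matrix.isUnit_iff_isUnit_det]
      exact ((hs.add_posSemidef ((Matrix.PosSemidef.one).smul hu.le))).isUnit
    have e : A t - A s = (A t + u • (1 : Mat n)) - (A s + u • (1 : Mat n)) := by abel
    rw [e, Matrix.mul_sub, Matrix.sub_mul, Matrix.nonsing_inv_mul _ u1, Matrix.one_mul,
      Matrix.mul_assoc, Matrix.mul_nonsing_inv _ u2, Matrix.mul_one, neg_sub]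
  obtain ⟨B, hB⟩ : ∃ B, ∀ᶠ t in 𝓝[≠] s, ∑ i, ∑ j, |D t i j| ≤ B := by
    refine ⟨(∑ i, ∑ j, |A' i j|) + 1, ?_⟩
    exact (tendsto_finsetSum Finset.univ fun i _ => tendsto_finsetSum Finset.univ fun j _ =>
      (hDlim i j).abs).eventually (eventually_le_nhds (lt_add_one _))
  have hev' : ∀ᶠ t in 𝓝[≠] s, ∃ h : (A t).IsHermitian, ∀ i, δ ≤ h.eigenvalues i :=
    hev.filter_mono nhdsWithin_le_nhds
  have hslope : ∀ᶠ t in 𝓝[≠] s, slope (fun t => (K * cfc Real.log (A t)).trace) s t
      = ∫ u in Ioi (0 : ℝ), Φ t u := by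
    filter_upwards [hev', hA.filter_mono nhdsWithin_le_nhds] with t ht htp
    rw [slope_def_field, ← (trace_log_integral htp K).2, ← (trace_log_integral hs K).2,
      ← integral_sub (trace_log_integral htp K).1 (trace_log_integral hs K).1, ← integral_div]
    refine setIntegral_congr_fun measurableSet_Ioi fun u hu => ?_
    have h := hid t ht u (mem_Ioi.mp hu)
    rw [sub_sub_sub_cancel_left, ← trace_sub, ← Matrix.mul_sub,
      show R s u - R t u = R t u * (A t - A s) * R s u by rw [← neg_sub (R t u), h, neg_neg]]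
    simp only [hΦ, D, Matrix.mul_smul, Matrix.smul_mul, trace_smul, smul_eq_mul]
    rw [div_eq_inv_mul]
  have htr : ∀ M N₁ N₂ : Mat n, (K * (M * N₁ * N₂)).trace
      = ∑ i, ∑ l, ∑ b, ∑ a, K i l * (M l a * N₁ a b * N₂ b i) := by
    intro M N₁ N₂
    simp only [Matrix.trace, Matrix.diag, Matrix.mul_apply, Finset.sum_mul, Finset.mul_sum]
  refine Tendsto.congr' (hslope.mono fun t h => h.symm) ?_
  refine tendsto_integral_filter_of_dominated_convergence
    (fun u => (∑ i, ∑ l, |K i l|) * (n * n * (B + 1) * n ^ 2) * ((δ + u) ^ 2)⁻¹) ?_ ?_ ?_ ?_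
  · filter_upwards [hA.filter_mono nhdsWithin_le_nhds] with t ht
    refine ContinuousOn.aestronglyMeasurable ?_ measurableSet_Ioi
    simp only [hΦ, htr]
    exact continuousOn_finsetSum _ fun i _ => continuousOn_finsetSum _ fun l _ =>
      continuousOn_finsetSum _ fun b _ => continuousOn_finsetSum _ fun a _ =>
        continuousOn_const.mul (((res_continuousOn ht l a).mul continuousOn_const).mul
          (res_continuousOn hs b i))
  · filter_upwards [hev', hB] with t ⟨ht, htδ⟩ hBt
    filter_upwards [ae_restrict_mem measurableSet_Ioi] with u hu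
    have hu' : 0 < u := mem_Ioi.mp hu
    rw [Real.norm_eq_abs]
    simp only [hΦ, htr]
    have hD : ∀ a b, |D t a b| ≤ B + 1 := fun a b => by
      have h1 := Finset.single_le_sum (f := fun j => |D t a j|) (fun _ _ => abs_nonneg _)
        (Finset.mem_univ b)
      have h2 := Finset.single_le_sum (f := fun i => ∑ j, |D t i j|)
        (fun _ _ => Finset.sum_nonneg fun _ _ => abs_nonneg _) (Finset.mem_univ a)
      linarith
    have hB1 : 0 ≤ B + 1 := by
      linarith [hBt.trans' (Finset.sum_nonneg fun i (_ : i ∈ Finset.univ) =>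
        Finset.sum_nonneg fun j (_ : j ∈ Finset.univ) => abs_nonneg (D t i j))]
    refine (Finset.abs_sum_le_sum_abs _ _).trans ?_
    rw [mul_assoc, Finset.sum_mul]
    refine Finset.sum_le_sum fun i _ => ?_
    refine (Finset.abs_sum_le_sum_abs _ _).trans ?_
    rw [Finset.sum_mul]
    refine Finset.sum_le_sum fun l _ => ?_
    refine (Finset.abs_sum_le_sum_abs _ _).trans ?_
    refine (Finset.sum_le_sum fun b _ => Finset.abs_sum_le_sum_abs _ _).trans ?_
    refine (Finset.sum_le_sum fun b _ => Finset.sum_le_sum fun a _ => ?_).trans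
      (le_of_eq (b := |K i l| * (n * n * (B + 1) * n ^ 2 * ((δ + u) ^ 2)⁻¹))
        (a := ∑ _b : Fin n, ∑ _a : Fin n,
          |K i l| * (n * (δ + u)⁻¹ * (B + 1) * (n * (δ + u)⁻¹))) ?_)
    · rw [abs_mul, abs_mul, abs_mul]
      gcongr
      exacts [res_abs_le ht hδ hu'.le htδ l a, hD a b, res_abs_le hsh hδ hu'.le hsδ b i]
    · simp [Finset.sum_const, nsmul_eq_mul, ← inv_pow]
      ring
  · refine IntegrableOn.integrable (Integrable.const_mul ?_ _)
    refine integrableOn_Ioi_deriv_of_nonneg' (g := fun u : ℝ => -(δ + u)⁻¹) (l := 0) ?_ ?_ ?_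
    · intro u hu
      have h1 : 0 < δ + u := by linarith [mem_Ici.mp hu]
      refine ((((hasDerivAt_id' u).const_add δ).inv h1.ne').neg).congr_deriv ?_
      rw [div_eq_mul_inv]
      ring
    · intro u hu; positivity
    · simpa using (tendsto_atTop_add_const_left atTop δ tendsto_id).inv_tendsto_atTop.neg
  · filter_upwards [ae_restrict_mem measurableSet_Ioi] with u hu
    have hu' : 0 < u := mem_Ioi.mp hu
    have hR : ∀ i j, Tendsto (fun t => R t u i j) (𝓝[≠] s) (𝓝 (R s u i j)) := by
      intro i j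
      rw [tendsto_iff_norm_sub_tendsto_zero]
      have hD0 : Tendsto (fun t => ∑ a, ∑ b, |(A t - A s) a b|) (𝓝[≠] s) (𝓝 0) := by
        have := tendsto_finsetSum Finset.univ fun i _ => tendsto_finsetSum Finset.univ fun j _ =>
          (((hd i j).continuousAt.tendsto).sub_const (A s i j)).abs
        exact (by simpa [Matrix.sub_apply] using this : Tendsto _ (𝓝 s) (𝓝 (0:ℝ))).mono_left
          nhdsWithin_le_nhds
      refine squeeze_zero' (Eventually.of_forall fun t => norm_nonneg _) ?_
        (by simpa using hD0.const_mul (((n : ℝ) * δ⁻¹) ^ 2))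
      filter_upwards [hev'] with t ht
      have h := congrFun (congrFun (hid t ht u hu') i) j
      rw [Matrix.sub_apply, Matrix.neg_apply] at h
      rw [Real.norm_eq_abs, h, abs_neg, Matrix.mul_apply]
      simp only [Matrix.mul_apply, Finset.sum_mul]
      rw [Finset.mul_sum]
      refine ((Finset.abs_sum_le_sum_abs _ _).trans (Finset.sum_le_sum fun b _ =>
        Finset.abs_sum_le_sum_abs _ _)).trans ?_
      rw [Finset.sum_comm]
      refine Finset.sum_le_sum fun a _ => ?_
      rw [Finset.mul_sum]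
      refine Finset.sum_le_sum fun b _ => ?_
      rw [abs_mul, abs_mul]
      obtain ⟨ht', htδ⟩ := ht
      have hinv : (δ + u)⁻¹ ≤ δ⁻¹ := inv_anti₀ hδ (by linarith)
      have r1 : |R t u i a| ≤ n * δ⁻¹ := (res_abs_le ht' hδ hu'.le htδ i a).trans
        (mul_le_mul_of_nonneg_left hinv (Nat.cast_nonneg n))
      have r2 : |R s u b j| ≤ n * δ⁻¹ := (res_abs_le hsh hδ hu'.le hsδ b j).trans
        (mul_le_mul_of_nonneg_left hinv (Nat.cast_nonneg n))
      calc |R t u i a| * |(A t - A s) a b| * |R s u b j|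
          ≤ (n * δ⁻¹) * |(A t - A s) a b| * (n * δ⁻¹) := by gcongr
        _ = _ := by rw [← Matrix.sub_apply]; ring
    simp only [hΦ, htr]
    exact tendsto_finsetSum _ fun i _ => tendsto_finsetSum _ fun l _ => tendsto_finsetSum _ fun b _ =>
      tendsto_finsetSum _ fun a _ => tendsto_const_nhds.mul
        (((hR l a).mul (hDlim a b)).mul tendsto_const_nhds)

end

end Vale.Agent.P371.Full
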