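import Vale.Agent.P371.Full.Defs
import Mathlib.LinearAlgebra.Lagrange
import Mathlib.Topology.ContinuousMap.Weierstrass

/-! # Traces of functions through traces of powers -/

namespace Vale.Agent.P371.Full

open MeasureTheory Matrix Polynomial Filter Topology
open scoped ComplexOrder

noncomputable section

theorem trace_pow_eq {𝕜 : Type} [RCLike 𝕜] {n : ℕ} {A : Matrix (Fin n) (Fin n) 𝕜}
    (hA : A.IsHermitian) (k : ℕ) :
    (A ^ k).trace = ∑ i, ((hA.eigenvalues i ^ k : ℝ) : 𝕜) := by
  conv_lhs => rw [hA.spectral_theorem, ← map_pow, Matrix.diagonal_pow,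
    Unitary.conjStarAlgAut_apply]
  rw [Matrix.trace_mul_cycle, Unitary.coe_star_mul_self, one_mul, Matrix.trace_diagonal]
  refine Finset.sum_congr rfl fun i _ => ?_
  simp

/-- Polynomial functions of the spectrum are combinations of traces of powers. -/
theorem sum_eval_eq {𝕜 : Type} [RCLike 𝕜] {n : ℕ} {A : Matrix (Fin n) (Fin n) 𝕜}
    (hA : A.IsHermitian) (P : ℝ[X]) :
    ∑ i, P.eval (hA.eigenvalues i)
      = ∑ k ∈ Finset.range (P.natDegree + 1), P.coeff k * RCLike.re (A ^ k).trace := by
  simp only [trace_pow_eq hA, map_sum, RCLike.ofReal_re, Finset.mul_sum]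
  rw [Finset.sum_comm]
  exact Finset.sum_congr rfl fun i _ => Polynomial.eval_eq_sum_range _

theorem trFn_of_herm {n : ℕ} {A : Mat n} (hA : A.IsHermitian) (f : ℝ → ℝ) :
    trFn f A = ∑ i, f (hA.eigenvalues i) := dif_pos hA

theorem trFn_eval {n : ℕ} {A : Mat n} (hA : A.IsHermitian) (P : ℝ[X]) :
    trFn (fun v => P.eval v) A
      = ∑ k ∈ Finset.range (P.natDegree + 1), P.coeff k * (A ^ k).trace := by
  rw [trFn_of_herm hA, sum_eval_eq hA P]
  rfl

/-- Equal traces of powers give equal traces of every function. -/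
theorem trFn_eq_two_mul {n m : ℕ} {A : Mat n} (hA : A.IsHermitian)
    {B : Matrix (Fin m) (Fin m) ℂ} (hB : B.IsHermitian)
    (h : ∀ k, (A ^ k).trace = 2 * (B ^ k).trace.re) (f : ℝ → ℝ) :
    trFn f A = 2 * ∑ i, f (hB.eigenvalues i) := by
  set s := Finset.univ.image hA.eigenvalues ∪ Finset.univ.image hB.eigenvalues
  set P := Lagrange.interpolate s (id : ℝ → ℝ) f
  have hP : ∀ x ∈ s, P.eval x = f x := fun x hx =>
    Lagrange.eval_interpolate_at_node f Function.injective_id.injOn hx
  have e1 : ∀ i, P.eval (hA.eigenvalues i) = f (hA.eigenvalues i) := fun i =>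
    hP _ (Finset.mem_union_left _ (Finset.mem_image_of_mem _ (Finset.mem_univ i)))
  have e2 : ∀ i, P.eval (hB.eigenvalues i) = f (hB.eigenvalues i) := fun i =>
    hP _ (Finset.mem_union_right _ (Finset.mem_image_of_mem _ (Finset.mem_univ i)))
  have e3 : trFn f A = trFn (fun v => P.eval v) A := by
    rw [trFn_of_herm hA, trFn_of_herm hA]
    exact Finset.sum_congr rfl fun i _ => (e1 i).symm
  rw [e3, trFn_eval hA, ← Finset.sum_congr rfl fun i _ => e2 i, sum_eval_eq hB P, Finset.mul_sum]
  refine Finset.sum_congr rfl fun k _ => ?_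
  rw [h, show RCLike.re (B ^ k).trace = (B ^ k).trace.re from rfl]
  ring

theorem eigenvalue_mem {n : ℕ} {A : Mat n} (hA : A.PosSemidef) (i : Fin n) :
    hA.isHermitian.eigenvalues i ∈ Set.Icc (0 : ℝ) A.trace := by
  refine ⟨hA.eigenvalues_nonneg i, ?_⟩
  have h := hA.isHermitian.trace_eq_sum_eigenvalues
  simp only [RCLike.ofReal_real_eq_id, id_eq] at h
  rw [h]
  exact Finset.single_le_sum (fun j _ => hA.eigenvalues_nonneg j) (Finset.mem_univ i)

theorem entry_sq_le {n : ℕ} {A : Mat n} (hA : A.PosSemidef) (i j : Fin n) :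
    |A i j| ≤ A.trace := by
  have hd : ∀ k, 0 ≤ A k k := fun k => hA.diag_nonneg
  have hsum : ∀ k l, k ≠ l → A k k + A l l ≤ A.trace := fun k l hkl => by
    refine (le_of_eq (Finset.sum_pair hkl (f := fun x => A x x)).symm).trans ?_
    exact Finset.sum_le_sum_of_subset_of_nonneg (Finset.subset_univ _) fun x _ _ => hd x
  rcases eq_or_ne i j with rfl | hij
  · rw [abs_of_nonneg (hd i)]
    exact Finset.single_le_sum (f := fun x => A.diag x) (fun x _ => hd x) (Finset.mem_univ i)
  · have hs : A j i = A i j := hA.isHermitian.apply i j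
    have key : ∀ t : ℝ, 0 ≤ A i i + t * (A i j + A j i) + t ^ 2 * A j j := fun t => by
      have := hA.dotProduct_mulVec_nonneg (Pi.single i 1 + t • Pi.single j 1)
      simp only [star_trivial, Matrix.mulVec_add, Matrix.mulVec_smul, add_dotProduct, smul_dotProduct,
        dotProduct_add, dotProduct_smul, mulVec_single, single_dotProduct, MulOpposite.op_one,
        one_smul, col_apply, one_mul, smul_eq_mul] at this
      linarith
    have h1 := key 1
    have h2 := key (-1)
    have := hsum i j hij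
    rw [abs_le]; constructor <;> nlinarith [hd i, hd j]

/-- Continuity of the trace of a function on positive matrices. -/
theorem tendsto_trFn {ι : Type} {l : Filter ι} {n : ℕ} {A : ι → Mat n} {B : Mat n}
    (hA : ∀ k, (A k).PosSemidef) (hB : B.PosSemidef)
    (h : ∀ i j, Tendsto (fun k => A k i j) l (𝓝 (B i j))) {f : ℝ → ℝ}
    (hf : ContinuousOn f (Set.Ici 0)) :
    Tendsto (fun k => trFn f (A k)) l (𝓝 (trFn f B)) := by
  have htr : Tendsto (fun k => (A k).trace) l (𝓝 B.trace) :=
    tendsto_finsetSum _ fun i _ => h i i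
  set R := B.trace + 1
  rw [Metric.tendsto_nhds]
  intro ε hε
  obtain ⟨P, hP⟩ := exists_polynomial_near_of_continuousOn 0 R f
    (hf.mono fun x hx => hx.1) (ε / (3 * (n + 1))) (by positivity)
  have hpow : ∀ k i j, Tendsto (fun c => (A c ^ k) i j) l (𝓝 ((B ^ k) i j)) := by
    intro k
    induction k with
    | zero => intro i j; simpa using tendsto_const_nhds
    | succ k ih =>
      intro i j
      simp only [pow_succ, Matrix.mul_apply]
      exact tendsto_finsetSum _ fun t _ => (ih i t).mul (h t j)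
  have hPt : Tendsto (fun c => trFn (fun v => P.eval v) (A c)) l (𝓝 (trFn (fun v => P.eval v) B)) := by
    simp only [fun c => trFn_eval (hA c).isHermitian P, trFn_eval hB.isHermitian P]
    exact tendsto_finsetSum _ fun k _ => (tendsto_finsetSum _ fun i _ => hpow k i i).const_mul _
  have near : ∀ {C : Mat n}, C.PosSemidef → C.trace ≤ R →
      |trFn f C - trFn (fun v => P.eval v) C| ≤ ε / 3 := by
    intro C hC hCR
    rw [trFn_of_herm hC.isHermitian, trFn_of_herm hC.isHermitian, ← Finset.sum_sub_distrib]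
    refine (Finset.abs_sum_le_sum_abs _ _).trans
      ((Finset.sum_le_card_nsmul _ _ (ε / (3 * (n + 1))) fun i _ => ?_).trans ?_)
    · rw [abs_sub_comm]
      exact (hP _ ⟨(eigenvalue_mem hC i).1, (eigenvalue_mem hC i).2.trans hCR⟩).le
    · simp only [Finset.card_univ, Fintype.card_fin, nsmul_eq_mul]
      rw [show (n : ℝ) * (ε / (3 * (n + 1))) = n / (n + 1) * (ε / 3) by field_simp]
      exact mul_le_of_le_one_left (by positivity) (div_le_one (by positivity) |>.mpr (by linarith))
  filter_upwards [htr.eventually_le_const (show B.trace < R by linarith),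
    (Metric.tendsto_nhds.mp hPt) (ε / 3) (by positivity)] with c hc hd
  rw [Real.dist_eq] at hd ⊢
  have h1 := abs_le.mp (near (hA c) hc)
  have h2 := abs_le.mp (near hB (by linarith))
  have h3 := abs_lt.mp hd
  exact abs_lt.mpr ⟨by linarith, by linarith⟩

theorem trFn_rpow_nonneg {n : ℕ} {A : Mat n} (hA : A.PosSemidef) (p : ℝ) :
    0 ≤ trFn (fun v => v ^ p) A := by
  rw [trFn_of_herm hA.isHermitian]
  exact Finset.sum_nonneg fun i _ => Real.rpow_nonneg (eigenvalue_mem hA i).1 _

theorem trace_le_trFn {n : ℕ} {A : Mat n} (hA : A.PosSemidef) {p : ℝ} (hp : 1 ≤ p) :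
    A.trace ≤ n + trFn (fun v => v ^ p) A := by
  have h := hA.isHermitian.trace_eq_sum_eigenvalues
  simp only [RCLike.ofReal_real_eq_id, id_eq] at h
  rw [trFn_of_herm hA.isHermitian, h,
    show (n : ℝ) + ∑ i, hA.isHermitian.eigenvalues i ^ p
      = ∑ i, ((1 : ℝ) + hA.isHermitian.eigenvalues i ^ p) by simp [Finset.sum_add_distrib]]
  refine Finset.sum_le_sum fun i _ => ?_
  have h0 := Real.rpow_nonneg (eigenvalue_mem hA i).1 p
  rcases le_total (hA.isHermitian.eigenvalues i) 1 with h1 | h1
  · linarith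
  · linarith [Real.self_le_rpow_of_one_le h1 hp]

theorem trFn_le_of_trace_le {n : ℕ} {A : Mat n} (hA : A.PosSemidef) {p R : ℝ} (hp : 0 ≤ p)
    (hR : A.trace ≤ R) : trFn (fun v => v ^ p) A ≤ n * R ^ p := by
  rw [trFn_of_herm hA.isHermitian]
  refine (Finset.sum_le_card_nsmul _ _ (R ^ p) fun i _ => ?_).trans (by simp)
  exact Real.rpow_le_rpow (eigenvalue_mem hA i).1 ((eigenvalue_mem hA i).2.trans hR) hp

theorem trFn_zero {n : ℕ} {p : ℝ} (hp : p ≠ 0) : trFn (fun v => v ^ p) (0 : Mat n) = 0 := by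
  have h0 : (0 : Mat n).PosSemidef := Matrix.PosSemidef.zero
  rw [trFn_of_herm h0.isHermitian]
  refine Finset.sum_eq_zero fun i _ => ?_
  have := eigenvalue_mem h0 i
  rw [Matrix.trace_zero, Set.Icc_self, Set.mem_singleton_iff] at this
  rw [this, Real.zero_rpow hp]

end

end Vale.Agent.P371.Full
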