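import Vale.Agent.P371.Full.TrPoly
import Mathlib.Analysis.Calculus.BumpFunction.InnerProduct
import Mathlib.MeasureTheory.Function.ContinuousMapDense
import Mathlib.MeasureTheory.Integral.IntervalIntegral.LebesgueDifferentiationThm
import Mathlib.MeasureTheory.Function.L2Space

/-! # Limits of quadratic quantities and approximations by compactly supported functions -/

namespace Vale.Agent.P371.Full

open MeasureTheory Filter Topology

noncomputable section

/-- Square integrable real function. -/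
def IsSq (u : ℝ → ℝ) : Prop := AEStronglyMeasurable u volume ∧ Integrable fun x => u x ^ 2

theorem IsSq.mul {u v : ℝ → ℝ} (hu : IsSq u) (hv : IsSq v) : Integrable fun x => u x * v x := by
  refine Integrable.mono' (hu.2.add hv.2) (hu.1.mul hv.1) (Eventually.of_forall fun x => ?_)
  simp only [Real.norm_eq_abs, Pi.add_apply, abs_mul]
  nlinarith [sq_abs (u x), sq_abs (v x), sq_nonneg (|u x| - |v x|), abs_nonneg (u x), abs_nonneg (v x)]

theorem IsSq.sub {u v : ℝ → ℝ} (hu : IsSq u) (hv : IsSq v) : IsSq fun x => u x - v x := by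
  refine ⟨hu.1.sub hv.1, Integrable.mono' ((hu.2.add hv.2).const_mul 2)
    ((hu.1.sub hv.1).pow 2) (Eventually.of_forall fun x => ?_)⟩
  simp only [Real.norm_eq_abs, Pi.add_apply, abs_pow, sq_abs]
  nlinarith [sq_nonneg (u x + v x)]

/-- Mean square convergence of both factors. -/
theorem abs_prod_tendsto {u v : ℝ → ℝ} {uk vk : ℕ → ℝ → ℝ} (hu : IsSq u) (hv : IsSq v)
    (huk : ∀ k, IsSq (uk k)) (hvk : ∀ k, IsSq (vk k))
    (h1 : Tendsto (fun k => ∫ x, (uk k x - u x) ^ 2) atTop (𝓝 0))
    (h2 : Tendsto (fun k => ∫ x, (vk k x - v x) ^ 2) atTop (𝓝 0)) :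
    Tendsto (fun k => ∫ x, |uk k x * vk k x - u x * v x|) atTop (𝓝 0) := by
  rw [Metric.tendsto_nhds]
  intro ε hε
  set U := ∫ x, u x ^ 2
  set V := ∫ x, v x ^ 2
  have hU : 0 ≤ U := integral_nonneg fun x => sq_nonneg _
  have hV : 0 ≤ V := integral_nonneg fun x => sq_nonneg _
  set t := ε / (4 * (U + V + 1))
  have ht : 0 < t := by positivity
  have ht2 : t * (U + V) ≤ ε / 4 := by
    rw [show t * (U + V) = ε / 4 * ((U + V) / (U + V + 1)) by simp only [t]; field_simp]
    exact mul_le_of_le_one_right (by positivity) ((div_le_one (by positivity)).mpr (by linarith))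
  have hlim : Tendsto (fun k => (1 / t + 1) * (∫ x, (uk k x - u x) ^ 2)
      + (1 / t + 1) * ∫ x, (vk k x - v x) ^ 2) atTop (𝓝 0) := by
    simpa using (h1.const_mul (1 / t + 1)).add (h2.const_mul (1 / t + 1))
  filter_upwards [hlim.eventually_lt_const (show (0 : ℝ) < ε / 2 by linarith)] with k hk
  rw [Real.dist_eq, sub_zero, abs_of_nonneg (integral_nonneg fun x => abs_nonneg _)]
  have ie := ((huk k).sub hu).2
  have ifv := ((hvk k).sub hv).2
  refine lt_of_le_of_lt (integral_mono (((huk k).mul (hvk k)).sub (hu.mul hv)).abs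
    (((ie.const_mul (1 / t + 1)).add (ifv.const_mul (1 / t + 1))).add
      ((hu.2.add hv.2).const_mul t)) fun x => ?_) ?_
  · simp only [Pi.add_apply]
    set e := uk k x - u x with he
    set f := vk k x - v x with hf
    have e1 : uk k x * vk k x - u x * v x = e * v x + u x * f + e * f := by rw [he, hf]; ring
    rw [e1]
    have amgm : ∀ p q : ℝ, |p * q| ≤ (1 / t) * p ^ 2 + t * q ^ 2 := fun p q => by
      rw [abs_mul, ← sq_abs p, ← sq_abs q]
      have h0 : (0 : ℝ) ≤ (|p| - t * |q|) ^ 2 / t := div_nonneg (sq_nonneg _) ht.le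
      have : (|p| - t * |q|) ^ 2 / t = 1 / t * |p| ^ 2 - 2 * (|p| * |q|) + t * |q| ^ 2 := by
        field_simp; ring
      nlinarith [abs_nonneg p, abs_nonneg q]
    have a1 := amgm e (v x)
    have a2 := amgm f (u x)
    rw [abs_mul] at a1 a2
    have a3 : |e| * |f| ≤ e ^ 2 + f ^ 2 := by
      nlinarith [sq_abs e, sq_abs f, sq_nonneg (|e| - |f|), abs_nonneg e, abs_nonneg f]
    calc |e * v x + u x * f + e * f| ≤ |e * v x| + |u x * f| + |e * f| := abs_add_three _ _ _
      _ ≤ _ := by simp only [abs_mul]; linarith [mul_comm |f| |u x|]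
  · rw [integral_add' ((ie.const_mul _).add (ifv.const_mul _)) ((hu.2.add hv.2).const_mul t),
      integral_add' (ie.const_mul _) (ifv.const_mul _)]
    simp only [integral_const_mul, Pi.add_apply]
    rw [integral_add hu.2 hv.2]
    linarith

theorem prod_tendsto {u v : ℝ → ℝ} {uk vk : ℕ → ℝ → ℝ} (hu : IsSq u) (hv : IsSq v)
    (huk : ∀ k, IsSq (uk k)) (hvk : ∀ k, IsSq (vk k))
    (h1 : Tendsto (fun k => ∫ x, (uk k x - u x) ^ 2) atTop (𝓝 0))
    (h2 : Tendsto (fun k => ∫ x, (vk k x - v x) ^ 2) atTop (𝓝 0)) :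
    Tendsto (fun k => ∫ x, uk k x * vk k x) atTop (𝓝 (∫ x, u x * v x)) := by
  rw [tendsto_iff_norm_sub_tendsto_zero]
  refine squeeze_zero (fun k => norm_nonneg _) (fun k => ?_)
    (abs_prod_tendsto hu hv huk hvk h1 h2)
  rw [← integral_sub ((huk k).mul (hvk k)) (hu.mul hv)]
  exact (norm_integral_le_integral_norm _).trans (le_of_eq (by simp only [Real.norm_eq_abs]))

/-- A weight dominated by a constant plus an integrable function. -/
theorem weighted_tendsto {w T u v : ℝ → ℝ} {uk vk : ℕ → ℝ → ℝ} {C B : ℝ}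
    (hw : AEStronglyMeasurable w volume) (hwb : ∀ x, |w x| ≤ C + T x)
    (hT : Integrable T) (hT0 : ∀ x, 0 ≤ T x) (hu : IsSq u) (hv : IsSq v)
    (huk : ∀ k, IsSq (uk k)) (hvk : ∀ k, IsSq (vk k))
    (h1 : Tendsto (fun k => ∫ x, (uk k x - u x) ^ 2) atTop (𝓝 0))
    (h2 : Tendsto (fun k => ∫ x, (vk k x - v x) ^ 2) atTop (𝓝 0))
    (hB : ∀ k x, |uk k x| ≤ B ∧ |vk k x| ≤ B) (hB' : ∀ x, |u x| ≤ B ∧ |v x| ≤ B)
    (hpt : ∀ x, Tendsto (fun k => uk k x) atTop (𝓝 (u x)) ∧
      Tendsto (fun k => vk k x) atTop (𝓝 (v x))) :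
    (Integrable fun x => w x * (u x * v x)) ∧ (∀ k, Integrable fun x => w x * (uk k x * vk k x)) ∧
    Tendsto (fun k => ∫ x, w x * (uk k x * vk k x)) atTop (𝓝 (∫ x, w x * (u x * v x))) := by
  have hint : ∀ {a b : ℝ → ℝ}, IsSq a → IsSq b → (∀ x, |a x| ≤ B ∧ |b x| ≤ B) →
      Integrable fun x => w x * (a x * b x) := by
    intro a b ha hb hab
    refine Integrable.mono' (((ha.mul hb).abs.const_mul C).add (hT.const_mul (B * B)))
      (hw.mul (ha.1.mul hb.1)) (Eventually.of_forall fun x => ?_)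
    simp only [Real.norm_eq_abs, abs_mul, Pi.add_apply]
    have h3 : |a x| * |b x| ≤ B * B :=
      mul_le_mul (hab x).1 (hab x).2 (abs_nonneg _) ((abs_nonneg _).trans (hab x).1)
    calc |w x| * (|a x| * |b x|) ≤ (C + T x) * (|a x| * |b x|) :=
          mul_le_mul_of_nonneg_right (hwb x) (by positivity)
      _ ≤ _ := by nlinarith [hT0 x, abs_nonneg (a x), abs_nonneg (b x)]
  refine ⟨hint hu hv hB', fun k => hint (huk k) (hvk k) (hB k), ?_⟩
  rw [tendsto_iff_norm_sub_tendsto_zero]
  set Δ : ℕ → ℝ → ℝ := fun k x => uk k x * vk k x - u x * v x with hΔ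
  have hΔi : ∀ k, Integrable (fun x => |Δ k x|) := fun k => (((huk k).mul (hvk k)).sub (hu.mul hv)).abs
  have hΔb : ∀ k x, |Δ k x| ≤ 2 * (B * B) := fun k x => by
    have a1 := mul_le_mul (hB k x).1 (hB k x).2 (abs_nonneg _) ((abs_nonneg _).trans (hB k x).1)
    have a2 := mul_le_mul (hB' x).1 (hB' x).2 (abs_nonneg _) ((abs_nonneg _).trans (hB' x).1)
    simp only [hΔ]
    have := abs_sub (uk k x * vk k x) (u x * v x)
    rw [abs_mul, abs_mul] at this
    linarith
  have hTΔ : ∀ k, Integrable (fun x => T x * |Δ k x|) := fun k =>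
    Integrable.mono' (hT.const_mul (2 * (B * B))) (hT.1.mul (hΔi k).1) (Eventually.of_forall fun x => by
      rw [Real.norm_eq_abs, abs_mul, abs_abs, abs_of_nonneg (hT0 x), mul_comm]
      exact mul_le_mul_of_nonneg_right (hΔb k x) (hT0 x))
  have hTlim : Tendsto (fun k => ∫ x, T x * |Δ k x|) atTop (𝓝 0) := by
    rw [← integral_zero ℝ ℝ]
    refine tendsto_integral_of_dominated_convergence (fun x => 2 * (B * B) * T x)
      (fun k => (hTΔ k).1) (hT.const_mul _) (fun k => Eventually.of_forall fun x => ?_)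
      (Eventually.of_forall fun x => ?_)
    · rw [Real.norm_eq_abs, abs_mul, abs_abs, abs_of_nonneg (hT0 x), mul_comm]
      exact mul_le_mul_of_nonneg_right (hΔb k x) (hT0 x)
    · simpa using (((((hpt x).1.mul (hpt x).2)).sub_const (u x * v x)).abs).const_mul (T x)
  refine squeeze_zero (fun k => norm_nonneg _) (fun k => ?_)
    (by simpa using ((abs_prod_tendsto hu hv huk hvk h1 h2).const_mul C).add hTlim)
  rw [← integral_sub (hint (huk k) (hvk k) (hB k)) (hint hu hv hB')]
  refine (norm_integral_le_integral_norm _).trans ?_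
  rw [← integral_const_mul, ← integral_add ((hΔi k).const_mul C) (hTΔ k)]
  refine integral_mono_of_nonneg (Eventually.of_forall fun x => norm_nonneg _)
    (((hΔi k).const_mul C).add (hTΔ k)) (Eventually.of_forall fun x => ?_)
  show ‖w x * (uk k x * vk k x) - w x * (u x * v x)‖ ≤ C * |Δ k x| + T x * |Δ k x|
  rw [← mul_sub, Real.norm_eq_abs, abs_mul, ← add_mul]
  exact mul_le_mul_of_nonneg_right (hwb x) (abs_nonneg _)

/-- Approximation of an `H¹` function by compactly supported `C¹` functions. -/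
theorem exists_c1_approx {u u' : ℝ → ℝ} (hu : IsSq u) (hu' : IsSq u')
    (hftc : ∀ a b, u b - u a = ∫ x in a..b, u' x) {B : ℝ} (hB : ∀ x, |u x| ≤ B) :
    ∃ uk uk' : ℕ → ℝ → ℝ,
      (∀ k x, HasDerivAt (uk k) (uk' k x) x) ∧ (∀ k, Continuous (uk' k)) ∧
      (∀ (k : ℕ) x, 2 * ((k : ℝ) + 1) ≤ |x| → uk k x = 0 ∧ uk' k x = 0) ∧
      (∀ k x, |uk k x| ≤ B + 3) ∧ (∀ x, Tendsto (fun k => uk k x) atTop (𝓝 (u x))) ∧
      Tendsto (fun k => ∫ x, (uk k x - u x) ^ 2) atTop (𝓝 0) ∧
      Tendsto (fun k => ∫ x, (uk' k x - u' x) ^ 2) atTop (𝓝 0) := by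
  set R : ℕ → ℝ := fun k => (k : ℝ) + 1 with hR
  have hR1 : ∀ k, 1 ≤ R k := fun k => by simp only [hR]; linarith [Nat.cast_nonneg (α := ℝ) k]
  have hR0 : ∀ k, 0 < R k := fun k => zero_lt_one.trans_le (hR1 k)
  have hg : ∀ k, ∃ g : ℝ → ℝ, Continuous g ∧ IsSq g ∧ ∫ x, (g x - u' x) ^ 2 ≤ 1 / R k ^ 6 := by
    intro k
    have hm : MemLp u' 2 volume := (memLp_two_iff_integrable_sq hu'.1).mpr hu'.2
    obtain ⟨g, -, hgle, hgc, hgm⟩ := hm.exists_hasCompactSupport_eLpNorm_sub_le
      (ε := ENNReal.ofReal (1 / R k ^ 3)) (by norm_num)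
      (by simpa using pow_pos (hR0 k) 3)
    refine ⟨g, hgc, ⟨hgc.aestronglyMeasurable, (memLp_two_iff_integrable_sq hgm.1).mp hgm⟩, ?_⟩
    have hd : MemLp (u' - g) 2 volume := hm.sub hgm
    rw [hd.eLpNorm_eq_integral_rpow_norm (by norm_num) (by norm_num),
      ENNReal.ofReal_le_ofReal_iff (by positivity)] at hgle
    simp only [ENNReal.toReal_ofNat, Real.rpow_two, Real.norm_eq_abs, sq_abs, Pi.sub_apply] at hgle
    have h0 : 0 ≤ ∫ x, (u' x - g x) ^ 2 := integral_nonneg fun x => sq_nonneg _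
    have h2 := pow_le_pow_left₀ (Real.rpow_nonneg h0 _) hgle 2
    rw [← Real.rpow_natCast, ← Real.rpow_mul h0, div_pow, one_pow, ← pow_mul] at h2
    norm_num at h2
    rw [one_div]
    calc ∫ x, (g x - u' x) ^ 2 = ∫ x, (u' x - g x) ^ 2 := by congr 1; funext x; ring
      _ ≤ _ := h2
  choose g hgc hgsq hgE using hg
  set h : ContDiffBump (0 : ℝ) := ⟨1, 2, zero_lt_one, one_lt_two⟩
  have hh : ContDiff ℝ 1 (h : ℝ → ℝ) := h.contDiff
  set h' : ℝ → ℝ := deriv h
  have hh'c : Continuous h' := hh.continuous_deriv le_rfl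
  have hh'z : ∀ y : ℝ, 2 ≤ |y| → h y = 0 ∧ h' y = 0 := by
    intro y hy
    have hz : ∀ z : ℝ, 2 ≤ |z| → h z = 0 := fun z hz =>
      h.zero_of_le_dist (by rwa [Real.dist_eq, sub_zero])
    refine ⟨hz y hy, IsLocalMin.deriv_eq_zero ?_⟩
    filter_upwards with z
    rw [hz y hy]
    exact h.nonneg
  obtain ⟨M, hM⟩ : ∃ M, ∀ y, |h' y| ≤ M := by
    obtain ⟨M, hM⟩ := h.hasCompactSupport.deriv.exists_bound_of_continuous hh'c
    exact ⟨M, fun y => (Real.norm_eq_abs _).symm.le.trans (hM y)⟩
  have hM0 : 0 ≤ M := (abs_nonneg _).trans (hM 0)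
  set χ : ℕ → ℝ → ℝ := fun k x => h (x / R k)
  set χ' : ℕ → ℝ → ℝ := fun k x => h' (x / R k) / R k
  have hχd : ∀ k x, HasDerivAt (χ k) (χ' k x) x := fun k x => by
    have := ((hh.differentiable one_ne_zero) (x / R k)).hasDerivAt.comp x ((hasDerivAt_id x).div_const (R k))
    exact this.congr_deriv (by simp only [χ', h']; ring)
  have hχc : ∀ k, Continuous (χ k) := fun k => hh.continuous.comp (continuous_id.div_const _)
  have hχc' : ∀ k, Continuous (χ' k) := fun k => (hh'c.comp (continuous_id.div_const _)).div_const _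
  have hχ01 : ∀ k x, 0 ≤ χ k x ∧ χ k x ≤ 1 := fun k x => ⟨h.nonneg, h.le_one⟩
  have hχz : ∀ k x, 2 * R k ≤ |x| → χ k x = 0 ∧ χ' k x = 0 := fun k x hx => by
    have h2 : 2 ≤ |x / R k| := by rw [abs_div, abs_of_pos (hR0 k), le_div_iff₀ (hR0 k)]; linarith
    obtain ⟨a1, a2⟩ := hh'z _ h2
    exact ⟨a1, by simp [χ', a2]⟩
  have hχ' : ∀ k x, |χ' k x| ≤ M / R k := fun k x => by
    simp only [χ', abs_div, abs_of_pos (hR0 k)]
    exact div_le_div_of_nonneg_right (hM _) (hR0 k).le
  have hχt : ∀ x, Tendsto (fun k => χ k x) atTop (𝓝 1) := fun x => by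
    refine tendsto_const_nhds.congr' ?_
    filter_upwards [eventually_ge_atTop ⌈|x|⌉₊] with k hk
    refine (h.one_of_mem_closedBall ?_).symm
    rw [Metric.mem_closedBall, Real.dist_eq, sub_zero, abs_div, abs_of_pos (hR0 k), div_le_one (hR0 k)]
    have : (⌈|x|⌉₊ : ℝ) ≤ k := Nat.cast_le.mpr hk
    simp only [hR]
    linarith [Nat.le_ceil |x|]
  set P : ℕ → ℝ → ℝ := fun k x => u 0 + ∫ t in (0 : ℝ)..x, g k t
  have hPd : ∀ k x, HasDerivAt (P k) (g k x) x := fun k x =>
    ((hgc k).integral_hasStrictDerivAt 0 x).hasDerivAt.const_add _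
  have hPc : ∀ k, Continuous (P k) := fun k =>
    continuous_iff_continuousAt.mpr fun x => (hPd k x).continuousAt
  have hu'int : ∀ a b : ℝ, IntervalIntegrable u' volume a b := fun a b => by
    have hm : MemLp u' 2 volume := (memLp_two_iff_integrable_sq hu'.1).mpr hu'.2
    exact intervalIntegrable_iff.mpr (((hm.locallyIntegrable (by norm_num)).integrableOn_isCompact
      isCompact_uIcc).mono_set Set.uIoc_subset_uIcc)
  have hErr : ∀ k x, |x| ≤ 2 * R k → |P k x - u x| ≤ 3 / R k ^ 2 := by
    intro k x hx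
    have hi : IntervalIntegrable (fun t => g k t - u' t) volume 0 x :=
      ((hgc k).intervalIntegrable 0 x).sub (hu'int 0 x)
    have e : P k x - u x = ∫ t in (0 : ℝ)..x, (g k t - u' t) := by
      rw [intervalIntegral.integral_sub ((hgc k).intervalIntegrable 0 x) (hu'int 0 x), ← hftc 0 x]
      simp only [P]; ring
    rw [e, ← Real.norm_eq_abs, intervalIntegral.norm_intervalIntegral_eq]
    refine (norm_integral_le_integral_norm _).trans ?_
    set τ := 1 / R k ^ 3 with hτ
    have hτ0 : 0 < τ := by have := hR0 k; positivity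
    have hsq := ((hgsq k).sub hu').2
    have : IsFiniteMeasure (volume.restrict (Set.uIoc 0 x)) := by
      refine isFiniteMeasure_restrict.mpr (ne_of_lt ?_)
      exact (measure_mono Set.uIoc_subset_uIcc).trans_lt isCompact_uIcc.measure_lt_top
    refine (integral_mono (intervalIntegrable_iff.mp hi).norm
      (((hsq.const_mul (1 / τ)).integrableOn).add (integrable_const τ)) fun t => ?_).trans ?_
    · simp only [Real.norm_eq_abs, Pi.add_apply]
      have h0 : (0 : ℝ) ≤ (|g k t - u' t| - τ) ^ 2 / τ := div_nonneg (sq_nonneg _) hτ0.le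
      have h1 : (|g k t - u' t| - τ) ^ 2 / τ
          = 1 / τ * (g k t - u' t) ^ 2 - 2 * |g k t - u' t| + τ := by
        rw [← sq_abs (g k t - u' t)]; field_simp; ring
      linarith [abs_nonneg (g k t - u' t)]
    · rw [integral_add' (hsq.const_mul _).integrableOn (integrable_const τ), integral_const_mul,
        integral_const, smul_eq_mul, measureReal_restrict_apply_univ, Set.uIoc, Real.volume_real_Ioc,
        max_sub_min_eq_abs', zero_sub, abs_neg, max_eq_left (abs_nonneg x)]
      have a1 : ∫ t in Set.Ioc (min 0 x) (max 0 x), (g k t - u' t) ^ 2 ≤ 1 / R k ^ 6 :=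
        (setIntegral_le_integral hsq (Eventually.of_forall fun t => sq_nonneg _)).trans (hgE k)
      have a2 : 1 / τ * (1 / R k ^ 6) = 1 / R k ^ 3 := by
        rw [hτ]; have := hR0 k; field_simp
      have a3 : 1 / R k ^ 3 ≤ 1 / R k ^ 2 :=
        one_div_le_one_div_of_le (pow_pos (hR0 k) 2) (pow_le_pow_right₀ (hR1 k) (by norm_num))
      have a4 : |x| * τ ≤ 2 / R k ^ 2 := by
        refine (mul_le_mul_of_nonneg_right hx hτ0.le).trans (le_of_eq ?_)
        rw [hτ]; have := hR0 k; field_simp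
      have a5 := mul_le_mul_of_nonneg_left a1 (show (0 : ℝ) ≤ 1 / τ by positivity)
      have a6 : 3 / R k ^ 2 = 1 / R k ^ 2 + 2 / R k ^ 2 := by ring
      linarith
  have hR2 : ∀ k, 3 / R k ^ 2 ≤ 3 := fun k => by
    rw [div_le_iff₀ (pow_pos (hR0 k) 2)]; nlinarith [hR1 k]
  refine ⟨fun k x => χ k x * P k x, fun k x => χ' k x * P k x + χ k x * g k x,
    fun k x => (hχd k x).fun_mul (hPd k x), fun k => ((hχc' k).mul (hPc k)).add ((hχc k).mul (hgc k)),
    fun k x hx => ?_, fun k x => ?_, fun x => ?_, ?_, ?_⟩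
  · simp [hχz k x hx]
  · rcases le_or_gt |x| (2 * R k) with hx | hx
    · rw [abs_mul, abs_of_nonneg (hχ01 k x).1]
      refine (mul_le_of_le_one_left (abs_nonneg _) (hχ01 k x).2).trans ?_
      have h1 := abs_sub_abs_le_abs_sub (P k x) (u x)
      linarith [hErr k x hx, hR2 k, hB x]
    · simp [(hχz k x hx.le).1]; linarith [(abs_nonneg (u x)).trans (hB x)]
  · have hP : Tendsto (fun k => P k x) atTop (𝓝 (u x)) := by
      rw [tendsto_iff_norm_sub_tendsto_zero]
      have hlim : Tendsto (fun k => 3 / R k ^ 2) atTop (𝓝 0) :=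
        tendsto_const_nhds.div_atTop ((tendsto_pow_atTop two_ne_zero).comp
          (tendsto_atTop_add_const_right _ 1 tendsto_natCast_atTop_atTop))
      refine squeeze_zero' (Eventually.of_forall fun k => norm_nonneg _) ?_ hlim
      filter_upwards [eventually_ge_atTop ⌈|x|⌉₊] with k hk
      rw [Real.norm_eq_abs]
      refine hErr k x ?_
      have : (⌈|x|⌉₊ : ℝ) ≤ k := Nat.cast_le.mpr hk
      simp only [hR]
      linarith [Nat.le_ceil |x|, abs_nonneg x]
    simpa using (hχt x).mul hP
  all_goals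
    set E : ℕ → ℝ → ℝ := fun k => Set.indicator (Set.Icc (-(2 * R k)) (2 * R k)) fun _ => 1 with hE
    have hEi : ∀ k, Integrable (E k) ∧ ∫ x, E k x = 4 * R k := fun k => by
      refine ⟨(integrable_indicator_iff measurableSet_Icc).mpr
        (integrableOn_const (by simp [Real.volume_Icc])), ?_⟩
      rw [hE, integral_indicator_const _ measurableSet_Icc, Real.volume_real_Icc,
        max_eq_left (by linarith [hR0 k]), smul_eq_mul]
      ring
    have hE1 : ∀ k x, |x| ≤ 2 * R k → E k x = 1 := fun k x hx =>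
      Set.indicator_of_mem (show x ∈ Set.Icc (-(2 * R k)) (2 * R k) from abs_le.mp hx) _
    have hE0 : ∀ k x, 0 ≤ E k x := fun k x => Set.indicator_nonneg (fun _ _ => zero_le_one) _
  · refine squeeze_zero (fun k => integral_nonneg fun x => sq_nonneg _)
      (g := fun k => (∫ x, 2 * ((χ k x - 1) ^ 2 * u x ^ 2)) + 2 * (3 / R k ^ 2) ^ 2 * (4 * R k))
      (fun k => ?_) ?_
    · have i1 : Integrable fun x => 2 * ((χ k x - 1) ^ 2 * u x ^ 2) := by
        refine Integrable.const_mul (Integrable.mono' hu.2 ((((hχc k).sub continuous_const).pow 2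
          ).aestronglyMeasurable.mul hu.2.1) (Eventually.of_forall fun x => ?_)) 2
        simp only [Pi.pow_apply, Pi.sub_apply, Pi.mul_apply, Real.norm_eq_abs]
        rw [abs_of_nonneg (mul_nonneg (sq_nonneg _) (sq_nonneg _))]
        exact mul_le_of_le_one_left (sq_nonneg _) (by nlinarith [(hχ01 k x).1, (hχ01 k x).2])
      rw [← (hEi k).2, ← integral_const_mul, ← integral_add i1 ((hEi k).1.const_mul _)]
      refine integral_mono_of_nonneg (Eventually.of_forall fun x => sq_nonneg _)
        (i1.add ((hEi k).1.const_mul _)) (Eventually.of_forall fun x => ?_)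
      have hEx := hE0 k x
      dsimp only
      rcases le_or_gt |x| (2 * R k) with hx | hx
      · rw [hE1 k x hx, mul_one]
        have := pow_le_pow_left₀ (abs_nonneg _) (hErr k x hx) 2
        rw [sq_abs] at this
        have hχ2 : χ k x ^ 2 ≤ 1 := by nlinarith [(hχ01 k x).1, (hχ01 k x).2]
        calc (χ k x * P k x - u x) ^ 2 = ((χ k x - 1) * u x + χ k x * (P k x - u x)) ^ 2 := by ring
          _ ≤ 2 * ((χ k x - 1) * u x) ^ 2 + 2 * (χ k x * (P k x - u x)) ^ 2 := by
              nlinarith [sq_nonneg ((χ k x - 1) * u x - χ k x * (P k x - u x))]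
          _ ≤ _ := by
              rw [mul_pow, mul_pow]
              have := mul_le_mul hχ2 this (sq_nonneg _) zero_le_one
              linarith
      · rw [(hχz k x hx.le).1]
        have := mul_nonneg (mul_nonneg zero_le_two (sq_nonneg (3 / R k ^ 2))) hEx
        nlinarith [sq_nonneg (u x)]
    · have l1 : Tendsto (fun k => ∫ x, 2 * ((χ k x - 1) ^ 2 * u x ^ 2)) atTop (𝓝 0) := by
        rw [← integral_zero ℝ ℝ]
        refine tendsto_integral_of_dominated_convergence (fun x => 2 * u x ^ 2) (fun k => ?_)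
          (hu.2.const_mul 2) (fun k => Eventually.of_forall fun x => ?_) (Eventually.of_forall fun x => ?_)
        · exact ((((hχc k).sub continuous_const).pow 2).aestronglyMeasurable.mul hu.2.1).const_mul 2
        · rw [Real.norm_eq_abs, abs_of_nonneg (by positivity)]
          exact mul_le_mul_of_nonneg_left (mul_le_of_le_one_left (sq_nonneg _)
            (by nlinarith [(hχ01 k x).1, (hχ01 k x).2])) zero_le_two
        · simpa using ((((hχt x).sub_const 1).pow 2).mul_const (u x ^ 2)).const_mul 2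
      have hRt : Tendsto R atTop atTop :=
        tendsto_atTop_add_const_right _ 1 tendsto_natCast_atTop_atTop
      have l2 : Tendsto (fun k => 2 * (3 / R k ^ 2) ^ 2 * (4 * R k)) atTop (𝓝 0) := by
        have : Tendsto (fun k => 72 / R k ^ 3) atTop (𝓝 0) :=
          tendsto_const_nhds.div_atTop ((tendsto_pow_atTop (by norm_num : (3 : ℕ) ≠ 0)).comp hRt)
        refine this.congr fun k => ?_
        have := hR0 k
        field_simp
        ring
      simpa using l1.add l2
  · refine squeeze_zero (fun k => integral_nonneg fun x => sq_nonneg _)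
      (g := fun k => (∫ x, 3 * ((χ k x - 1) ^ 2 * u' x ^ 2)) + 3 / R k ^ 6
        + 3 * (M / R k * (B + 3)) ^ 2 * (4 * R k))
      (fun k => ?_) ?_
    · have i1 : Integrable fun x => 3 * ((χ k x - 1) ^ 2 * u' x ^ 2) := by
        refine Integrable.const_mul (Integrable.mono' hu'.2 ((((hχc k).sub continuous_const).pow 2
          ).aestronglyMeasurable.mul hu'.2.1) (Eventually.of_forall fun x => ?_)) 3
        simp only [Pi.pow_apply, Pi.sub_apply, Pi.mul_apply, Real.norm_eq_abs]
        rw [abs_of_nonneg (mul_nonneg (sq_nonneg _) (sq_nonneg _))]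
        exact mul_le_of_le_one_left (sq_nonneg _) (by nlinarith [(hχ01 k x).1, (hχ01 k x).2])
      have i2 : Integrable fun x => 3 * (g k x - u' x) ^ 2 := ((hgsq k).sub hu').2.const_mul 3
      refine le_trans (integral_mono_of_nonneg (Eventually.of_forall fun x => sq_nonneg _)
        ((i1.add i2).add ((hEi k).1.const_mul (3 * (M / R k * (B + 3)) ^ 2)))
        (Eventually.of_forall fun x => ?_)) ?_
      · simp only [Pi.add_apply]
        have hχ2 : χ k x ^ 2 ≤ 1 := by nlinarith [(hχ01 k x).1, (hχ01 k x).2]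
        have hb : (χ' k x * P k x) ^ 2 ≤ (M / R k * (B + 3)) ^ 2 * E k x := by
          rcases le_or_gt |x| (2 * R k) with hx | hx
          · rw [hE1 k x hx, mul_one]
            refine sq_le_sq.mpr ?_
            rw [abs_mul]
            refine le_trans ?_ (le_abs_self _)
            refine mul_le_mul (hχ' k x) ?_ (abs_nonneg _) (by have := hR0 k; positivity)
            have h1 := abs_sub_abs_le_abs_sub (P k x) (u x)
            linarith [hErr k x hx, hR2 k, hB x]
          · rw [(hχz k x hx.le).2, zero_mul, zero_pow two_ne_zero]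
            exact mul_nonneg (sq_nonneg _) (hE0 k x)
        calc (χ' k x * P k x + χ k x * g k x - u' x) ^ 2
            = ((χ k x - 1) * u' x + χ k x * (g k x - u' x) + χ' k x * P k x) ^ 2 := by ring
          _ ≤ 3 * ((χ k x - 1) * u' x) ^ 2 + 3 * (χ k x * (g k x - u' x)) ^ 2
              + 3 * (χ' k x * P k x) ^ 2 := by
              nlinarith [sq_nonneg ((χ k x - 1) * u' x - χ k x * (g k x - u' x)),
                sq_nonneg ((χ k x - 1) * u' x - χ' k x * P k x),
                sq_nonneg (χ k x * (g k x - u' x) - χ' k x * P k x)]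
          _ ≤ _ := by
              rw [mul_pow (χ k x - 1), mul_pow (χ k x)]
              have := mul_le_of_le_one_left (sq_nonneg (g k x - u' x)) hχ2
              linarith
      · rw [integral_add' (i1.add i2) ((hEi k).1.const_mul _), integral_add' i1 i2,
          integral_const_mul, integral_const_mul, integral_const_mul, (hEi k).2]
        have := hgE k
        rw [show 3 / R k ^ 6 = 3 * (1 / R k ^ 6) by ring]
        linarith
    · have l1 : Tendsto (fun k => ∫ x, 3 * ((χ k x - 1) ^ 2 * u' x ^ 2)) atTop (𝓝 0) := by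
        rw [← integral_zero ℝ ℝ]
        refine tendsto_integral_of_dominated_convergence (fun x => 3 * u' x ^ 2) (fun k => ?_)
          (hu'.2.const_mul 3) (fun k => Eventually.of_forall fun x => ?_) (Eventually.of_forall fun x => ?_)
        · exact ((((hχc k).sub continuous_const).pow 2).aestronglyMeasurable.mul hu'.2.1).const_mul 3
        · rw [Real.norm_eq_abs, abs_of_nonneg (by positivity)]
          exact mul_le_mul_of_nonneg_left (mul_le_of_le_one_left (sq_nonneg _)
            (by nlinarith [(hχ01 k x).1, (hχ01 k x).2])) (by norm_num)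
        · simpa using ((((hχt x).sub_const 1).pow 2).mul_const (u' x ^ 2)).const_mul 3
      have hRt : Tendsto R atTop atTop :=
        tendsto_atTop_add_const_right _ 1 tendsto_natCast_atTop_atTop
      have l2 : Tendsto (fun k => 3 / R k ^ 6) atTop (𝓝 0) :=
        tendsto_const_nhds.div_atTop ((tendsto_pow_atTop (by norm_num : (6 : ℕ) ≠ 0)).comp hRt)
      have l3 : Tendsto (fun k => 3 * (M / R k * (B + 3)) ^ 2 * (4 * R k)) atTop (𝓝 0) := by
        have : Tendsto (fun k => 12 * (M * (B + 3)) ^ 2 / R k) atTop (𝓝 0) :=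
          tendsto_const_nhds.div_atTop hRt
        refine this.congr fun k => ?_
        have := hR0 k
        field_simp
        ring
      simpa using (l1.add l2).add l3

end

end Vale.Agent.P371.Full
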